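import Mathlib

namespace Vale.Agent.Lib.P160

open Finset

section LO

variable {ι : Type*} [Fintype ι] [DecidableEq ι]

/-- The middle binomial coefficient `C(m, m/2)`. -/
def cb (m : ℕ) : ℕ := Nat.choose m (m / 2)

/-- Dot product of a sign vector with a real vector. -/
def sdot (x : ι → ℤˣ) (w : ι → ℝ) : ℝ := ∑ j, ((x j : ℤ) : ℝ) * w j

/-- The set of coordinates `j` where `x j * w j` is positive. -/
noncomputable def posSet (w : ι → ℝ) (x : ι → ℤˣ) : Finset ι :=
  univ.filter fun j => 0 < ((x j : ℤ) : ℝ) * w j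

theorem term_eq (w : ι → ℝ) (x : ι → ℤˣ) (j : ι) :
    ((x j : ℤ) : ℝ) * w j = if j ∈ posSet w x then |w j| else -|w j| := by
  rcases Int.units_eq_one_or (x j) with h | h
  · by_cases hp : 0 < w j
    · simp [posSet, h, hp, abs_of_pos hp]
    · simp [posSet, h, hp, abs_of_nonpos (not_lt.1 hp)]
  · by_cases hp : w j < 0
    · simp [posSet, h, hp, abs_of_neg hp]
    · simp [posSet, h, hp, abs_of_nonneg (not_lt.1 hp)]

theorem sdot_eq (w : ι → ℝ) (x : ι → ℤˣ) :
    sdot x w = 2 * ∑ j ∈ posSet w x, |w j| - ∑ j, |w j| := by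
  classical
  unfold sdot
  rw [Finset.sum_congr rfl (fun j _ => term_eq w x j)]
  have h : ∀ j, (if j ∈ posSet w x then |w j| else -|w j|) =
      2 * (if j ∈ posSet w x then |w j| else 0) - |w j| := by
    intro j
    split_ifs <;> ring
  rw [Finset.sum_congr rfl (fun j _ => h j), Finset.sum_sub_distrib, ← Finset.mul_sum,
    Finset.sum_ite_mem, Finset.univ_inter]

theorem posSet_injective (w : ι → ℝ) (hw : ∀ j, w j ≠ 0) : Function.Injective (posSet w) := by
  intro x y h
  funext j
  have hx := term_eq w x j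
  have hy := term_eq w y j
  rw [h] at hx
  have h1 : ((x j : ℤ) : ℝ) * w j = ((y j : ℤ) : ℝ) * w j := hx.trans hy.symm
  have h2 : ((x j : ℤ) : ℝ) = ((y j : ℤ) : ℝ) := mul_right_cancel₀ (hw j) h1
  exact Units.ext (by exact_mod_cast h2)

/-- Erdős's Littlewood-Offord bound via Sperner's theorem. -/
theorem lo_count_full (w : ι → ℝ) (hw : ∀ j, w j ≠ 0) (c : ℝ) :
    ((univ : Finset (ι → ℤˣ)).filter fun x => sdot x w = c).card ≤ cb (Fintype.card ι) := by
  classical
  have hcard : ((((univ : Finset (ι → ℤˣ)).filter fun x => sdot x w = c)).image (posSet w)).card =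
      ((univ : Finset (ι → ℤˣ)).filter fun x => sdot x w = c).card :=
    Finset.card_image_of_injective _ (posSet_injective w hw)
  rw [← hcard]
  apply IsAntichain.sperner
  intro a ha b hb hab hsub
  simp only [coe_image, Set.mem_image, mem_coe] at ha hb
  obtain ⟨x, hx, rfl⟩ := ha
  obtain ⟨y, hy, rfl⟩ := hb
  have hx' : sdot x w = c := (mem_filter.1 hx).2
  have hy' : sdot y w = c := (mem_filter.1 hy).2
  rw [sdot_eq] at hx' hy'
  have hss : posSet w x ⊂ posSet w y := lt_of_le_of_ne hsub hab
  obtain ⟨j0, hj0, hj0'⟩ := Finset.exists_of_ssubset hss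
  have hlt : ∑ j ∈ posSet w x, |w j| < ∑ j ∈ posSet w y, |w j| :=
    Finset.sum_lt_sum_of_subset hsub hj0 hj0' (abs_pos.2 (hw j0)) (fun j _ _ => abs_nonneg _)
  linarith

/-- Littlewood-Offord bound for a vector with `s` nonzero coordinates. -/
theorem lo_count (w : ι → ℝ) (c : ℝ) :
    ((univ : Finset (ι → ℤˣ)).filter fun x => sdot x w = c).card ≤
      2 ^ (Fintype.card ι - (univ.filter fun j => w j ≠ 0).card) *
        cb (univ.filter fun j => w j ≠ 0).card := by
  classical
  let p : ι → Prop := fun j => w j ≠ 0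
  let e := Equiv.piEquivPiSubtypeProd p (fun _ => ℤˣ)
  let w' : {j // p j} → ℝ := fun j => w j.1
  have hsd : ∀ x : ι → ℤˣ, sdot x w = sdot (fun j : {j // p j} => x j.1) w' := by
    intro x
    unfold sdot
    rw [← Fintype.sum_subtype_add_sum_subtype p (fun j => ((x j : ℤ) : ℝ) * w j)]
    have h0 : ∑ j : {j // ¬ p j}, ((x j.1 : ℤ) : ℝ) * w j.1 = 0 := by
      apply Finset.sum_eq_zero
      intro j _
      have hj : w j.1 = 0 := by simpa [p] using j.2
      simp [hj]
    rw [h0, add_zero]
  have h1 : ((univ : Finset (ι → ℤˣ)).filter fun x => sdot x w = c).card ≤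
      ((((univ : Finset ({j // p j} → ℤˣ)).filter fun x => sdot x w' = c) ×ˢ
        (univ : Finset ({j // ¬ p j} → ℤˣ)))).card := by
    apply Finset.card_le_card_of_injOn e
    · intro x hx
      simp only [coe_filter, mem_univ, true_and, Set.mem_ofPred_eq] at hx
      simp only [coe_product, coe_filter, mem_univ, true_and, coe_univ, Set.mem_prod,
        Set.mem_ofPred_eq, Set.mem_univ, and_true]
      rw [hsd] at hx
      exact hx
    · exact e.injective.injOn
  refine h1.trans ?_
  rw [Finset.card_product, Finset.card_univ, Fintype.card_fun, Fintype.card_units_int, mul_comm]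
  have h2 := lo_count_full w' (fun j => j.2) c
  have h3 : Fintype.card {j // p j} = (univ.filter fun j => w j ≠ 0).card :=
    Fintype.card_subtype _
  have h4 : Fintype.card {j // ¬ p j} =
      Fintype.card ι - (univ.filter fun j => w j ≠ 0).card := by
    rw [Fintype.card_subtype_compl, h3]
  rw [h4, ← h3]
  exact Nat.mul_le_mul_left _ h2

end LO

end Vale.Agent.Lib.P160
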