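import Vale.Agent.Lib.P160.Count
import Vale.Agent.Lib.P160.LO

namespace Vale.Agent.Lib.P160

open Finset Matrix

section general

variable {ι : Type*} [Fintype ι] [DecidableEq ι]

/-- The real matrix of a sign matrix. -/
def toR (A : Matrix ι ι ℤˣ) : Matrix ι ι ℝ := A.map fun u : ℤˣ => ((u : ℤ) : ℝ)

omit [DecidableEq ι] in
theorem toR_mulVec (A : Matrix ι ι ℤˣ) (v : ι → ℝ) (k : ι) :
    (toR A *ᵥ v) k = sdot (A k) v := by
  simp [toR, Matrix.mulVec, dotProduct, sdot]

/-- Peeling off row and column `i` of a symmetric sign matrix. -/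
theorem peel (i : ι) (P : Matrix ι ι ℤˣ → Prop) [DecidablePred P]
    (X : Finset (ι → ℤˣ)) (Q : (ι → ℤˣ) → Matrix {k // k ≠ i} {k // k ≠ i} ℤˣ → Prop)
    [∀ x, DecidablePred (Q x)] (M : ℕ)
    (hrow : ∀ A ∈ symSet ι, P A → A i ∈ X)
    (hrest : ∀ A ∈ symSet ι, P A → Q (A i) (restr i A))
    (hM : ∀ x ∈ X, ((symSet {k // k ≠ i}).filter (Q x)).card ≤ M) :
    ((symSet ι).filter P).card ≤ M * X.card := by
  refine Finset.card_le_mul_card_image_of_maps_to (f := fun A : Matrix ι ι ℤˣ => A i) ?_ M ?_
  · intro A hA
    rw [mem_filter] at hA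
    exact hrow A hA.1 hA.2
  · intro x hx
    refine le_trans ?_ (hM x hx)
    refine Finset.card_le_card_of_injOn (restr i) ?_ ?_
    · intro A hA
      rw [mem_coe, mem_filter, mem_filter] at hA
      rw [mem_coe, mem_filter]
      obtain ⟨⟨hA1, hA2⟩, hA3⟩ := hA
      refine ⟨restr_mem_symSet hA1, ?_⟩
      rw [← hA3]
      exact hrest A hA1 hA2
    · intro A hA A' hA' h
      rw [mem_coe, mem_filter, mem_filter] at hA hA'
      have hs := mem_symSet.1 hA.1.1
      have hs' := mem_symSet.1 hA'.1.1
      have hrow' : A i = A' i := hA.2.trans hA'.2.symm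
      refine Matrix.ext fun k l => ?_
      by_cases hk : k = i
      · subst hk
        exact congrFun hrow' l
      · by_cases hl : l = i
        · subst hl
          rw [hs k l, hs' k l]
          exact congrFun hrow' k
        · exact congrFun (congrFun h ⟨k, hk⟩) ⟨l, hl⟩

omit [Fintype ι] in
theorem card_filter_subtype_ne [Fintype ι] (i : ι) (p : ι → Prop) [DecidablePred p] :
    (univ.filter fun k : {k // k ≠ i} => p k.1).card = ((univ.filter p).erase i).card := by
  rw [← Finset.card_map (Function.Embedding.subtype _)]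
  congr 1
  ext j
  simp only [mem_map, mem_filter, mem_univ, true_and, Function.Embedding.coe_subtype,
    Subtype.exists, exists_and_right, exists_eq_right, mem_erase]
  constructor
  · rintro ⟨h1, h2⟩
    exact ⟨h1, h2⟩
  · rintro ⟨h1, h2⟩
    exact ⟨h1, h2⟩

end general

/-- The counting bound: `G n s` bounds the number of symmetric sign matrices `A` of size `n`
with `A v = c` when `v` has exactly `s` nonzero coordinates. -/
def G (n s : ℕ) : ℕ :=
  2 ^ (Nat.choose (n - s + 1) 2) * cb s ^ (n - s) * ∏ m ∈ range (s + 1), cb m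

theorem G_step_zero {n s : ℕ} (hs : s ≤ n) : G n s * (2 ^ (n + 1 - s) * cb s) = G (n + 1) s := by
  unfold G
  have h1 : n + 1 - s = (n - s) + 1 := by omega
  have h2 : Nat.choose (n - s + 1 + 1) 2 = Nat.choose (n - s + 1) 2 + (n - s + 1) := by
    rw [Nat.choose_succ_succ' (n - s + 1) 1, Nat.choose_one_right, add_comm]
  rw [h1, h2, pow_add, pow_succ (cb s)]
  ring

theorem G_step_full (n : ℕ) : G n n * cb (n + 1) = G (n + 1) (n + 1) := by
  unfold G
  rw [Finset.prod_range_succ _ (n + 1)]
  simp

theorem count_eq_le : ∀ (n : ℕ) (ι : Type) [Fintype ι] [DecidableEq ι], Fintype.card ι = n →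
    ∀ (v c : ι → ℝ), ((symSet ι).filter fun A => toR A *ᵥ v = c).card ≤
      G n (univ.filter fun j => v j ≠ 0).card := by
  intro n
  induction n with
  | zero =>
    intro ι _ _ hcard v c
    have hempty : IsEmpty ι := Fintype.card_eq_zero_iff.1 hcard
    have h1 : (univ.filter fun j => v j ≠ 0).card = 0 := by
      rw [Finset.card_eq_zero, Finset.filter_eq_empty_iff]
      intro j
      exact (hempty.false j).elim
    rw [h1]
    refine (Finset.card_filter_le _ _).trans ?_
    rw [card_symSet, hcard]
    simp [G, cb]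
  | succ n ih =>
    intro ι _ _ hcard v c
    have hne : Nonempty ι := Fintype.card_pos_iff.1 (by omega)
    obtain ⟨i, hi⟩ : ∃ i : ι, (∃ j, v j = 0) → v i = 0 := by
      by_cases h : ∃ j, v j = 0
      · obtain ⟨j, hj⟩ := h
        exact ⟨j, fun _ => hj⟩
      · exact ⟨hne.some, fun h' => (h h').elim⟩
    have hcard' : Fintype.card {k // k ≠ i} = n := by
      rw [card_subtype_ne, hcard]; rfl
    have hX := lo_count v (c i)
    rw [hcard] at hX
    have key := peel i (fun A => toR A *ᵥ v = c)
      ((univ : Finset (ι → ℤˣ)).filter fun x => sdot x v = c i)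
      (fun x A' => toR A' *ᵥ (fun k : {k // k ≠ i} => v k.1) =
        fun k : {k // k ≠ i} => c k.1 - ((x k.1 : ℤ) : ℝ) * v i)
      (G n ((univ.filter fun k : {k // k ≠ i} => v k.1 ≠ 0).card)) ?_ ?_ ?_
    · refine key.trans ?_
      rw [card_filter_subtype_ne i (fun j => v j ≠ 0)]
      by_cases hz : ∃ j, v j = 0
      · have hvi : v i = 0 := hi hz
        have hnot : i ∉ univ.filter fun j => v j ≠ 0 := by simp [hvi]
        rw [Finset.erase_eq_of_notMem hnot]
        have hle : (univ.filter fun j => v j ≠ 0).card ≤ n := by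
          have h2 : (univ.filter fun j => v j ≠ 0) ⊆ (univ : Finset ι).erase i := by
            intro j hj
            rw [mem_erase]
            refine ⟨?_, mem_univ _⟩
            rintro rfl
            exact hnot hj
          have h3 := Finset.card_le_card h2
          rw [Finset.card_erase_of_mem (mem_univ i), Finset.card_univ, hcard] at h3
          exact h3
        calc _ ≤ G n (univ.filter fun j => v j ≠ 0).card *
              (2 ^ (n + 1 - (univ.filter fun j => v j ≠ 0).card) *
                cb (univ.filter fun j => v j ≠ 0).card) := Nat.mul_le_mul_left _ hX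
          _ = G (n + 1) (univ.filter fun j => v j ≠ 0).card := G_step_zero hle
      · have hall : (univ.filter fun j => v j ≠ 0) = univ := by
          rw [Finset.filter_eq_self]
          intro j _ hj
          exact hz ⟨j, hj⟩
        rw [hall] at hX ⊢
        rw [Finset.card_erase_of_mem (mem_univ i), Finset.card_univ, hcard] at *
        simp only [Nat.add_sub_cancel, Nat.sub_self, pow_zero, one_mul] at hX ⊢
        calc _ ≤ G n n * cb (n + 1) := Nat.mul_le_mul_left _ hX
          _ = G (n + 1) (n + 1) := G_step_full n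
    · intro A _ hA
      rw [mem_filter]
      refine ⟨mem_univ _, ?_⟩
      rw [← toR_mulVec, hA]
    · intro A hA1 hA
      have hs := mem_symSet.1 hA1
      funext k
      have h1 := congrFun hA k.1
      rw [toR_mulVec] at h1 ⊢
      unfold sdot at h1 ⊢
      rw [Fintype.sum_eq_add_sum_subtype_ne _ i] at h1
      rw [hs i k.1]
      have h2 : ∑ j : {j // j ≠ i}, ((restr i A k j : ℤ) : ℝ) * v j.1 =
          ∑ j : {j // j ≠ i}, ((A k.1 j.1 : ℤ) : ℝ) * v j.1 := rfl
      rw [h2]
      linarith
    · intro x _
      exact ih {k // k ≠ i} hcard' _ _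

end Vale.Agent.Lib.P160
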