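import Vale.Agent.Lib.P160.LO

namespace Vale.Agent.Lib.P160

open Finset

/-- The Littlewood-Offord ratio `C(m, m/2) / 2^m`. -/
noncomputable def Lr (m : ℕ) : ℝ := (cb m : ℝ) / 2 ^ m

theorem cb_pos (m : ℕ) : 0 < cb m := Nat.choose_pos (Nat.div_le_self m 2)

theorem cb_succ_le (m : ℕ) : cb (m + 1) ≤ 2 * cb m := by
  unfold cb
  rcases Nat.eq_zero_or_pos ((m + 1) / 2) with h | h
  · rw [h]
    have : 0 < Nat.choose m (m / 2) := cb_pos m
    simp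
    omega
  · obtain ⟨k, hk⟩ : ∃ k, (m + 1) / 2 = k + 1 := ⟨(m + 1) / 2 - 1, by omega⟩
    rw [hk, Nat.choose_succ_succ']
    have h1 := Nat.choose_le_middle k m
    have h2 := Nat.choose_le_middle (k + 1) m
    omega

theorem Lr_pos (m : ℕ) : 0 < Lr m := by
  unfold Lr
  have : (0 : ℝ) < cb m := by exact_mod_cast cb_pos m
  positivity

theorem Lr_succ_le (m : ℕ) : Lr (m + 1) ≤ Lr m := by
  unfold Lr
  rw [div_le_div_iff₀ (by positivity) (by positivity), pow_succ]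
  have h : ((cb (m + 1) : ℕ) : ℝ) ≤ 2 * (cb m : ℝ) := by exact_mod_cast cb_succ_le m
  have h2 : (0 : ℝ) < 2 ^ m := by positivity
  nlinarith

theorem Lr_antitone {a b : ℕ} (h : a ≤ b) : Lr b ≤ Lr a := by
  induction h with
  | refl => exact le_rfl
  | step _ ih => exact (Lr_succ_le _).trans ih

theorem Lr_zero : Lr 0 = 1 := by simp [Lr, cb]

theorem Lr_le_one (m : ℕ) : Lr m ≤ 1 := by
  have := Lr_antitone (Nat.zero_le m)
  rwa [Lr_zero] at this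

theorem Lr_three : Lr 3 = 3 / 8 := by
  simp [Lr, cb, Nat.choose]
  norm_num

theorem Lr_le_of_three_le {s : ℕ} (h : 3 ≤ s) : Lr s ≤ 3 / 8 := by
  have := Lr_antitone h
  rwa [Lr_three] at this

theorem centralBinom_sq_le (m : ℕ) : Nat.centralBinom m ^ 2 * (2 * m + 1) ≤ 16 ^ m := by
  induction m with
  | zero => simp
  | succ m ih =>
    have h := Nat.succ_mul_centralBinom_succ m
    have h1 : ((m + 1) * Nat.centralBinom (m + 1)) ^ 2 * (2 * (m + 1) + 1) ≤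
        (m + 1) ^ 2 * 16 ^ (m + 1) := by
      rw [h]
      have h3 : (2 * m + 1) * (2 * (m + 1) + 1) ≤ 4 * (m + 1) ^ 2 := by nlinarith
      calc (2 * (2 * m + 1) * Nat.centralBinom m) ^ 2 * (2 * (m + 1) + 1)
          = 4 * (Nat.centralBinom m ^ 2 * (2 * m + 1)) * ((2 * m + 1) * (2 * (m + 1) + 1)) := by
            ring
        _ ≤ 4 * 16 ^ m * (4 * (m + 1) ^ 2) := by
            exact Nat.mul_le_mul (Nat.mul_le_mul_left 4 ih) h3
        _ = (m + 1) ^ 2 * 16 ^ (m + 1) := by ring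
    have h2 : (m + 1) ^ 2 * (Nat.centralBinom (m + 1) ^ 2 * (2 * (m + 1) + 1)) ≤
        (m + 1) ^ 2 * 16 ^ (m + 1) := by
      calc (m + 1) ^ 2 * (Nat.centralBinom (m + 1) ^ 2 * (2 * (m + 1) + 1))
          = ((m + 1) * Nat.centralBinom (m + 1)) ^ 2 * (2 * (m + 1) + 1) := by ring
        _ ≤ _ := h1
    exact Nat.le_of_mul_le_mul_left h2 (by positivity)

theorem cb_two_mul (m : ℕ) : cb (2 * m) = Nat.centralBinom m := by
  unfold cb
  rw [Nat.centralBinom_eq_two_mul_choose]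
  congr 1
  omega

theorem Lr_even_sq (m : ℕ) : Lr (2 * m) ^ 2 * (2 * (m : ℝ) + 1) ≤ 1 := by
  unfold Lr
  rw [cb_two_mul]
  have h : ((Nat.centralBinom m ^ 2 * (2 * m + 1) : ℕ) : ℝ) ≤ ((16 ^ m : ℕ) : ℝ) := by
    exact_mod_cast centralBinom_sq_le m
  push_cast at h
  have h16 : ((2 : ℝ) ^ (2 * m)) ^ 2 = 16 ^ m := by
    rw [← pow_mul, mul_comm (2 * m) 2, ← mul_assoc, pow_mul]
    norm_num
  rw [div_pow, h16, div_mul_eq_mul_div, div_le_one (by positivity)]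
  exact h

/-- If `D ^ 2 ≤ 2 m + 1` then `Lr (2 m) * D ≤ 1`. -/
theorem Lr_even_mul_le {m : ℕ} {D : ℝ} (hD : 0 ≤ D) (h : D ^ 2 ≤ 2 * (m : ℝ) + 1) :
    Lr (2 * m) * D ≤ 1 := by
  have h1 := Lr_even_sq m
  have h2 : (Lr (2 * m) * D) ^ 2 ≤ 1 := by
    rw [mul_pow]
    have h3 : 0 ≤ Lr (2 * m) ^ 2 := by positivity
    calc Lr (2 * m) ^ 2 * D ^ 2 ≤ Lr (2 * m) ^ 2 * (2 * (m : ℝ) + 1) :=
          mul_le_mul_of_nonneg_left h h3
      _ ≤ 1 := h1
  have h4 : 0 ≤ Lr (2 * m) * D := mul_nonneg (Lr_pos _).le hD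
  nlinarith

end Vale.Agent.Lib.P160
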