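import Mathlib

namespace Vale.Agent.Lib.P160

open Finset

/-- A subtraction-free form of the second Bonferroni inequality. -/
theorem bonferroni {α β : Type*} [DecidableEq α] [DecidableEq β] (I : Finset α)
    (E : α → Finset β) :
    3 * ∑ a ∈ I, (E a).card ≤
      2 * (I.biUnion E).card + ∑ a ∈ I, ∑ b ∈ I, (E a ∩ E b).card := by
  induction I using Finset.induction_on with
  | empty => simp
  | insert a I ha ih =>
    rw [Finset.sum_insert ha, Finset.biUnion_insert, Finset.sum_insert ha, Finset.sum_insert ha]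
    have h1 : ∑ x ∈ I, ∑ b ∈ insert a I, (E x ∩ E b).card =
        ∑ x ∈ I, (E x ∩ E a).card + ∑ x ∈ I, ∑ b ∈ I, (E x ∩ E b).card := by
      rw [← Finset.sum_add_distrib]
      exact Finset.sum_congr rfl fun x _ => Finset.sum_insert ha
    have h2 : ((I.biUnion E) ∩ E a).card ≤ ∑ x ∈ I, (E x ∩ E a).card := by
      rw [Finset.biUnion_inter]
      exact Finset.card_biUnion_le
    have h3 := Finset.card_union_add_card_inter (E a) (I.biUnion E)
    have h4 : (E a ∩ I.biUnion E).card = ((I.biUnion E) ∩ E a).card := by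
      rw [Finset.inter_comm]
    have h5 : ∑ b ∈ I, (E a ∩ E b).card = ∑ x ∈ I, (E x ∩ E a).card :=
      Finset.sum_congr rfl fun x _ => by rw [Finset.inter_comm]
    rw [h1, Finset.inter_self, h5]
    omega

end Vale.Agent.Lib.P160
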