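import Vale.Agent.Lib.P160.AntiConc
import Vale.Agent.Lib.P160.Binom

namespace Vale.Agent.Lib.P160

open Finset

/-- `Qr s` is the product of the Littlewood-Offord ratios `Lr m` for `m ≤ s`. -/
noncomputable def Qr (s : ℕ) : ℝ := ∏ m ∈ range (s + 1), Lr m

theorem prod_two_pow (s : ℕ) :
    ∏ m ∈ range (s + 1), (2 : ℝ) ^ m = 2 ^ (Nat.choose (s + 1) 2) := by
  induction s with
  | zero => simp
  | succ s ih =>
    rw [Finset.prod_range_succ, ih, ← pow_add, Nat.choose_succ_succ' (s + 1) 1,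
      Nat.choose_one_right, add_comm]

theorem G_eq (d s : ℕ) :
    (G (s + d) s : ℝ) = 2 ^ (Nat.choose (s + d + 1) 2) * Lr s ^ d * Qr s := by
  induction d with
  | zero =>
    unfold G Qr Lr
    rw [Finset.prod_div_distrib, prod_two_pow]
    have h2 : (0 : ℝ) < 2 ^ (Nat.choose (s + 1) 2) := by positivity
    simp only [add_zero, Nat.sub_self, zero_add, pow_zero, mul_one]
    push_cast
    field_simp
    simp
  | succ d ih =>
    have hstep := G_step_zero (n := s + d) (s := s) (Nat.le_add_right s d)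
    have h1 : s + d + 1 - s = d + 1 := by omega
    rw [h1] at hstep
    have h2 : s + (d + 1) = s + d + 1 := by ring
    rw [h2, ← hstep]
    push_cast
    have hc : Nat.choose (s + d + 1 + 1) 2 = (s + d + 1) + Nat.choose (s + d + 1) 2 := by
      rw [Nat.choose_succ_succ' (s + d + 1) 1, Nat.choose_one_right]
    have key : (2 : ℝ) ^ (d + 1) * (cb s : ℝ) = 2 ^ (s + d + 1) * Lr s := by
      unfold Lr
      have h3 : (2 : ℝ) ^ s ≠ 0 := by positivity
      have h4 : (2 : ℝ) ^ (s + d + 1) = 2 ^ s * 2 ^ (d + 1) := by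
        rw [← pow_add]; congr 1
      rw [h4]
      field_simp
    rw [ih, hc, key, pow_add, pow_succ (Lr s)]
    ring

theorem G_eq' {n s : ℕ} (h : s ≤ n) :
    (G n s : ℝ) = 2 ^ (Nat.choose (n + 1) 2) * Lr s ^ (n - s) * Qr s := by
  obtain ⟨d, rfl⟩ := Nat.exists_eq_add_of_le h
  rw [G_eq, Nat.add_sub_cancel_left]

theorem Qr_pos (s : ℕ) : 0 < Qr s := Finset.prod_pos fun m _ => Lr_pos m

theorem Qr_le_one (s : ℕ) : Qr s ≤ 1 :=
  Finset.prod_le_one (fun m _ => (Lr_pos m).le) (fun m _ => Lr_le_one m)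

theorem Qr_succ (s : ℕ) : Qr (s + 1) = Qr s * Lr (s + 1) := by
  unfold Qr
  rw [Finset.prod_range_succ]

/-- If `Lr m * D ≤ 1` for all `m ≥ s1`, then `Qr s * D ^ s ≤ D ^ s1` for all `s`. -/
theorem Qr_mul_pow_le {D : ℝ} (hD : 1 ≤ D) {s1 : ℕ} (h : ∀ m, s1 ≤ m → Lr m * D ≤ 1) (s : ℕ) :
    Qr s * D ^ s ≤ D ^ s1 := by
  have hD0 : (0 : ℝ) ≤ D := by linarith
  rcases le_or_gt s s1 with hs | hs
  · calc Qr s * D ^ s ≤ 1 * D ^ s :=
          mul_le_mul_of_nonneg_right (Qr_le_one s) (pow_nonneg hD0 s)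
      _ = D ^ s := one_mul _
      _ ≤ D ^ s1 := pow_le_pow_right₀ hD hs
  · induction s, hs.le using Nat.le_induction with
    | base =>
      calc Qr s1 * D ^ s1 ≤ 1 * D ^ s1 :=
            mul_le_mul_of_nonneg_right (Qr_le_one s1) (pow_nonneg hD0 s1)
        _ = D ^ s1 := one_mul _
    | succ s hs' ih =>
      have h1 : Qr (s + 1) * D ^ (s + 1) = (Qr s * D ^ s) * (Lr (s + 1) * D) := by
        rw [Qr_succ, pow_succ]; ring
      rw [h1]
      have h2 : Qr s * D ^ s ≤ D ^ s1 := by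
        rcases Nat.eq_or_lt_of_le hs' with he | hl
        · subst he
          calc Qr s1 * D ^ s1 ≤ 1 * D ^ s1 :=
                mul_le_mul_of_nonneg_right (Qr_le_one s1) (pow_nonneg hD0 s1)
            _ = D ^ s1 := one_mul _
        · exact ih hl
      have h3 : Lr (s + 1) * D ≤ 1 := h (s + 1) (by omega)
      have h4 : 0 ≤ Qr s * D ^ s := mul_nonneg (Qr_pos s).le (pow_nonneg hD0 s)
      calc (Qr s * D ^ s) * (Lr (s + 1) * D) ≤ (Qr s * D ^ s) * 1 :=
            mul_le_mul_of_nonneg_left h3 h4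
        _ = Qr s * D ^ s := mul_one _
        _ ≤ D ^ s1 := h2

end Vale.Agent.Lib.P160
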