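import Mathlib

namespace Vale.Agent.Lib.P160

open Finset Matrix

/-- Symmetric sign matrices on a general finite index type. -/
def symSet (ι : Type*) [Fintype ι] [DecidableEq ι] : Finset (Matrix ι ι ℤˣ) :=
  Finset.univ.filter fun A => A.transpose = A

section general

variable {ι : Type*} [Fintype ι] [DecidableEq ι]

theorem mem_symSet {A : Matrix ι ι ℤˣ} : A ∈ symSet ι ↔ ∀ a b, A a b = A b a := by
  simp only [symSet, mem_filter, mem_univ, true_and]
  constructor
  · intro h a b
    have := congrFun (congrFun h b) a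
    simpa [Matrix.transpose_apply] using this
  · intro h
    ext a b
    simp [Matrix.transpose_apply, h a b]

/-- Symmetric sign matrices correspond to sign functions on unordered pairs. -/
def symEquiv (ι : Type*) [Fintype ι] [DecidableEq ι] :
    {A : Matrix ι ι ℤˣ // A ∈ symSet ι} ≃ (Sym2 ι → ℤˣ) :=
  (Equiv.subtypeEquivRight (fun A => by
    rw [mem_symSet])).trans (Sym2.lift (α := ι) (β := ℤˣ))

theorem card_symSet : (symSet ι).card = 2 ^ (Nat.choose (Fintype.card ι + 1) 2) := by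
  have h1 : (symSet ι).card = Fintype.card {A : Matrix ι ι ℤˣ // A ∈ symSet ι} := by
    simp
  rw [h1, Fintype.card_congr (symEquiv ι), Fintype.card_fun, Sym2.card, Fintype.card_units_int]

/-- The event that row `i` equals `s` times row `j`. -/
def pairEvent (i j : ι) (s : ℤˣ) : Finset (Matrix ι ι ℤˣ) :=
  (symSet ι).filter fun A => ∀ k, A i k = s * A j k

theorem mem_pairEvent {i j : ι} {s : ℤˣ} {A : Matrix ι ι ℤˣ} :
    A ∈ pairEvent i j s ↔ (∀ a b, A a b = A b a) ∧ ∀ k, A i k = s * A j k := by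
  simp [pairEvent, mem_symSet]

theorem pairEvent_swap (i j : ι) (s : ℤˣ) : pairEvent i j s = pairEvent j i s := by
  ext A
  simp only [mem_pairEvent]
  constructor
  · rintro ⟨h1, h2⟩
    refine ⟨h1, fun k => ?_⟩
    rw [h2 k, ← mul_assoc, Int.units_mul_self, one_mul]
  · rintro ⟨h1, h2⟩
    refine ⟨h1, fun k => ?_⟩
    rw [h2 k, ← mul_assoc, Int.units_mul_self, one_mul]

/-- Restriction of a matrix to the indices different from `i`. -/
def restr (i : ι) (A : Matrix ι ι ℤˣ) : Matrix {k // k ≠ i} {k // k ≠ i} ℤˣ :=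
  fun k l => A k.1 l.1

theorem restr_injOn {i j : ι} (hij : i ≠ j) (s : ℤˣ) :
    Set.InjOn (restr i) (pairEvent i j s : Set (Matrix ι ι ℤˣ)) := by
  intro A hA A' hA' h
  rw [mem_coe, mem_pairEvent] at hA hA'
  have key : ∀ k l, k ≠ i → l ≠ i → A k l = A' k l :=
    fun k l hk hl => congrFun (congrFun h ⟨k, hk⟩) ⟨l, hl⟩
  have row : ∀ l, l ≠ i → A i l = A' i l := by
    intro l hl
    rw [hA.2 l, hA'.2 l, key j l (Ne.symm hij) hl]
  have diag : A i i = A' i i := by
    rw [hA.2 i, hA'.2 i, hA.1 j i, hA'.1 j i, row j (Ne.symm hij)]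
  refine Matrix.ext fun k l => ?_
  by_cases hk : k = i
  · subst hk
    by_cases hl : l = k
    · subst hl; exact diag
    · exact row l hl
  · by_cases hl : l = i
    · subst hl
      rw [hA.1 k l, hA'.1 k l]; exact row k hk
    · exact key k l hk hl

/-- Extension of a matrix on the indices different from `i` by making row `i` equal to
`s` times row `j`. -/
def extend (i j : ι) (hji : j ≠ i) (s : ℤˣ) (B : Matrix {k // k ≠ i} {k // k ≠ i} ℤˣ) :
    Matrix ι ι ℤˣ :=
  fun k l =>
    if hk : k = i then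
      if hl : l = i then B ⟨j, hji⟩ ⟨j, hji⟩ else s * B ⟨j, hji⟩ ⟨l, hl⟩
    else
      if hl : l = i then s * B ⟨j, hji⟩ ⟨k, hk⟩ else B ⟨k, hk⟩ ⟨l, hl⟩

theorem extend_mem {i j : ι} (hji : j ≠ i) (s : ℤˣ)
    {B : Matrix {k // k ≠ i} {k // k ≠ i} ℤˣ} (hB : B ∈ symSet {k // k ≠ i}) :
    extend i j hji s B ∈ pairEvent i j s := by
  rw [mem_symSet] at hB
  rw [mem_pairEvent]
  constructor
  · intro a b
    unfold extend
    by_cases ha : a = i <;> by_cases hb : b = i <;> simp [ha, hb, hB]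
  · intro k
    unfold extend
    by_cases hk : k = i
    · simp [hk, hji, ← mul_assoc, Int.units_mul_self]
    · simp [hk, hji]

omit [Fintype ι] in
theorem restr_extend {i j : ι} (hji : j ≠ i) (s : ℤˣ)
    (B : Matrix {k // k ≠ i} {k // k ≠ i} ℤˣ) : restr i (extend i j hji s B) = B := by
  ext k l
  simp [restr, extend, k.2, l.2]

theorem restr_mem_symSet {i : ι} {A : Matrix ι ι ℤˣ} (hA : A ∈ symSet ι) :
    restr i A ∈ symSet {k // k ≠ i} := by
  rw [mem_symSet] at hA ⊢
  intro a b
  exact hA a.1 b.1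

theorem card_pairEvent_eq {i j : ι} (hij : i ≠ j) (s : ℤˣ) :
    (pairEvent i j s).card = (symSet {k // k ≠ i}).card := by
  refine Finset.card_bij (fun A _ => restr i A) ?_ ?_ ?_
  · intro A hA
    exact restr_mem_symSet (mem_of_mem_filter A hA)
  · intro A hA A' hA' h
    exact restr_injOn hij s (mem_coe.2 hA) (mem_coe.2 hA') h
  · intro B hB
    exact ⟨extend i j (Ne.symm hij) s B, extend_mem (Ne.symm hij) s hB,
      restr_extend (Ne.symm hij) s B⟩

theorem card_subtype_ne (i : ι) : Fintype.card {k // k ≠ i} = Fintype.card ι - 1 := by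
  rw [Fintype.card_subtype_compl, Fintype.card_subtype_eq]

theorem card_pairEvent {i j : ι} (hij : i ≠ j) (s : ℤˣ) :
    (pairEvent i j s).card = 2 ^ (Nat.choose (Fintype.card ι) 2) := by
  rw [card_pairEvent_eq hij, card_symSet, card_subtype_ne]
  have : 0 < Fintype.card ι := Fintype.card_pos_iff.2 ⟨i⟩
  rw [Nat.sub_add_cancel this]

theorem card_pairEvent_inter_le {a a' b b' : ι} (haa' : a ≠ a') (hbb' : b ≠ b')
    (hab : b ≠ a) (hab' : b' ≠ a) (σ τ : ℤˣ) :
    (pairEvent a a' σ ∩ pairEvent b b' τ).card ≤ 2 ^ (Nat.choose (Fintype.card ι - 1) 2) := by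
  have h1 : (pairEvent a a' σ ∩ pairEvent b b' τ).card ≤
      (pairEvent (ι := {k // k ≠ a}) ⟨b, hab⟩ ⟨b', hab'⟩ τ).card := by
    refine Finset.card_le_card_of_injOn (restr a) ?_ ?_
    · intro A hA
      rw [mem_coe, mem_inter] at hA
      have h2 := mem_pairEvent.1 hA.2
      rw [mem_coe, mem_pairEvent]
      exact ⟨fun x y => h2.1 x.1 y.1, fun k => h2.2 k.1⟩
    · intro A hA A' hA' h
      rw [mem_coe, mem_inter] at hA hA'
      exact restr_injOn haa' σ (mem_coe.2 hA.1) (mem_coe.2 hA'.1) h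
  have hne : (⟨b, hab⟩ : {k // k ≠ a}) ≠ ⟨b', hab'⟩ := by
    intro h
    exact hbb' (congrArg Subtype.val h)
  rw [card_pairEvent hne, card_subtype_ne] at h1
  exact h1

end general

end Vale.Agent.Lib.P160
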