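import Mathlib

namespace Vale.Agent.Lib.P160

/-- The finite set of symmetric `n × n` matrices all of whose entries are `1` or `-1`
(the entries are the units of `ℤ`). -/
def symSignMatrices (n : ℕ) : Finset (Matrix (Fin n) (Fin n) ℤˣ) :=
  Finset.univ.filter fun A => A.transpose = A

/-- `singProb n` is the probability that a uniformly random symmetric `n × n` sign matrix,
viewed as a real matrix, has determinant zero: the number of singular symmetric sign matrices
divided by the number of all symmetric sign matrices. -/
noncomputable def singProb (n : ℕ) : ℝ :=
  (((symSignMatrices n).filter fun A =>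
      (A.map fun u : ℤˣ => ((u : ℤ) : ℝ)).det = 0).card : ℝ) /
    ((symSignMatrices n).card : ℝ)

end Vale.Agent.Lib.P160
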