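import Vale.Agent.Lib.P160.Defs

namespace Vale.Agent.Lib.P160

open Classical in
/-- `symProb n P` is the probability that a uniformly random symmetric `n × n` sign matrix,
viewed as a real matrix `M`, satisfies `P M`: the number of symmetric sign matrices whose real
matrix satisfies `P`, divided by the number of all symmetric sign matrices. -/
noncomputable def symProb (n : ℕ) (P : Matrix (Fin n) (Fin n) ℝ → Prop) : ℝ :=
  (((symSignMatrices n).filter fun A => P (A.map fun u : ℤˣ => ((u : ℤ) : ℝ))).card : ℝ) /
    ((symSignMatrices n).card : ℝ)

/-- `smallNullProb K n` is the probability that a uniformly random symmetric `n × n` sign matrix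
has a nonzero null vector with integer coordinates of absolute value at most `K`. -/
noncomputable def smallNullProb (K n : ℕ) : ℝ :=
  symProb n fun M => ∃ v : Fin n → ℤ, v ≠ 0 ∧ (∀ j, |v j| ≤ (K : ℤ)) ∧
    M.mulVec (fun j => ((v j : ℤ) : ℝ)) = 0

/-- `sparseNullProb n` is the probability that a uniformly random symmetric `n × n` sign matrix
has a nonzero real null vector with at most `n / 4` nonzero coordinates. -/
noncomputable def sparseNullProb (n : ℕ) : ℝ :=
  symProb n fun M => ∃ v : Fin n → ℝ, v ≠ 0 ∧
    4 * (Finset.univ.filter fun j => v j ≠ 0).card ≤ n ∧ M.mulVec v = 0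

end Vale.Agent.Lib.P160
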