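import Vale.Agent.Lib.P160.Defs2

namespace Vale.Agent.Lib.P160

/-- `zerosProb ε n` is the probability that a uniformly random symmetric `n × n` sign matrix
has a nonzero real null vector with at most `(1 - ε) n` nonzero coordinates, that is, with at
least `ε n` coordinates equal to zero. -/
noncomputable def zerosProb (ε : ℝ) (n : ℕ) : ℝ :=
  symProb n fun M => ∃ v : Fin n → ℝ, v ≠ 0 ∧
    ((Finset.univ.filter fun j => v j ≠ 0).card : ℝ) ≤ (1 - ε) * (n : ℝ) ∧ M.mulVec v = 0

end Vale.Agent.Lib.P160
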