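import Vale.Agent.Lib.P160.Defs2

namespace Vale.Agent.Lib.P160

/-- `levelProb ε n` is the probability that a uniformly random symmetric `n × n` sign matrix
has a nonzero real null vector with at least `ε n` equal coordinates, that is, with a level set
`{j : v j = c}` of size at least `ε n` for some real `c`. -/
noncomputable def levelProb (ε : ℝ) (n : ℕ) : ℝ :=
  symProb n fun M => ∃ v : Fin n → ℝ, v ≠ 0 ∧
    (∃ c : ℝ, ε * (n : ℝ) ≤ ((Finset.univ.filter fun j => v j = c).card : ℝ)) ∧ M.mulVec v = 0

/-- `valuesProb m n` is the probability that a uniformly random symmetric `n × n` sign matrix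
has a nonzero real null vector whose coordinates take at most `m` distinct values. -/
noncomputable def valuesProb (m n : ℕ) : ℝ :=
  symProb n fun M => ∃ v : Fin n → ℝ, v ≠ 0 ∧
    (Finset.univ.image v).card ≤ m ∧ M.mulVec v = 0

end Vale.Agent.Lib.P160
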