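import Vale.Agent.Lib.P160.Defs2

namespace Vale.Agent.Lib.P160

/-- `rareProb R n` is the probability that a uniformly random symmetric `n × n` sign matrix has a
nonzero real null vector `v` with at most `R` rare coordinate values, where a value `y` of `v`
is rare if fewer than `8` coordinates of `v` are equal to `y`. -/
noncomputable def rareProb (R n : ℕ) : ℝ :=
  symProb n fun M => ∃ v : Fin n → ℝ, v ≠ 0 ∧
    ((Finset.univ.image v).filter fun y =>
      (Finset.univ.filter fun j => v j = y).card < 8).card ≤ R ∧ M.mulVec v = 0

end Vale.Agent.Lib.P160
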