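import Vale.Agent.Lib.P160.helper22.Odlyzko
import Vale.Agent.Lib.P160.helper15.CorankStep
import Vale.Agent.Lib.P160.helper42.DenseNum

namespace Vale.Agent.Lib.P160

open Finset Matrix

section general

variable {ι : Type*} [Fintype ι] [DecidableEq ι]

theorem exists_rows_union (T : Finset ι) (A : Matrix ι ι ℤˣ) : ∀ (d : ℕ) (I : Finset ι),
    Disjoint I T → Module.finrank ℝ (annSub T (T ∪ I) A) ≤ d →
    ∃ I', I ⊆ I' ∧ Disjoint I' T ∧
      I'.card + Module.finrank ℝ (annSub T (T ∪ I') A) ≤
        I.card + Module.finrank ℝ (annSub T (T ∪ I) A) ∧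
      ∀ i, ∀ u, IsAnn T (T ∪ I') A u → sdot (A i) u = 0 := by
  intro d
  induction d with
  | zero =>
    intro I hI hd
    refine ⟨I, subset_rfl, hI, le_rfl, ?_⟩
    intro i u hu
    have hbot : annSub T (T ∪ I) A = ⊥ := by
      apply Submodule.finrank_eq_zero.1
      omega
    have hu0 : u = 0 := by
      have : u ∈ annSub T (T ∪ I) A := hu
      rw [hbot] at this
      exact (Submodule.mem_bot ℝ).1 this
    rw [hu0, sdot_zero]
  | succ d ih =>
    intro I hI hd
    by_cases h : ∀ i, ∀ u, IsAnn T (T ∪ I) A u → sdot (A i) u = 0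
    · exact ⟨I, subset_rfl, hI, le_rfl, h⟩
    · simp only [not_forall] at h
      obtain ⟨i, u0, hu0, hne⟩ := h
      have hiTI : i ∉ T ∪ I := fun hi => hne (hu0.2 i hi)
      have hiT : i ∉ T := fun hi => hiTI (Finset.mem_union_left _ hi)
      have hiI : i ∉ I := fun hi => hiTI (Finset.mem_union_right _ hi)
      have hI1 : Disjoint (insert i I) T := by
        rw [Finset.disjoint_insert_left]
        exact ⟨hiT, hI⟩
      have hlt : annSub T (T ∪ insert i I) A < annSub T (T ∪ I) A := by
        refine lt_of_le_of_ne ?_ ?_
        · intro u hu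
          refine ⟨hu.1, fun r hr => hu.2 r ?_⟩
          rw [Finset.mem_union] at hr ⊢
          rcases hr with hr | hr
          · exact Or.inl hr
          · exact Or.inr (Finset.mem_insert_of_mem hr)
        · intro heq
          have : u0 ∈ annSub T (T ∪ insert i I) A := by
            rw [heq]; exact hu0
          exact hne (this.2 i (Finset.mem_union_right _ (Finset.mem_insert_self i I)))
      have hfr := Submodule.finrank_lt_finrank_of_lt hlt
      obtain ⟨I', hsub, hdisj, hcard, hall⟩ := ih (insert i I) hI1 (by omega)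
      refine ⟨I', (Finset.subset_insert i I).trans hsub, hdisj, ?_, hall⟩
      rw [Finset.card_insert_of_notMem hiI] at hcard
      omega

theorem finrank_annSub_self_le (T : Finset ι) (A : Matrix ι ι ℤˣ) :
    Module.finrank ℝ (annSub T T A) ≤ T.card := by
  refine (Submodule.finrank_mono ?_).trans (finrank_annSub_empty_le T A)
  intro u hu
  exact ⟨hu.1, fun r hr => absurd hr (Finset.notMem_empty r)⟩

/-- From a null vector with support `T`, find a set `I` of rows outside `T`, smaller than the
dimension of the kernel of the principal block on `T`, such that the event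
`EvS T (T ∪ I) F` holds for the complement `F` of `T ∪ I`. -/
theorem exists_rows_of_null_union {A : Matrix ι ι ℤˣ} {v : ι → ℝ} (T : Finset ι)
    (hT : ∀ j, v j ≠ 0 ↔ j ∈ T) (hv : v ≠ 0) (hAv : toR A *ᵥ v = 0) :
    ∃ I, Disjoint I T ∧ I.card + 1 ≤ Module.finrank ℝ (annSub T T A) ∧
      EvS T (T ∪ I) (univ \ (T ∪ I)) A := by
  obtain ⟨I, -, hdisj, hcard, hall⟩ :=
    exists_rows_union T A (Module.finrank ℝ (annSub T (T ∪ ∅) A)) ∅
      (Finset.disjoint_empty_left T) le_rfl
  have hvmem : IsAnn T (T ∪ I) A v := by
    refine ⟨fun j hj => ?_, fun r _ => ?_⟩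
    · by_contra hne
      exact hj ((hT j).1 hne)
    · rw [← toR_mulVec, hAv]; rfl
  have hpos : 0 < Module.finrank ℝ (annSub T (T ∪ I) A) := by
    rw [Module.finrank_pos_iff_exists_ne_zero]
    refine ⟨⟨v, hvmem⟩, ?_⟩
    intro h
    exact hv (congrArg Subtype.val h)
  refine ⟨I, hdisj, ?_, ⟨v, hvmem, fun j hj => (hT j).2 hj⟩, ?_⟩
  · have hTe : T ∪ (∅ : Finset ι) = T := Finset.union_empty T
    rw [hTe] at hcard
    simp only [Finset.card_empty, zero_add] at hcard
    omega
  · intro i _ u hu
    exact hall i u hu

/-- Extension by zero at `i` as a linear map. -/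
def extVL (i : ι) : ({k // k ≠ i} → ℝ) →ₗ[ℝ] (ι → ℝ) where
  toFun := extV i
  map_add' := by
    intro u w
    funext j
    by_cases hj : j = i <;> simp [extV, hj]
  map_smul' := by
    intro c u
    funext j
    by_cases hj : j = i <;> simp [extV, hj]

omit [Fintype ι] in
theorem extVL_apply (i : ι) (u : {k // k ≠ i} → ℝ) : extVL i u = extV i u := rfl

theorem extVL_injective (i : ι) : Function.Injective (extVL i) := by
  intro u w h
  funext k
  have := congrFun h k.1
  rw [extVL_apply, extVL_apply, extV_ne, extV_ne] at this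
  exact this

end general

open Classical in
/-- The number of symmetric sign matrices whose principal block on `T` has a kernel of
dimension at least `c`. -/
theorem corank_count : ∀ (k : ℕ) (ι : Type) [Fintype ι] [DecidableEq ι] (T : Finset ι) (c : ℕ),
    T.card = k →
    ((symSet ι).filter fun A => c ≤ Module.finrank ℝ (annSub T T A)).card *
      2 ^ (Nat.choose c 2) ≤ 2 ^ k * (symSet ι).card := by
  intro k
  induction k with
  | zero =>
    intro ι _ _ T c hT
    rcases Nat.eq_zero_or_pos c with hc | hc
    · subst hc
      simp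
    · have hempty : ((symSet ι).filter fun A => c ≤ Module.finrank ℝ (annSub T T A)) = ∅ := by
        rw [Finset.filter_eq_empty_iff]
        intro A _ hA
        have := finrank_annSub_self_le T A
        omega
      rw [hempty]
      simp
  | succ k ih =>
    intro ι _ _ T c hT
    rcases Nat.eq_zero_or_pos c with hc | hc
    · subst hc
      have h1 : ((symSet ι).filter fun A => 0 ≤ Module.finrank ℝ (annSub T T A)).card ≤
          (symSet ι).card := Finset.card_filter_le _ _
      have h2 : 1 ≤ 2 ^ (k + 1) := Nat.one_le_two_pow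
      calc ((symSet ι).filter fun A => 0 ≤ Module.finrank ℝ (annSub T T A)).card *
            2 ^ (Nat.choose 0 2) = ((symSet ι).filter fun A =>
              0 ≤ Module.finrank ℝ (annSub T T A)).card := by simp
        _ ≤ 1 * (symSet ι).card := by rw [one_mul]; exact h1
        _ ≤ 2 ^ (k + 1) * (symSet ι).card := Nat.mul_le_mul_right _ h2
    · obtain ⟨c', rfl⟩ : ∃ c', c = c' + 1 := ⟨c - 1, by omega⟩
      obtain ⟨i, hiT⟩ : T.Nonempty := by
        rw [← Finset.card_pos]; omega
      have hT' : (T.subtype (· ≠ i)).card = k := by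
        rw [Finset.card_subtype, Finset.filter_ne' T i, Finset.card_erase_of_mem hiT, hT]
        rfl
      have hcardι : 0 < Fintype.card ι := Fintype.card_pos_iff.2 ⟨i⟩
      have hsym : (symSet ι).card = 2 ^ Fintype.card ι * (symSet {k // k ≠ i}).card := by
        rw [card_symSet, card_symSet, card_subtype_ne, Nat.sub_add_cancel hcardι, ← pow_add]
        congr 1
        obtain ⟨n, hn⟩ : ∃ n, Fintype.card ι = n + 1 := ⟨Fintype.card ι - 1, by omega⟩
        rw [hn, Nat.choose_succ_succ' (n + 1) 1, Nat.choose_one_right]
      have hsub : ((symSet ι).filter fun A => c' + 1 ≤ Module.finrank ℝ (annSub T T A)) ⊆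
          ((symSet ι).filter fun A => c' + 2 ≤ Module.finrank ℝ
            (annSub (T.subtype (· ≠ i)) (T.subtype (· ≠ i)) (restr i A))) ∪
          ((symSet ι).filter fun A => c' ≤ Module.finrank ℝ
            (annSub (T.subtype (· ≠ i)) (T.subtype (· ≠ i)) (restr i A)) ∧
            ∀ u ∈ annSub (T.subtype (· ≠ i)) (T.subtype (· ≠ i)) (restr i A),
              sdot (A i) (extV i u) = 0) := by
        intro A hA
        rw [mem_filter] at hA
        rw [mem_union, mem_filter, mem_filter]
        by_cases h : ∀ u ∈ annSub (T.subtype (· ≠ i)) (T.subtype (· ≠ i)) (restr i A),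
            sdot (A i) (extV i u) = 0
        · right
          have := corank_le_succ (T := T) (i := i) A
          exact ⟨hA.1, by omega, h⟩
        · left
          simp only [not_forall] at h
          obtain ⟨u0, hu0, hne⟩ := h
          have := corank_succ_le hiT hA.1 hu0 hne
          exact ⟨hA.1, by omega⟩
      have key1 := peel2 i
        (fun A => c' + 2 ≤ Module.finrank ℝ
            (annSub (T.subtype (· ≠ i)) (T.subtype (· ≠ i)) (restr i A)))
        (fun A' => c' + 2 ≤ Module.finrank ℝ
            (annSub (T.subtype (· ≠ i)) (T.subtype (· ≠ i)) A'))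
        (2 ^ Fintype.card ι) (fun A _ hA => hA) (fun A' _ _ => ⟨univ, by
          rw [Finset.card_univ, Fintype.card_fun, Fintype.card_units_int], fun A _ _ _ =>
            mem_univ _⟩)
      have key2 := peel2 i
        (fun A => c' ≤ Module.finrank ℝ
            (annSub (T.subtype (· ≠ i)) (T.subtype (· ≠ i)) (restr i A)) ∧
            ∀ u ∈ annSub (T.subtype (· ≠ i)) (T.subtype (· ≠ i)) (restr i A),
              sdot (A i) (extV i u) = 0)
        (fun A' => c' ≤ Module.finrank ℝ
            (annSub (T.subtype (· ≠ i)) (T.subtype (· ≠ i)) A'))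
        (2 ^ Fintype.card ι / 2 ^ c') (fun A _ hA => hA.1) ?_
      · have ih1 := ih {k // k ≠ i} (T.subtype (· ≠ i)) (c' + 2) hT'
        have ih2 := ih {k // k ≠ i} (T.subtype (· ≠ i)) c' hT'
        have hch1 : Nat.choose (c' + 1) 2 = c' + Nat.choose c' 2 := by
          rw [Nat.choose_succ_succ' c' 1, Nat.choose_one_right]
        have hch2 : Nat.choose (c' + 1) 2 ≤ Nat.choose (c' + 2) 2 :=
          Nat.choose_le_choose 2 (by omega)
        have hdiv : 2 ^ Fintype.card ι / 2 ^ c' * 2 ^ c' ≤ 2 ^ Fintype.card ι :=
          Nat.div_mul_le_self _ _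
        have b1 : ((symSet ι).filter fun A => c' + 2 ≤ Module.finrank ℝ
            (annSub (T.subtype (· ≠ i)) (T.subtype (· ≠ i)) (restr i A))).card *
            2 ^ (Nat.choose (c' + 1) 2) ≤ 2 ^ Fintype.card ι * (2 ^ k *
              (symSet {k // k ≠ i}).card) := by
          calc _ ≤ (2 ^ Fintype.card ι * ((symSet {k // k ≠ i}).filter fun A' =>
                c' + 2 ≤ Module.finrank ℝ
                  (annSub (T.subtype (· ≠ i)) (T.subtype (· ≠ i)) A')).card) *
                2 ^ (Nat.choose (c' + 1) 2) := Nat.mul_le_mul_right _ key1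
            _ ≤ (2 ^ Fintype.card ι * ((symSet {k // k ≠ i}).filter fun A' =>
                c' + 2 ≤ Module.finrank ℝ
                  (annSub (T.subtype (· ≠ i)) (T.subtype (· ≠ i)) A')).card) *
                2 ^ (Nat.choose (c' + 2) 2) :=
                  Nat.mul_le_mul_left _ (Nat.pow_le_pow_right (by norm_num) hch2)
            _ = 2 ^ Fintype.card ι * (((symSet {k // k ≠ i}).filter fun A' =>
                c' + 2 ≤ Module.finrank ℝ
                  (annSub (T.subtype (· ≠ i)) (T.subtype (· ≠ i)) A')).card *
                2 ^ (Nat.choose (c' + 2) 2)) := by ring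
            _ ≤ _ := Nat.mul_le_mul_left _ ih1
        have b2 : ((symSet ι).filter fun A => c' ≤ Module.finrank ℝ
            (annSub (T.subtype (· ≠ i)) (T.subtype (· ≠ i)) (restr i A)) ∧
            ∀ u ∈ annSub (T.subtype (· ≠ i)) (T.subtype (· ≠ i)) (restr i A),
              sdot (A i) (extV i u) = 0).card *
            2 ^ (Nat.choose (c' + 1) 2) ≤ 2 ^ Fintype.card ι * (2 ^ k *
              (symSet {k // k ≠ i}).card) := by
          calc _ ≤ (2 ^ Fintype.card ι / 2 ^ c' * ((symSet {k // k ≠ i}).filter fun A' =>
                c' ≤ Module.finrank ℝ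
                  (annSub (T.subtype (· ≠ i)) (T.subtype (· ≠ i)) A')).card) *
                2 ^ (Nat.choose (c' + 1) 2) := Nat.mul_le_mul_right _ key2
            _ = (2 ^ Fintype.card ι / 2 ^ c' * 2 ^ c') * (((symSet {k // k ≠ i}).filter fun A' =>
                c' ≤ Module.finrank ℝ
                  (annSub (T.subtype (· ≠ i)) (T.subtype (· ≠ i)) A')).card *
                2 ^ (Nat.choose c' 2)) := by rw [hch1, pow_add]; ring
            _ ≤ _ := Nat.mul_le_mul hdiv ih2
        calc ((symSet ι).filter fun A => c' + 1 ≤ Module.finrank ℝ (annSub T T A)).card *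
              2 ^ (Nat.choose (c' + 1) 2)
            ≤ (((symSet ι).filter fun A => c' + 2 ≤ Module.finrank ℝ
              (annSub (T.subtype (· ≠ i)) (T.subtype (· ≠ i)) (restr i A))).card +
              ((symSet ι).filter fun A => c' ≤ Module.finrank ℝ
              (annSub (T.subtype (· ≠ i)) (T.subtype (· ≠ i)) (restr i A)) ∧
              ∀ u ∈ annSub (T.subtype (· ≠ i)) (T.subtype (· ≠ i)) (restr i A),
                sdot (A i) (extV i u) = 0).card) * 2 ^ (Nat.choose (c' + 1) 2) :=
              Nat.mul_le_mul_right _ ((Finset.card_le_card hsub).trans (Finset.card_union_le _ _))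
          _ ≤ 2 ^ Fintype.card ι * (2 ^ k * (symSet {k // k ≠ i}).card) +
              2 ^ Fintype.card ι * (2 ^ k * (symSet {k // k ≠ i}).card) := by
              rw [add_mul]
              exact Nat.add_le_add b1 b2
          _ = 2 ^ (k + 1) * (symSet ι).card := by
              rw [hsym, pow_succ]; ring
      · intro A' _ hA'
        have hW : c' ≤ Module.finrank ℝ
            ((annSub (T.subtype (· ≠ i)) (T.subtype (· ≠ i)) A').map (extVL i)) := by
          rw [← LinearEquiv.finrank_eq (Submodule.equivMapOfInjective (extVL i)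
            (extVL_injective i) _)]
          exact hA'
        have hod := odlyzko_count c' ι _ hW
        refine ⟨(univ : Finset (ι → ℤˣ)).filter fun x => ∀ u ∈
          (annSub (T.subtype (· ≠ i)) (T.subtype (· ≠ i)) A').map (extVL i), sdot x u = 0, ?_, ?_⟩
        · rw [Nat.le_div_iff_mul_le (by positivity)]
          exact hod
        · intro A _ hA hrestr
          rw [mem_filter]
          refine ⟨mem_univ _, ?_⟩
          intro u hu
          rw [Submodule.mem_map] at hu
          obtain ⟨u', hu', rfl⟩ := hu
          subst hrestr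
          exact hA.2 u' hu'

open Classical in
/-- The count of `evS_count` with the additional requirement that the principal block on `T`
has a kernel of dimension at least `c`. -/
theorem evS_corank_count : ∀ (m : ℕ) (ι : Type) [Fintype ι] [DecidableEq ι] (T R F : Finset ι)
    (c : ℕ), F.card = m → Disjoint F T → Disjoint F R →
    ((symSet ι).filter fun A =>
      c ≤ Module.finrank ℝ (annSub T T A) ∧ EvS T R F A).card * 2 ^ (T.card * m) *
      2 ^ (Nat.choose c 2) ≤ cb T.card ^ m * 2 ^ T.card * (symSet ι).card := by
  intro m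
  induction m with
  | zero =>
    intro ι _ _ T R F c _ _ _
    have h1 : ((symSet ι).filter fun A =>
        c ≤ Module.finrank ℝ (annSub T T A) ∧ EvS T R F A).card ≤
        ((symSet ι).filter fun A => c ≤ Module.finrank ℝ (annSub T T A)).card := by
      refine Finset.card_le_card ?_
      intro A hA
      rw [mem_filter] at hA ⊢
      exact ⟨hA.1, hA.2.1⟩
    have h2 := corank_count T.card ι T c rfl
    calc _ = ((symSet ι).filter fun A =>
          c ≤ Module.finrank ℝ (annSub T T A) ∧ EvS T R F A).card * 2 ^ (Nat.choose c 2) := by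
          simp
      _ ≤ ((symSet ι).filter fun A => c ≤ Module.finrank ℝ (annSub T T A)).card *
          2 ^ (Nat.choose c 2) := Nat.mul_le_mul_right _ h1
      _ ≤ 2 ^ T.card * (symSet ι).card := h2
      _ = cb T.card ^ 0 * 2 ^ T.card * (symSet ι).card := by simp
  | succ m ih =>
    intro ι _ _ T R F c hF hFT hFR
    obtain ⟨i, hiF⟩ : F.Nonempty := by
      rw [← Finset.card_pos]; omega
    have hiT : i ∉ T := fun h => (Finset.disjoint_left.1 hFT) hiF h
    have hiR : i ∉ R := fun h => (Finset.disjoint_left.1 hFR) hiF h
    have hT' : (T.subtype (· ≠ i)).card = T.card := by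
      rw [Finset.card_subtype, Finset.filter_true_of_mem]
      intro j hj hji
      exact hiT (hji ▸ hj)
    have hF' : (F.subtype (· ≠ i)).card = m := by
      rw [Finset.card_subtype, Finset.filter_ne' F i, Finset.card_erase_of_mem hiF, hF]
      rfl
    have hFT' : Disjoint (F.subtype (· ≠ i)) (T.subtype (· ≠ i)) := by
      rw [Finset.disjoint_left]
      intro k hk hk'
      exact (Finset.disjoint_left.1 hFT) (by simpa using hk) (by simpa using hk')
    have hFR' : Disjoint (F.subtype (· ≠ i)) (R.subtype (· ≠ i)) := by
      rw [Finset.disjoint_left]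
      intro k hk hk'
      exact (Finset.disjoint_left.1 hFR) (by simpa using hk) (by simpa using hk')
    have key := peel2 i
      (fun A => c ≤ Module.finrank ℝ (annSub T T A) ∧ EvS T R F A)
      (fun A' => c ≤ Module.finrank ℝ (annSub (T.subtype (· ≠ i)) (T.subtype (· ≠ i)) A') ∧
        EvS (T.subtype (· ≠ i)) (R.subtype (· ≠ i)) (F.subtype (· ≠ i)) A')
      (2 ^ (Fintype.card ι - T.card) * cb T.card) ?_ ?_
    · have hIH := ih {k // k ≠ i} (T.subtype (· ≠ i)) (R.subtype (· ≠ i)) (F.subtype (· ≠ i)) c
        hF' hFT' hFR'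
      rw [hT'] at hIH
      have hcardι : 0 < Fintype.card ι := Fintype.card_pos_iff.2 ⟨i⟩
      have hsym : (symSet ι).card = 2 ^ Fintype.card ι * (symSet {k // k ≠ i}).card := by
        rw [card_symSet, card_symSet, card_subtype_ne, Nat.sub_add_cancel hcardι, ← pow_add]
        congr 1
        obtain ⟨n, hn⟩ : ∃ n, Fintype.card ι = n + 1 := ⟨Fintype.card ι - 1, by omega⟩
        rw [hn, Nat.choose_succ_succ' (n + 1) 1, Nat.choose_one_right]
      have hTle : T.card ≤ Fintype.card ι := Finset.card_le_univ T
      have hpow : 2 ^ (Fintype.card ι - T.card) * 2 ^ T.card = 2 ^ Fintype.card ι := by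
        rw [← pow_add, Nat.sub_add_cancel hTle]
      calc ((symSet ι).filter fun A =>
            c ≤ Module.finrank ℝ (annSub T T A) ∧ EvS T R F A).card * 2 ^ (T.card * (m + 1)) *
            2 ^ (Nat.choose c 2)
          ≤ (2 ^ (Fintype.card ι - T.card) * cb T.card *
              ((symSet {k // k ≠ i}).filter fun A' =>
                c ≤ Module.finrank ℝ (annSub (T.subtype (· ≠ i)) (T.subtype (· ≠ i)) A') ∧
                EvS (T.subtype (· ≠ i)) (R.subtype (· ≠ i)) (F.subtype (· ≠ i)) A').card) *
              2 ^ (T.card * (m + 1)) * 2 ^ (Nat.choose c 2) :=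
            Nat.mul_le_mul_right _ (Nat.mul_le_mul_right _ key)
        _ = (2 ^ (Fintype.card ι - T.card) * 2 ^ T.card) * cb T.card *
              (((symSet {k // k ≠ i}).filter fun A' =>
                c ≤ Module.finrank ℝ (annSub (T.subtype (· ≠ i)) (T.subtype (· ≠ i)) A') ∧
                EvS (T.subtype (· ≠ i)) (R.subtype (· ≠ i)) (F.subtype (· ≠ i)) A').card *
              2 ^ (T.card * m) * 2 ^ (Nat.choose c 2)) := by
            rw [Nat.mul_succ, pow_add]; ring
        _ ≤ (2 ^ (Fintype.card ι - T.card) * 2 ^ T.card) * cb T.card *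
              (cb T.card ^ m * 2 ^ T.card * (symSet {k // k ≠ i}).card) :=
            Nat.mul_le_mul_left _ hIH
        _ = cb T.card ^ (m + 1) * 2 ^ T.card * (symSet ι).card := by
            rw [hpow, hsym, pow_succ]; ring
    · intro A _ hA
      obtain ⟨hck, ⟨u, hu, hfull⟩, hrows⟩ := hA
      refine ⟨hck.trans (corank_restr_of_notMem hiT A),
        ⟨fun k => u k.1, isAnn_restr hiT hu, fun k hk => hfull k.1 (by simpa using hk)⟩, ?_⟩
      intro k hk u' hu'
      have h1 := hrows k.1 (by simpa using hk) (extV i u') (isAnn_extV hiR hu')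
      rw [sdot_extV] at h1
      exact h1
    · intro A' _ hA'
      obtain ⟨-, ⟨u', hu', hfull'⟩, _⟩ := hA'
      refine ⟨(univ : Finset (ι → ℤˣ)).filter fun x => sdot x (extV i u') = 0, ?_, ?_⟩
      · have hlo := lo_count (extV i u') 0
        have hsupp : (univ.filter fun j => extV i u' j ≠ 0) = T := by
          ext j
          simp only [mem_filter, mem_univ, true_and]
          constructor
          · intro hj
            by_contra hjT
            apply hj
            by_cases hji : j = i
            · subst hji
              exact extV_self _ u'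
            · have := hu'.1 ⟨j, hji⟩ (by simpa using hjT)
              rw [← this]
              exact extV_ne i u' ⟨j, hji⟩
          · intro hjT
            have hji : j ≠ i := fun h => hiT (h ▸ hjT)
            have := hfull' ⟨j, hji⟩ (by simpa using hjT)
            rw [← extV_ne i u' ⟨j, hji⟩] at this
            exact this
        rw [hsupp] at hlo
        exact hlo
      · intro A _ hA hrestr
        rw [mem_filter]
        refine ⟨mem_univ _, ?_⟩
        subst hrestr
        exact hA.2.2 i hiF (extV i u') (isAnn_extV hiR hu')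

end Vale.Agent.Lib.P160
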