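import Vale.Agent.Lib.P160.Sparse4

namespace Vale.Agent.Lib.P160

open Finset Matrix

open Classical in
/-- The event set of `sparseProb ε n`. -/
noncomputable def spSetE (ε : ℝ) (n : ℕ) : Finset (Matrix (Fin n) (Fin n) ℤˣ) :=
  (symSet (Fin n)).filter fun A => ∃ v : Fin n → ℝ, v ≠ 0 ∧
    ((univ.filter fun j => v j ≠ 0).card : ℝ) ≤ (1 / 2 - ε) * (n : ℝ) ∧ toR A *ᵥ v = 0

open Classical in
theorem mem_spSetE {ε : ℝ} {n : ℕ} {A : Matrix (Fin n) (Fin n) ℤˣ} :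
    A ∈ spSetE ε n ↔ A ∈ symSet (Fin n) ∧ ∃ v : Fin n → ℝ, v ≠ 0 ∧
    ((univ.filter fun j => v j ≠ 0).card : ℝ) ≤ (1 / 2 - ε) * (n : ℝ) ∧ toR A *ᵥ v = 0 := by
  unfold spSetE
  rw [mem_filter]

theorem sparseProb_eq (ε : ℝ) (n : ℕ) :
    sparseProb ε n = ((spSetE ε n).card : ℝ) / ((symSignMatrices n).card : ℝ) := rfl

open Classical in
theorem spSetE_subset {ε : ℝ} {q : ℕ} (hq : 1 ≤ 2 * ε * (q : ℝ)) (n : ℕ) :
    spSetE ε n ⊆ spSetQ q n := by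
  intro A hA
  rw [mem_spSetE] at hA
  rw [mem_spSetQ]
  obtain ⟨hA1, v, hv0, hvs, hAv⟩ := hA
  refine ⟨hA1, v, hv0, ?_, hAv⟩
  have hn : (0 : ℝ) ≤ (n : ℝ) := Nat.cast_nonneg n
  have hq0 : (0 : ℝ) ≤ (q : ℝ) := Nat.cast_nonneg q
  have h1 : (2 : ℝ) * (q : ℝ) * ((univ.filter fun j => v j ≠ 0).card : ℝ) + (n : ℝ) ≤
      (q : ℝ) * (n : ℝ) := by
    have h2 : (2 : ℝ) * (q : ℝ) * ((univ.filter fun j => v j ≠ 0).card : ℝ) ≤
        2 * (q : ℝ) * ((1 / 2 - ε) * (n : ℝ)) :=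
      mul_le_mul_of_nonneg_left hvs (by positivity)
    nlinarith
  exact_mod_cast h1

theorem sparseProb_le {ε : ℝ} {q : ℕ} (hq : 1 ≤ 2 * ε * (q : ℝ)) (n : ℕ) :
    sparseProb ε n ≤ ((n : ℝ) * ((n : ℝ) - 1)) / 2 ^ n + constQ q * (243 / 512) ^ n := by
  rw [sparseProb_eq, symSignMatrices_eq, card_symSet, Fintype.card_fin]
  have h0 : ((spSetE ε n).card : ℝ) ≤ ((spSetQ q n).card : ℝ) := by
    exact_mod_cast Finset.card_le_card (spSetE_subset hq n)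
  have h3 := h0.trans (spSetQ_card_le q n)
  have hc : Nat.choose (n + 1) 2 = n + Nat.choose n 2 := by
    rw [Nat.choose_succ_succ' n 1, Nat.choose_one_right]
  have hnn : ((n * n - n : ℕ) : ℝ) = (n : ℝ) * ((n : ℝ) - 1) := by
    have : n ≤ n * n := Nat.le_mul_self n
    rw [Nat.cast_sub this]
    push_cast
    ring
  rw [hnn, hc] at h3
  push_cast
  rw [hc, div_le_iff₀ (by positivity)]
  refine h3.trans (le_of_eq ?_)
  rw [pow_add]
  have h2n : (2 : ℝ) ^ n ≠ 0 := by positivity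
  have h2c : (2 : ℝ) ^ (Nat.choose n 2) ≠ 0 := by positivity
  field_simp

theorem exists_const_sparseProb_le {ε : ℝ} (hε : 0 < ε) :
    ∃ C : ℝ, ∀ n : ℕ,
      sparseProb ε n ≤ ((n : ℝ) * ((n : ℝ) - 1)) / 2 ^ n + C * (243 / 512) ^ n := by
  obtain ⟨q, hq⟩ := exists_nat_ge (1 / (2 * ε))
  refine ⟨constQ q, fun n => sparseProb_le ?_ n⟩
  have h2 : (0 : ℝ) < 2 * ε := by linarith
  rw [div_le_iff₀ h2] at hq
  linarith

open Classical in
theorem biUnion_Ev_subset_spSetE {ε : ℝ} {n : ℕ} (hn : 2 ≤ (1 / 2 - ε) * (n : ℝ)) :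
    ((univ : Finset (Fin n)).offDiag).biUnion Ev ⊆ spSetE ε n := by
  intro A hA
  rw [mem_biUnion] at hA
  obtain ⟨p, hp, hAp⟩ := hA
  have hne : p.1 ≠ p.2 := (mem_offDiag.1 hp).2.2
  unfold Ev at hAp
  rw [mem_spSetE]
  have hnull := pairEvent_null hne hAp
  have hs : A ∈ symSet (Fin n) := mem_symSet.2 (mem_pairEvent.1 hAp).1
  refine ⟨hs, ?_⟩
  refine ⟨fun l => ((((Pi.single p.1 1 - Pi.single p.2 ((sg p : ℤˣ) : ℤ) : Fin n → ℤ) l : ℤ)) : ℝ),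
    ?_⟩
  refine ⟨?_, ?_, hnull⟩
  · intro h
    have := congrFun h p.1
    simp [hne] at this
  · have hsub : (univ.filter fun j =>
        ((((Pi.single p.1 1 - Pi.single p.2 ((sg p : ℤˣ) : ℤ) : Fin n → ℤ) j : ℤ)) : ℝ) ≠ 0) ⊆
        {p.1, p.2} := by
      intro j hj
      rw [mem_filter] at hj
      rw [mem_insert, mem_singleton]
      by_contra hcon
      rw [not_or] at hcon
      apply hj.2
      simp [hcon.1, hcon.2]
    have hc := (Finset.card_le_card hsub).trans Finset.card_le_two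
    have hc' : ((univ.filter fun j =>
        ((((Pi.single p.1 1 - Pi.single p.2 ((sg p : ℤˣ) : ℤ) : Fin n → ℤ) j : ℤ)) : ℝ) ≠ 0).card
        : ℝ) ≤ 2 := by
      exact_mod_cast hc
    beta_reduce
    linarith

theorem sparseProb_ge {ε : ℝ} {n : ℕ} (hn : 2 ≤ (1 / 2 - ε) * (n : ℝ)) :
    lowerB n ≤ sparseProb ε n := by
  rw [sparseProb_eq]
  exact prob_ge n _ (biUnion_Ev_subset_spSetE hn)

theorem sparseProb_tendsto {ε : ℝ} (hε : 0 < ε) (hε' : ε < 1 / 2) :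
    Filter.Tendsto (fun n : ℕ => sparseProb ε n * 2 ^ n / (n : ℝ) ^ 2) Filter.atTop
      (nhds 1) := by
  obtain ⟨C, hC⟩ := exists_const_sparseProb_le hε
  have hpos : (0 : ℝ) < 1 / 2 - ε := by linarith
  obtain ⟨n0, hn0⟩ := exists_nat_ge (2 / (1 / 2 - ε))
  refine tendsto_ratio (C := C) (θ := 243 / 512) (by norm_num) (by norm_num) n0
    (fun n hn => sparseProb_ge ?_) (fun n _ => hC n)
  have h1 : (n0 : ℝ) ≤ (n : ℝ) := by exact_mod_cast hn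
  rw [div_le_iff₀ hpos] at hn0
  nlinarith

theorem sparseProb_le_singProb (ε : ℝ) (n : ℕ) : sparseProb ε n ≤ singProb n := by
  refine symProb_le_singProb n _ ?_
  rintro M ⟨v, hv, -, hMv⟩
  exact Matrix.exists_mulVec_eq_zero_iff.1 ⟨v, hv, hMv⟩

end Vale.Agent.Lib.P160
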