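import Vale.Agent.Lib.P160.Dense3
import Vale.Agent.Lib.P160.helper63.LogNum

namespace Vale.Agent.Lib.P160

open Finset Matrix H63

open Classical in
/-- The symmetric sign matrices having a nonzero null vector whose number `z` of zero
coordinates satisfies `40 n ≤ z log₂ n`. -/
noncomputable def spSetL (n : ℕ) : Finset (Matrix (Fin n) (Fin n) ℤˣ) :=
  (symSet (Fin n)).filter fun A => ∃ v : Fin n → ℝ, v ≠ 0 ∧
    40 * (n : ℝ) ≤ ((n - (univ.filter fun j => v j ≠ 0).card : ℕ) : ℝ) * Real.logb 2 n ∧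
    toR A *ᵥ v = 0

open Classical in
theorem mem_spSetL {n : ℕ} {A : Matrix (Fin n) (Fin n) ℤˣ} :
    A ∈ spSetL n ↔ A ∈ symSet (Fin n) ∧ ∃ v : Fin n → ℝ, v ≠ 0 ∧
    40 * (n : ℝ) ≤ ((n - (univ.filter fun j => v j ≠ 0).card : ℕ) : ℝ) * Real.logb 2 n ∧
    toR A *ᵥ v = 0 := by
  unfold spSetL
  rw [mem_filter]

open Classical in
/-- The index set of pairs `(T, I)` used in the union bound. -/
noncomputable def pairsL (n : ℕ) : Finset (Finset (Fin n) × Finset (Fin n)) :=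
  ((univ : Finset (Fin n)).powerset ×ˢ (univ : Finset (Fin n)).powerset).filter fun p =>
    3 ≤ p.1.card ∧ 40 * (n : ℝ) ≤ ((n - p.1.card : ℕ) : ℝ) * Real.logb 2 n ∧
      Disjoint p.2 p.1 ∧ p.2.card + 1 ≤ p.1.card

open Classical in
theorem spSetL_subset (n : ℕ) :
    spSetL n ⊆ (univ : Finset (Fin n)).offDiag.biUnion Ev ∪ (pairsL n).biUnion (evSetD n) := by
  intro A hA
  rw [mem_spSetL] at hA
  obtain ⟨hA1, v, hv0, hv4, hAv⟩ := hA
  have h2 := two_le_supp hv0 hAv
  rw [mem_union]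
  rcases Nat.eq_or_lt_of_le h2 with h2' | h3
  · left
    exact mem_biUnion_of_supp_two hA1 h2'.symm hAv
  · right
    obtain ⟨I, hdisj, hcard, hev⟩ :=
      exists_rows_of_null_union (A := A) (v := v) (univ.filter fun j => v j ≠ 0)
        (fun j => by simp) hv0 hAv
    have hle := finrank_annSub_self_le (univ.filter fun j => v j ≠ 0) A
    rw [mem_biUnion]
    refine ⟨(univ.filter fun j => v j ≠ 0, I), ?_, ?_⟩
    · unfold pairsL
      rw [mem_filter, mem_product, mem_powerset, mem_powerset]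
      exact ⟨⟨subset_univ _, subset_univ _⟩, h3, hv4, hdisj, hcard.trans hle⟩
    · rw [mem_evSetD]
      exact ⟨hA1, hcard, hev⟩

open Classical in
theorem evSetD_card_leL {n : ℕ} {p : Finset (Fin n) × Finset (Fin n)} (hp : p ∈ pairsL n) :
    ((evSetD n p).card : ℝ) ≤ 2 ^ (Nat.choose (n + 1) 2) *
      (constL * (3 / 8) ^ n * ((1 / 8) ^ p.1.card * (1 / 8) ^ p.2.card)) := by
  unfold pairsL at hp
  rw [mem_filter] at hp
  obtain ⟨-, h3, h4, hdisj, hcard⟩ := hp
  have hFT : Disjoint (univ \ (p.1 ∪ p.2)) p.1 := by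
    rw [Finset.disjoint_left]
    intro k hk hk'
    rw [Finset.mem_sdiff] at hk
    exact hk.2 (Finset.mem_union_left _ hk')
  have hFR : Disjoint (univ \ (p.1 ∪ p.2)) (p.1 ∪ p.2) := Finset.sdiff_disjoint
  have hsubset : evSetD n p ⊆
      (symSet (Fin n)).filter (EvS p.1 (p.1 ∪ p.2) (univ \ (p.1 ∪ p.2))) := by
    intro A hA
    rw [mem_evSetD] at hA
    rw [mem_filter]
    exact ⟨hA.1, hA.2.2⟩
  have hcount1 := evS_count (univ \ (p.1 ∪ p.2)).card (Fin n) p.1 (p.1 ∪ p.2)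
    (univ \ (p.1 ∪ p.2)) rfl hFT hFR
  have hcount2 := evS_corank_count (univ \ (p.1 ∪ p.2)).card (Fin n) p.1 (p.1 ∪ p.2)
    (univ \ (p.1 ∪ p.2)) (p.2.card + 1) rfl hFT hFR
  have hf : (univ \ (p.1 ∪ p.2)).card + p.1.card + p.2.card = n := by
    have h1 : (p.1 ∪ p.2).card = p.1.card + p.2.card :=
      Finset.card_union_of_disjoint hdisj.symm
    have h2 := Finset.card_sdiff_add_card_eq_card (Finset.subset_univ (p.1 ∪ p.2))
    rw [Finset.card_univ, Fintype.card_fin] at h2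
    omega
  have hterm := log_term_bound h3 h4 hcard hf
  rw [card_symSet, Fintype.card_fin] at hcount1 hcount2
  have hcountR1 : ((evSetD n p).card : ℝ) * 2 ^ (p.1.card * (univ \ (p.1 ∪ p.2)).card) ≤
      (cb p.1.card : ℝ) ^ (univ \ (p.1 ∪ p.2)).card * 2 ^ (Nat.choose (n + 1) 2) := by
    have : (((evSetD n p).card * 2 ^ (p.1.card * (univ \ (p.1 ∪ p.2)).card) : ℕ) : ℝ) ≤
        ((cb p.1.card ^ (univ \ (p.1 ∪ p.2)).card * 2 ^ (Nat.choose (n + 1) 2) : ℕ) : ℝ) := by
      exact_mod_cast (Nat.mul_le_mul_right _ (Finset.card_le_card hsubset)).trans hcount1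
    push_cast at this
    exact this
  have hcountR2 : ((evSetD n p).card : ℝ) * 2 ^ (p.1.card * (univ \ (p.1 ∪ p.2)).card) *
      2 ^ (Nat.choose (p.2.card + 1) 2) ≤
      (cb p.1.card : ℝ) ^ (univ \ (p.1 ∪ p.2)).card * 2 ^ p.1.card *
        2 ^ (Nat.choose (n + 1) 2) := by
    have : (((evSetD n p).card * 2 ^ (p.1.card * (univ \ (p.1 ∪ p.2)).card) *
        2 ^ (Nat.choose (p.2.card + 1) 2) : ℕ) : ℝ) ≤
        ((cb p.1.card ^ (univ \ (p.1 ∪ p.2)).card * 2 ^ p.1.card *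
          2 ^ (Nat.choose (n + 1) 2) : ℕ) : ℝ) := by
      exact_mod_cast hcount2
    push_cast at this
    exact this
  have hLr : Lr p.1.card ^ (univ \ (p.1 ∪ p.2)).card =
      (cb p.1.card : ℝ) ^ (univ \ (p.1 ∪ p.2)).card /
        2 ^ (p.1.card * (univ \ (p.1 ∪ p.2)).card) := by
    unfold Lr
    rw [div_pow, ← pow_mul]
  have hN : (0 : ℝ) < 2 ^ (Nat.choose (n + 1) 2) := by positivity
  have h5 : ((evSetD n p).card : ℝ) ≤
      2 ^ (Nat.choose (n + 1) 2) * Lr p.1.card ^ (univ \ (p.1 ∪ p.2)).card := by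
    rw [hLr, mul_div_assoc', le_div_iff₀ (by positivity)]
    linarith
  have h6 : ((evSetD n p).card : ℝ) ≤
      2 ^ (Nat.choose (n + 1) 2) * (Lr p.1.card ^ (univ \ (p.1 ∪ p.2)).card * 2 ^ p.1.card /
        2 ^ (Nat.choose (p.2.card + 1) 2)) := by
    rw [hLr, div_mul_eq_mul_div, div_div, mul_div_assoc', le_div_iff₀ (by positivity)]
    linarith
  have h7 : ((evSetD n p).card : ℝ) ≤ 2 ^ (Nat.choose (n + 1) 2) *
      min (Lr p.1.card ^ (univ \ (p.1 ∪ p.2)).card)
        (Lr p.1.card ^ (univ \ (p.1 ∪ p.2)).card * 2 ^ p.1.card /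
          2 ^ (Nat.choose (p.2.card + 1) 2)) := by
    rcases min_choice (Lr p.1.card ^ (univ \ (p.1 ∪ p.2)).card)
        (Lr p.1.card ^ (univ \ (p.1 ∪ p.2)).card * 2 ^ p.1.card /
          2 ^ (Nat.choose (p.2.card + 1) 2)) with h | h
    · rw [h]; exact h5
    · rw [h]; exact h6
  exact h7.trans (mul_le_mul_of_nonneg_left hterm hN.le)

open Classical in
theorem spSetL_card_le (n : ℕ) :
    ((spSetL n).card : ℝ) ≤ ((n * n - n : ℕ) : ℝ) * 2 ^ (Nat.choose n 2) +
      2 ^ (Nat.choose (n + 1) 2) * (constL * (243 / 512) ^ n) := by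
  have hC : (0 : ℝ) < constL := by unfold constL; positivity
  have h1 : (spSetL n).card ≤ ((univ : Finset (Fin n)).offDiag.biUnion Ev).card +
      ((pairsL n).biUnion (evSetD n)).card :=
    (Finset.card_le_card (spSetL_subset n)).trans (Finset.card_union_le _ _)
  have h2 : ((univ : Finset (Fin n)).offDiag.biUnion Ev).card ≤
      (n * n - n) * 2 ^ (Nat.choose n 2) := by
    refine Finset.card_biUnion_le.trans ?_
    rw [Finset.sum_congr rfl (fun p hp => Ev_card (mem_offDiag.1 hp).2.2), Finset.sum_const,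
      smul_eq_mul, Finset.offDiag_card, Finset.card_univ, Fintype.card_fin]
  have h3 : (((pairsL n).biUnion (evSetD n)).card : ℝ) ≤
      2 ^ (Nat.choose (n + 1) 2) * (constL * (243 / 512) ^ n) := by
    have h4 : (((pairsL n).biUnion (evSetD n)).card : ℝ) ≤
        ∑ p ∈ pairsL n, ((evSetD n p).card : ℝ) := by
      exact_mod_cast Finset.card_biUnion_le (s := pairsL n) (t := evSetD n)
    refine h4.trans ?_
    refine (Finset.sum_le_sum fun p hp => evSetD_card_leL hp).trans ?_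
    have h5 : ∑ p ∈ pairsL n, (2 : ℝ) ^ (Nat.choose (n + 1) 2) *
        (constL * (3 / 8) ^ n * ((1 / 8) ^ p.1.card * (1 / 8) ^ p.2.card)) ≤
        ∑ p ∈ (univ : Finset (Fin n)).powerset ×ˢ (univ : Finset (Fin n)).powerset,
          (2 : ℝ) ^ (Nat.choose (n + 1) 2) *
          (constL * (3 / 8) ^ n * ((1 / 8) ^ p.1.card * (1 / 8) ^ p.2.card)) := by
      refine Finset.sum_le_sum_of_subset_of_nonneg (Finset.filter_subset _ _) ?_
      intro p _ _
      positivity
    refine h5.trans ?_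
    rw [← Finset.mul_sum, ← Finset.mul_sum]
    have h9 : ∑ p ∈ (univ : Finset (Fin n)).powerset ×ˢ (univ : Finset (Fin n)).powerset,
        (1 / 8 : ℝ) ^ p.1.card * (1 / 8) ^ p.2.card = (1 / 8 + 1) ^ n * (1 / 8 + 1) ^ n := by
      rw [Finset.sum_product' (univ : Finset (Fin n)).powerset (univ : Finset (Fin n)).powerset
        (fun T R => (1 / 8 : ℝ) ^ T.card * (1 / 8) ^ R.card), ← Finset.sum_mul_sum,
        sum_powerset_pow]
    have h6 : (243 / 512 : ℝ) ^ n = (3 / 8) ^ n * ((1 / 8 + 1) ^ n * (1 / 8 + 1) ^ n) := by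
      rw [← mul_pow, ← mul_pow]; norm_num
    rw [h9, h6]
    exact le_of_eq (by ring)
  have h7 : ((spSetL n).card : ℝ) ≤ (((univ : Finset (Fin n)).offDiag.biUnion Ev).card : ℝ) +
      (((pairsL n).biUnion (evSetD n)).card : ℝ) := by
    exact_mod_cast h1
  have h8 : (((univ : Finset (Fin n)).offDiag.biUnion Ev).card : ℝ) ≤
      ((n * n - n : ℕ) : ℝ) * 2 ^ (Nat.choose n 2) := by
    exact_mod_cast h2
  linarith

end Vale.Agent.Lib.P160
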