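import Vale.Agent.Lib.P160.Dense4

namespace Vale.Agent.Lib.P160

open Finset Matrix H63

theorem logb_two_nat_nonneg (n : ℕ) : 0 ≤ Real.logb 2 (n : ℝ) := by
  rcases Nat.eq_zero_or_pos n with h | h
  · subst h
    simp
  · exact Real.logb_nonneg (by norm_num) (by exact_mod_cast h)

open Classical in
theorem spSetZ_subset_spSetL {ε : ℝ} {n : ℕ} (h : 40 ≤ ε * Real.logb 2 (n : ℝ)) :
    spSetZ ε n ⊆ spSetL n := by
  intro A hA
  rw [mem_spSetZ] at hA
  rw [mem_spSetL]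
  obtain ⟨hA1, v, hv0, hvs, hAv⟩ := hA
  refine ⟨hA1, v, hv0, ?_, hAv⟩
  have hn : (0 : ℝ) ≤ (n : ℝ) := Nat.cast_nonneg n
  have hL : 0 ≤ Real.logb 2 (n : ℝ) := logb_two_nat_nonneg n
  have hcard : (univ.filter fun j => v j ≠ 0).card ≤ n := by
    have := Finset.card_le_univ (univ.filter fun j => v j ≠ 0)
    rwa [Fintype.card_fin] at this
  rw [Nat.cast_sub hcard]
  have h1 : ε * (n : ℝ) ≤ (n : ℝ) - ((univ.filter fun j => v j ≠ 0).card : ℝ) := by linarith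
  calc 40 * (n : ℝ) ≤ (ε * Real.logb 2 (n : ℝ)) * (n : ℝ) := mul_le_mul_of_nonneg_right h hn
    _ = (ε * (n : ℝ)) * Real.logb 2 (n : ℝ) := by ring
    _ ≤ ((n : ℝ) - ((univ.filter fun j => v j ≠ 0).card : ℝ)) * Real.logb 2 (n : ℝ) :=
        mul_le_mul_of_nonneg_right h1 hL

theorem zerosProb_le_log {ε : ℝ} {n : ℕ} (h : 40 ≤ ε * Real.logb 2 (n : ℝ)) :
    zerosProb ε n ≤ ((n : ℝ) * ((n : ℝ) - 1)) / 2 ^ n + constL * (243 / 512) ^ n := by
  rw [zerosProb_eq, symSignMatrices_eq, card_symSet, Fintype.card_fin]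
  have h0 : ((spSetZ ε n).card : ℝ) ≤ ((spSetL n).card : ℝ) := by
    exact_mod_cast Finset.card_le_card (spSetZ_subset_spSetL h)
  have h3 := h0.trans (spSetL_card_le n)
  have hc : Nat.choose (n + 1) 2 = n + Nat.choose n 2 := by
    rw [Nat.choose_succ_succ' n 1, Nat.choose_one_right]
  have hnn : ((n * n - n : ℕ) : ℝ) = (n : ℝ) * ((n : ℝ) - 1) := by
    have : n ≤ n * n := Nat.le_mul_self n
    rw [Nat.cast_sub this]
    push_cast
    ring
  rw [hnn, hc] at h3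
  push_cast
  rw [hc, div_le_iff₀ (by positivity)]
  refine h3.trans (le_of_eq ?_)
  rw [pow_add]
  have h2n : (2 : ℝ) ^ n ≠ 0 := by positivity
  have h2c : (2 : ℝ) ^ (Nat.choose n 2) ≠ 0 := by positivity
  generalize constL = C
  field_simp

theorem exists_const_zerosProb_le_log :
    ∃ C : ℝ, ∀ (ε : ℝ) (n : ℕ), 40 ≤ ε * Real.logb 2 (n : ℝ) →
      zerosProb ε n ≤ ((n : ℝ) * ((n : ℝ) - 1)) / 2 ^ n + C * (243 / 512) ^ n :=
  ⟨constL, fun _ _ h => zerosProb_le_log h⟩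

theorem zerosProb_log_tendsto :
    Filter.Tendsto (fun n : ℕ => zerosProb (40 / Real.logb 2 (n : ℝ)) n * 2 ^ n / (n : ℝ) ^ 2)
      Filter.atTop (nhds 1) := by
  refine tendsto_ratio (C := constL) (θ := 243 / 512) (by norm_num) (by norm_num) (2 ^ 41)
    (fun n hn => zerosProb_ge ?_) (fun n hn => zerosProb_le_log ?_)
  · have hn' : (2 : ℝ) ^ (41 : ℕ) ≤ (n : ℝ) := by exact_mod_cast hn
    have hL : (41 : ℝ) ≤ Real.logb 2 (n : ℝ) := by
      rw [Real.le_logb_iff_rpow_le (by norm_num) (by linarith [pow_pos (show (0 : ℝ) < 2 by norm_num) 41])]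
      have : (2 : ℝ) ^ ((41 : ℕ) : ℝ) = (2 : ℝ) ^ (41 : ℕ) := Real.rpow_natCast 2 41
      have h41 : ((41 : ℕ) : ℝ) = (41 : ℝ) := by norm_num
      rw [h41] at this
      rw [this]
      exact hn'
    have hLpos : (0 : ℝ) < Real.logb 2 (n : ℝ) := by linarith
    have h1 : 40 / Real.logb 2 (n : ℝ) ≤ 40 / 41 := by
      rw [div_le_div_iff₀ hLpos (by norm_num)]
      linarith
    have h82 : (82 : ℝ) ≤ (n : ℝ) := by
      have : (82 : ℝ) ≤ (2 : ℝ) ^ (41 : ℕ) := by norm_num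
      linarith
    have h2 : (1 : ℝ) / 41 ≤ 1 - 40 / Real.logb 2 (n : ℝ) := by linarith
    calc (2 : ℝ) ≤ (1 / 41) * (n : ℝ) := by linarith
      _ ≤ (1 - 40 / Real.logb 2 (n : ℝ)) * (n : ℝ) :=
          mul_le_mul_of_nonneg_right h2 (Nat.cast_nonneg n)
  · have hn' : (2 : ℝ) ^ (41 : ℕ) ≤ (n : ℝ) := by exact_mod_cast hn
    have hL : (41 : ℝ) ≤ Real.logb 2 (n : ℝ) := by
      rw [Real.le_logb_iff_rpow_le (by norm_num) (by linarith [pow_pos (show (0 : ℝ) < 2 by norm_num) 41])]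
      have : (2 : ℝ) ^ ((41 : ℕ) : ℝ) = (2 : ℝ) ^ (41 : ℕ) := Real.rpow_natCast 2 41
      have h41 : ((41 : ℕ) : ℝ) = (41 : ℝ) := by norm_num
      rw [h41] at this
      rw [this]
      exact hn'
    have hLne : Real.logb 2 (n : ℝ) ≠ 0 := by linarith
    rw [div_mul_cancel₀ _ hLne]

end Vale.Agent.Lib.P160
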