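import Vale.Agent.Lib.P160.Values1

namespace Vale.Agent.Lib.P160

open Finset Matrix

section general

variable {ι : Type} [Fintype ι] [DecidableEq ι]

/-- The event used for null vectors in a subspace `V`: the vectors of `V` annihilated by
the rows in `I` contain one with at least `s` nonzero coordinates, and all of them are
annihilated by every row. -/
def SFEv (V : Submodule ℝ (ι → ℝ)) (I : Finset ι) (s : ℕ) (A : Matrix ι ι ℤˣ) : Prop :=
  (∃ u ∈ V ⊓ annSub univ I A, s ≤ (univ.filter fun j => u j ≠ 0).card) ∧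
    ∀ i, ∀ u ∈ V ⊓ annSub univ I A, sdot (A i) u = 0

open Classical in
theorem sf_count (V : Submodule ℝ (ι → ℝ)) (I : Finset ι) (s : ℕ) :
    ((symSet ι).filter fun A => SFEv V I s A).card *
      2 ^ (Nat.choose ((univ \ I).card + 1) 2) ≤
      G (univ \ I).card (s - I.card) * (symSet ι).card := by
  have h := block_count_vec (univ \ I) (s - I.card) (fun A => SFEv V I s A)
    (fun A => canonVec (V ⊓ annSub univ I A) s)
    (fun A i => - ∑ j ∈ I, ((A i j : ℤ) : ℝ) * canonVec (V ⊓ annSub univ I A) s j)
    (by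
      intro A _ B _ _ _ hAB
      have hrow : ∀ r ∈ I, A r = B r := by
        intro r hr
        funext j
        exact hAB r j (fun h => (mem_sdiff.1 h.1).2 hr)
      have hK : annSub univ I A = annSub univ I B := by
        ext u
        rw [mem_annSub, mem_annSub]
        constructor
        · rintro ⟨h1, h2⟩
          exact ⟨h1, fun r hr => by rw [← hrow r hr]; exact h2 r hr⟩
        · rintro ⟨h1, h2⟩
          exact ⟨h1, fun r hr => by rw [hrow r hr]; exact h2 r hr⟩
      refine ⟨?_, ?_⟩
      · show canonVec (V ⊓ annSub univ I A) s = canonVec (V ⊓ annSub univ I B) s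
        rw [hK]
      · funext i
        show - ∑ j ∈ I, ((A i j : ℤ) : ℝ) * canonVec (V ⊓ annSub univ I A) s j =
          - ∑ j ∈ I, ((B i j : ℤ) : ℝ) * canonVec (V ⊓ annSub univ I B) s j
        rw [hK]
        congr 1
        refine Finset.sum_congr rfl fun j hj => ?_
        rw [hAB i j (fun h => (mem_sdiff.1 h.2).2 hj)])
    (by
      intro A _ hFV
      obtain ⟨hex, hall⟩ := hFV
      obtain ⟨hmem, hnz⟩ := canonVec_spec hex
      refine ⟨fun i _ => ?_, ?_⟩
      · have h0 := hall i _ hmem
        unfold sdot at h0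
        rw [← Finset.sum_sdiff (Finset.subset_univ I)] at h0
        linarith
      · have hsub : (univ.filter fun j => canonVec (V ⊓ annSub univ I A) s j ≠ 0) ⊆
            ((univ \ I).filter fun j => canonVec (V ⊓ annSub univ I A) s j ≠ 0) ∪ I := by
          intro j hj
          rw [mem_filter] at hj
          by_cases hjI : j ∈ I
          · exact mem_union_right _ hjI
          · exact mem_union_left _ (mem_filter.2 ⟨mem_sdiff.2 ⟨mem_univ j, hjI⟩, hj.2⟩)
        have := (Finset.card_le_card hsub).trans (Finset.card_union_le _ _)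
        omega)
  convert h using 3

open Classical in
theorem sf_card_le (V : Submodule ℝ (ι → ℝ)) (I : Finset ι) (s : ℕ)
    {d : ℕ} (hs : s ≤ Fintype.card ι) (hI : I.card ≤ d) :
    (((symSet ι).filter fun A => SFEv V I s A).card : ℝ) ≤
      Qr (s - d) * ((symSet ι).card : ℝ) := by
  have h1 := sf_count V I s
  have ht : (univ \ I).card = Fintype.card ι - I.card := Finset.card_univ_sdiff I
  have hle : s - I.card ≤ (univ \ I).card := by
    rw [ht]; omega
  have hG := G_eq' hle
  have h3 : (((symSet ι).filter fun A => SFEv V I s A).card : ℝ) *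
      2 ^ (Nat.choose ((univ \ I).card + 1) 2) ≤
      (G (univ \ I).card (s - I.card) : ℝ) * ((symSet ι).card : ℝ) := by
    exact_mod_cast h1
  rw [hG] at h3
  have hp : (0 : ℝ) < 2 ^ (Nat.choose ((univ \ I).card + 1) 2) := by positivity
  have hN : (0 : ℝ) ≤ ((symSet ι).card : ℝ) := Nat.cast_nonneg _
  have hL : Lr (s - I.card) ^ ((univ \ I).card - (s - I.card)) ≤ 1 :=
    pow_le_one₀ (Lr_pos _).le (Lr_le_one _)
  have hQ : Qr (s - I.card) ≤ Qr (s - d) := Qr_antitone (by omega)
  have h4 : 2 ^ (Nat.choose ((univ \ I).card + 1) 2) *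
      Lr (s - I.card) ^ ((univ \ I).card - (s - I.card)) * Qr (s - I.card) *
      ((symSet ι).card : ℝ) ≤
      (Qr (s - d) * ((symSet ι).card : ℝ)) * 2 ^ (Nat.choose ((univ \ I).card + 1) 2) := by
    have h5 : Lr (s - I.card) ^ ((univ \ I).card - (s - I.card)) * Qr (s - I.card) ≤
        Qr (s - d) := by
      calc _ ≤ 1 * Qr (s - I.card) := mul_le_mul_of_nonneg_right hL (Qr_pos _).le
        _ = Qr (s - I.card) := one_mul _
        _ ≤ Qr (s - d) := hQ
    have h6 := mul_le_mul_of_nonneg_right h5 hN
    have h7 := mul_le_mul_of_nonneg_left h6 hp.le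
    calc _ = 2 ^ (Nat.choose ((univ \ I).card + 1) 2) *
          (Lr (s - I.card) ^ ((univ \ I).card - (s - I.card)) * Qr (s - I.card) *
            ((symSet ι).card : ℝ)) := by ring
      _ ≤ 2 ^ (Nat.choose ((univ \ I).card + 1) 2) * (Qr (s - d) * ((symSet ι).card : ℝ)) := h7
      _ = _ := by ring
  exact le_of_mul_le_mul_right (h3.trans h4) hp

end general

end Vale.Agent.Lib.P160
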