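import Vale.Agent.Lib.P160.Level1
import Vale.Agent.Lib.P160.Dense5
import Vale.Agent.Lib.P160.Defs5
import Vale.Agent.Lib.P160.helper63.LevelNum

namespace Vale.Agent.Lib.P160

open Finset Matrix

open Classical in
/-- The event set of `levelProb ε n`. -/
noncomputable def lvSet (ε : ℝ) (n : ℕ) : Finset (Matrix (Fin n) (Fin n) ℤˣ) :=
  (symSet (Fin n)).filter fun A => ∃ v : Fin n → ℝ, v ≠ 0 ∧
    (∃ c : ℝ, ε * (n : ℝ) ≤ ((univ.filter fun j => v j = c).card : ℝ)) ∧ toR A *ᵥ v = 0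

open Classical in
theorem mem_lvSet {ε : ℝ} {n : ℕ} {A : Matrix (Fin n) (Fin n) ℤˣ} :
    A ∈ lvSet ε n ↔ A ∈ symSet (Fin n) ∧ ∃ v : Fin n → ℝ, v ≠ 0 ∧
    (∃ c : ℝ, ε * (n : ℝ) ≤ ((univ.filter fun j => v j = c).card : ℝ)) ∧ toR A *ᵥ v = 0 := by
  unfold lvSet
  rw [mem_filter]

theorem levelProb_eq (ε : ℝ) (n : ℕ) :
    levelProb ε n = ((lvSet ε n).card : ℝ) / ((symSignMatrices n).card : ℝ) := rfl

theorem card_ne_zero_add (n : ℕ) (v : Fin n → ℝ) :
    ((univ.filter fun j => v j ≠ 0).card : ℝ) + ((univ.filter fun j => v j = 0).card : ℝ) =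
      (n : ℝ) := by
  have h := Finset.card_filter_add_card_filter_not (s := (univ : Finset (Fin n)))
    (p := fun j => v j = 0)
  rw [Finset.card_univ, Fintype.card_fin] at h
  have h' : ((univ.filter fun j => v j = 0).card : ℝ) +
      ((univ.filter fun j => ¬ v j = 0).card : ℝ) = (n : ℝ) := by exact_mod_cast h
  linarith

open Classical in
theorem lvSet_subset (ε : ℝ) (n : ℕ) :
    lvSet ε n ⊆ spSetZ ε n ∪
      ((univ : Finset (Fin n)).powersetCard ⌈ε * (n : ℝ)⌉₊).biUnion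
        fun Z => (symSet (Fin n)).filter fun A => LevelEv Z A := by
  intro A hA
  rw [mem_lvSet] at hA
  obtain ⟨hA1, v, hv0, ⟨c, hc⟩, hAv⟩ := hA
  rw [mem_union]
  by_cases hc0 : c = 0
  · left
    subst hc0
    rw [mem_spSetZ]
    refine ⟨hA1, v, hv0, ?_, hAv⟩
    have := card_ne_zero_add n v
    linarith
  · right
    rw [mem_biUnion]
    have hz : ⌈ε * (n : ℝ)⌉₊ ≤ (univ.filter fun j => v j = c).card := Nat.ceil_le.2 hc
    obtain ⟨Z, hZsub, hZcard⟩ := Finset.exists_subset_card_eq hz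
    refine ⟨Z, Finset.mem_powersetCard.2 ⟨Finset.subset_univ _, hZcard⟩,
      mem_filter.2 ⟨hA1, c⁻¹ • v, ?_, ?_⟩⟩
    · intro j hj
      have hj' : v j = c := (mem_filter.1 (hZsub hj)).2
      rw [Pi.smul_apply, smul_eq_mul, hj', inv_mul_cancel₀ hc0]
    · rw [Matrix.mulVec_smul, hAv, smul_zero]

open Classical in
theorem union_level_card_le (n z : ℕ) (hz : z ≤ n) :
    ((((univ : Finset (Fin n)).powersetCard z).biUnion
        fun Z => (symSet (Fin n)).filter fun A => LevelEv Z A).card : ℝ) ≤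
      ((4 : ℝ) ^ n * Qr (z - z / 2) + (4 : ℝ) ^ n / 2 ^ (Nat.choose (z / 2 + 1) 2)) *
        ((symSet (Fin n)).card : ℝ) := by
  have h1 := Finset.card_biUnion_le (s := (univ : Finset (Fin n)).powersetCard z)
      (t := fun Z => (symSet (Fin n)).filter fun A => LevelEv Z A)
  have h2 : ∀ Z ∈ (univ : Finset (Fin n)).powersetCard z,
      (((symSet (Fin n)).filter fun A => LevelEv Z A).card : ℝ) ≤
        ((Nat.choose z (z - z / 2) : ℝ) * Qr (z - z / 2) +
          2 ^ (n - z) / 2 ^ (Nat.choose (z / 2 + 1) 2)) * ((symSet (Fin n)).card : ℝ) := by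
    intro Z hZ
    have hc := (Finset.mem_powersetCard.1 hZ).2
    have := level_card_le (ι := Fin n) Z (z / 2)
    rw [hc, Fintype.card_fin] at this
    exact this
  have h3 : ((∑ Z ∈ (univ : Finset (Fin n)).powersetCard z,
      ((symSet (Fin n)).filter fun A => LevelEv Z A).card : ℕ) : ℝ) ≤
      (Nat.choose n z : ℝ) * (((Nat.choose z (z - z / 2) : ℝ) * Qr (z - z / 2) +
          2 ^ (n - z) / 2 ^ (Nat.choose (z / 2 + 1) 2)) * ((symSet (Fin n)).card : ℝ)) := by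
    rw [Nat.cast_sum]
    calc _ ≤ ∑ _Z ∈ (univ : Finset (Fin n)).powersetCard z,
          (((Nat.choose z (z - z / 2) : ℝ) * Qr (z - z / 2) +
            2 ^ (n - z) / 2 ^ (Nat.choose (z / 2 + 1) 2)) * ((symSet (Fin n)).card : ℝ)) :=
          Finset.sum_le_sum h2
      _ = _ := by
          rw [Finset.sum_const, Finset.card_powersetCard, Finset.card_univ, Fintype.card_fin,
            nsmul_eq_mul]
  have a1 : (Nat.choose n z : ℝ) ≤ 2 ^ n := by exact_mod_cast Nat.choose_le_two_pow n z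
  have a2 : (Nat.choose z (z - z / 2) : ℝ) ≤ 2 ^ z := by
    exact_mod_cast Nat.choose_le_two_pow z _
  have a3 : (2 : ℝ) ^ z ≤ 2 ^ n := pow_le_pow_right₀ (by norm_num) hz
  have a4 : (2 : ℝ) ^ (n - z) ≤ 2 ^ n := pow_le_pow_right₀ (by norm_num) (Nat.sub_le n z)
  have a5 : (2 : ℝ) ^ n * 2 ^ n = 4 ^ n := by rw [← mul_pow]; norm_num
  have hb1 : (Nat.choose n z : ℝ) * (Nat.choose z (z - z / 2) : ℝ) ≤ 4 ^ n := by
    calc _ ≤ (2 : ℝ) ^ n * 2 ^ n := mul_le_mul a1 (a2.trans a3) (by positivity) (by positivity)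
      _ = 4 ^ n := a5
  have hb2 : (Nat.choose n z : ℝ) * 2 ^ (n - z) ≤ 4 ^ n := by
    calc _ ≤ (2 : ℝ) ^ n * 2 ^ n := mul_le_mul a1 a4 (by positivity) (by positivity)
      _ = 4 ^ n := a5
  have hQ : 0 ≤ Qr (z - z / 2) := (Qr_pos _).le
  have hN : (0 : ℝ) ≤ ((symSet (Fin n)).card : ℝ) := Nat.cast_nonneg _
  have hp : (0 : ℝ) < 2 ^ (Nat.choose (z / 2 + 1) 2) := by positivity
  have h4 : (Nat.choose n z : ℝ) * ((Nat.choose z (z - z / 2) : ℝ) * Qr (z - z / 2) +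
      2 ^ (n - z) / 2 ^ (Nat.choose (z / 2 + 1) 2)) ≤
      (4 : ℝ) ^ n * Qr (z - z / 2) + (4 : ℝ) ^ n / 2 ^ (Nat.choose (z / 2 + 1) 2) := by
    have e1 : (Nat.choose n z : ℝ) * ((Nat.choose z (z - z / 2) : ℝ) * Qr (z - z / 2) +
        2 ^ (n - z) / 2 ^ (Nat.choose (z / 2 + 1) 2)) =
        ((Nat.choose n z : ℝ) * (Nat.choose z (z - z / 2) : ℝ)) * Qr (z - z / 2) +
        ((Nat.choose n z : ℝ) * 2 ^ (n - z)) / 2 ^ (Nat.choose (z / 2 + 1) 2) := by ring
    rw [e1]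
    exact add_le_add (mul_le_mul_of_nonneg_right hb1 hQ) (div_le_div_of_nonneg_right hb2 hp.le)
  have h5 : ((((univ : Finset (Fin n)).powersetCard z).biUnion
        fun Z => (symSet (Fin n)).filter fun A => LevelEv Z A).card : ℝ) ≤
      ((∑ Z ∈ (univ : Finset (Fin n)).powersetCard z,
      ((symSet (Fin n)).filter fun A => LevelEv Z A).card : ℕ) : ℝ) := by exact_mod_cast h1
  calc _ ≤ _ := h5
    _ ≤ _ := h3
    _ = ((Nat.choose n z : ℝ) * ((Nat.choose z (z - z / 2) : ℝ) * Qr (z - z / 2) +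
          2 ^ (n - z) / 2 ^ (Nat.choose (z / 2 + 1) 2))) * ((symSet (Fin n)).card : ℝ) := by ring
    _ ≤ _ := mul_le_mul_of_nonneg_right h4 hN

/-- The logarithmic regime for level sets, from the numeric bound. -/
theorem levelProb_le_log_aux {C : ℝ}
    (hC : ∀ (ε : ℝ) (n z : ℕ), 40 ≤ ε * Real.logb 2 (n : ℝ) → ε * (n : ℝ) ≤ (z : ℝ) → z ≤ n →
      (4 : ℝ) ^ n * Qr (z - z / 2) + (4 : ℝ) ^ n / 2 ^ (Nat.choose (z / 2 + 1) 2) ≤
        C * (243 / 512) ^ n)
    {ε : ℝ} {n : ℕ} (h : 40 ≤ ε * Real.logb 2 (n : ℝ)) :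
    levelProb ε n ≤ ((n : ℝ) * ((n : ℝ) - 1)) / 2 ^ n + (H63.constL + |C|) * (243 / 512) ^ n := by
  classical
  have hZ := zerosProb_le_log h
  rw [zerosProb_eq] at hZ
  rw [levelProb_eq]
  have hNpos : (0 : ℝ) < ((symSignMatrices n).card : ℝ) := by
    rw [card_symSignMatrices]
    positivity
  have hθ : (0 : ℝ) ≤ (243 / 512 : ℝ) ^ n := by positivity
  have hCabs : C * (243 / 512 : ℝ) ^ n ≤ |C| * (243 / 512 : ℝ) ^ n :=
    mul_le_mul_of_nonneg_right (le_abs_self C) hθ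
  have h0 := (Finset.card_le_card (lvSet_subset ε n)).trans (Finset.card_union_le _ _)
  have h0' : ((lvSet ε n).card : ℝ) ≤ ((spSetZ ε n).card : ℝ) +
      ((((univ : Finset (Fin n)).powersetCard ⌈ε * (n : ℝ)⌉₊).biUnion
        fun Z => (symSet (Fin n)).filter fun A => LevelEv Z A).card : ℝ) := by
    exact_mod_cast h0
  rcases Nat.lt_or_ge n ⌈ε * (n : ℝ)⌉₊ with hlt | hle
  · have hempty : (univ : Finset (Fin n)).powersetCard ⌈ε * (n : ℝ)⌉₊ = ∅ := by
      apply Finset.powersetCard_eq_empty.2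
      rw [Finset.card_univ, Fintype.card_fin]
      exact hlt
    rw [hempty, Finset.biUnion_empty, Finset.card_empty, Nat.cast_zero, add_zero] at h0'
    have h1 : ((lvSet ε n).card : ℝ) / ((symSignMatrices n).card : ℝ) ≤
        ((spSetZ ε n).card : ℝ) / ((symSignMatrices n).card : ℝ) :=
      div_le_div_of_nonneg_right h0' hNpos.le
    have h2 : 0 ≤ |C| * (243 / 512 : ℝ) ^ n := mul_nonneg (abs_nonneg C) hθ
    rw [add_mul]
    linarith
  · have h1 := union_level_card_le n ⌈ε * (n : ℝ)⌉₊ hle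
    have h2 := hC ε n ⌈ε * (n : ℝ)⌉₊ h (Nat.le_ceil _) hle
    have hsym : ((symSet (Fin n)).card : ℝ) = ((symSignMatrices n).card : ℝ) := by
      rw [symSignMatrices_eq]
    rw [hsym] at h1
    have h3 : ((lvSet ε n).card : ℝ) ≤ ((spSetZ ε n).card : ℝ) +
        (C * (243 / 512 : ℝ) ^ n) * ((symSignMatrices n).card : ℝ) := by
      have := mul_le_mul_of_nonneg_right h2 hNpos.le
      linarith
    have h4 : ((lvSet ε n).card : ℝ) / ((symSignMatrices n).card : ℝ) ≤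
        ((spSetZ ε n).card : ℝ) / ((symSignMatrices n).card : ℝ) + C * (243 / 512 : ℝ) ^ n := by
      rw [div_le_iff₀ hNpos, add_mul, div_mul_cancel₀ _ hNpos.ne']
      exact h3
    rw [add_mul]
    linarith

theorem exists_const_levelProb_le_log :
    ∃ C : ℝ, ∀ (ε : ℝ) (n : ℕ), 40 ≤ ε * Real.logb 2 (n : ℝ) →
      levelProb ε n ≤ ((n : ℝ) * ((n : ℝ) - 1)) / 2 ^ n + C * (243 / 512) ^ n := by
  obtain ⟨C, hC⟩ := level_num
  exact ⟨H63.constL + |C|, fun _ _ h => levelProb_le_log_aux hC h⟩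

open Classical in
theorem spSetZ_subset_lvSet (ε : ℝ) (n : ℕ) : spSetZ ε n ⊆ lvSet ε n := by
  intro A hA
  rw [mem_spSetZ] at hA
  rw [mem_lvSet]
  obtain ⟨hA1, v, hv0, hvs, hAv⟩ := hA
  refine ⟨hA1, v, hv0, ⟨0, ?_⟩, hAv⟩
  have := card_ne_zero_add n v
  linarith

theorem zerosProb_le_levelProb (ε : ℝ) (n : ℕ) : zerosProb ε n ≤ levelProb ε n := by
  rw [zerosProb_eq, levelProb_eq]
  refine div_le_div_of_nonneg_right ?_ (Nat.cast_nonneg _)
  exact_mod_cast Finset.card_le_card (spSetZ_subset_lvSet ε n)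

theorem levelProb_ge {ε : ℝ} {n : ℕ} (hn : 2 ≤ (1 - ε) * (n : ℝ)) :
    lowerB n ≤ levelProb ε n :=
  (zerosProb_ge hn).trans (zerosProb_le_levelProb ε n)

theorem levelProb_le_singProb (ε : ℝ) (n : ℕ) : levelProb ε n ≤ singProb n := by
  refine symProb_le_singProb n _ ?_
  rintro M ⟨v, hv, -, hMv⟩
  exact Matrix.exists_mulVec_eq_zero_iff.1 ⟨v, hv, hMv⟩

open Classical in
theorem symProb_mono (n : ℕ) {P Q : Matrix (Fin n) (Fin n) ℝ → Prop} (h : ∀ M, P M → Q M) :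
    symProb n P ≤ symProb n Q := by
  unfold symProb
  refine div_le_div_of_nonneg_right ?_ (Nat.cast_nonneg _)
  have : ((symSignMatrices n).filter fun A => P (A.map fun u : ℤˣ => ((u : ℤ) : ℝ))).card ≤
      ((symSignMatrices n).filter fun A => Q (A.map fun u : ℤˣ => ((u : ℤ) : ℝ))).card := by
    refine Finset.card_le_card ?_
    intro A hA
    rw [mem_filter] at hA ⊢
    exact ⟨hA.1, h _ hA.2⟩
  exact_mod_cast this

/-- Pigeonhole: a vector with at most `m` distinct values has a level set of size `≥ n / m`. -/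
theorem exists_level_of_values {n m : ℕ} (hm : 1 ≤ m) (v : Fin n → ℝ)
    (hv : (univ.image v).card ≤ m) :
    ∃ c : ℝ, (1 / (m : ℝ)) * (n : ℝ) ≤ ((univ.filter fun j => v j = c).card : ℝ) := by
  have hm0 : (0 : ℝ) < (m : ℝ) := by exact_mod_cast hm
  rcases Nat.eq_zero_or_pos n with hn | hn
  · subst hn
    refine ⟨0, ?_⟩
    simp
  · have hne : (univ.image v).Nonempty := by
      have : Nonempty (Fin n) := ⟨⟨0, hn⟩⟩
      exact Finset.image_nonempty.2 Finset.univ_nonempty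
    have hb : (univ.image v).card • ((1 / (m : ℝ)) * (n : ℝ)) ≤
        (((univ : Finset (Fin n)).card : ℕ) : ℝ) := by
      rw [nsmul_eq_mul, Finset.card_univ, Fintype.card_fin]
      have h1 : ((univ.image v).card : ℝ) ≤ (m : ℝ) := by exact_mod_cast hv
      have h2 : (0 : ℝ) ≤ (1 / (m : ℝ)) * (n : ℝ) := by positivity
      calc ((univ.image v).card : ℝ) * ((1 / (m : ℝ)) * (n : ℝ)) ≤
            (m : ℝ) * ((1 / (m : ℝ)) * (n : ℝ)) := mul_le_mul_of_nonneg_right h1 h2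
        _ = (n : ℝ) := by field_simp
    obtain ⟨y, -, hy⟩ := Finset.exists_le_card_fiber_of_nsmul_le_card_of_maps_to
      (s := (univ : Finset (Fin n))) (t := univ.image v) (f := v)
      (fun a _ => Finset.mem_image_of_mem v (mem_univ a)) hne hb
    exact ⟨y, hy⟩

theorem valuesProb_le_levelProb {m : ℕ} (hm : 1 ≤ m) (n : ℕ) :
    valuesProb m n ≤ levelProb (1 / (m : ℝ)) n := by
  refine symProb_mono n ?_
  rintro M ⟨v, hv, hcard, hMv⟩
  exact ⟨v, hv, exists_level_of_values hm v hcard, hMv⟩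

theorem exists_const_valuesProb_le_log :
    ∃ C : ℝ, ∀ (m n : ℕ), 1 ≤ m → 40 * (m : ℝ) ≤ Real.logb 2 (n : ℝ) →
      valuesProb m n ≤ ((n : ℝ) * ((n : ℝ) - 1)) / 2 ^ n + C * (243 / 512) ^ n := by
  obtain ⟨C, hC⟩ := exists_const_levelProb_le_log
  refine ⟨C, fun m n hm h => (valuesProb_le_levelProb hm n).trans (hC _ n ?_)⟩
  have hm0 : (0 : ℝ) < (m : ℝ) := by exact_mod_cast hm
  rw [one_div, inv_mul_eq_div, le_div_iff₀ hm0]
  exact h

theorem levelProb_log_tendsto :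
    Filter.Tendsto (fun n : ℕ => levelProb (40 / Real.logb 2 (n : ℝ)) n * 2 ^ n / (n : ℝ) ^ 2)
      Filter.atTop (nhds 1) := by
  obtain ⟨C, hC⟩ := exists_const_levelProb_le_log
  refine tendsto_ratio (C := C) (θ := 243 / 512) (by norm_num) (by norm_num) (2 ^ 41)
    (fun n hn => levelProb_ge ?_) (fun n hn => hC _ n ?_)
  · have hn' : (2 : ℝ) ^ (41 : ℕ) ≤ (n : ℝ) := by exact_mod_cast hn
    have hL : (41 : ℝ) ≤ Real.logb 2 (n : ℝ) := by
      rw [Real.le_logb_iff_rpow_le (by norm_num) (by linarith [pow_pos (show (0 : ℝ) < 2 by norm_num) 41])]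
      have : (2 : ℝ) ^ ((41 : ℕ) : ℝ) = (2 : ℝ) ^ (41 : ℕ) := Real.rpow_natCast 2 41
      have h41 : ((41 : ℕ) : ℝ) = (41 : ℝ) := by norm_num
      rw [h41] at this
      rw [this]
      exact hn'
    have hLpos : (0 : ℝ) < Real.logb 2 (n : ℝ) := by linarith
    have h1 : 40 / Real.logb 2 (n : ℝ) ≤ 40 / 41 := by
      rw [div_le_div_iff₀ hLpos (by norm_num)]
      linarith
    have h82 : (82 : ℝ) ≤ (n : ℝ) := by
      have : (82 : ℝ) ≤ (2 : ℝ) ^ (41 : ℕ) := by norm_num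
      linarith
    have h2 : (1 : ℝ) / 41 ≤ 1 - 40 / Real.logb 2 (n : ℝ) := by linarith
    calc (2 : ℝ) ≤ (1 / 41) * (n : ℝ) := by linarith
      _ ≤ (1 - 40 / Real.logb 2 (n : ℝ)) * (n : ℝ) :=
          mul_le_mul_of_nonneg_right h2 (Nat.cast_nonneg n)
  · have hn' : (2 : ℝ) ^ (41 : ℕ) ≤ (n : ℝ) := by exact_mod_cast hn
    have hL : (41 : ℝ) ≤ Real.logb 2 (n : ℝ) := by
      rw [Real.le_logb_iff_rpow_le (by norm_num) (by linarith [pow_pos (show (0 : ℝ) < 2 by norm_num) 41])]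
      have : (2 : ℝ) ^ ((41 : ℕ) : ℝ) = (2 : ℝ) ^ (41 : ℕ) := Real.rpow_natCast 2 41
      have h41 : ((41 : ℕ) : ℝ) = (41 : ℝ) := by norm_num
      rw [h41] at this
      rw [this]
      exact hn'
    have hLne : Real.logb 2 (n : ℝ) ≠ 0 := by linarith
    rw [div_mul_cancel₀ _ hLne]

end Vale.Agent.Lib.P160
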