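import Vale.Agent.Lib.P160.Values1
import Vale.Agent.Lib.P160.Level2
import Vale.Agent.Lib.P160.helper18.ValuesNum

namespace Vale.Agent.Lib.P160

open Finset Matrix

open Classical in
/-- The event set of `valuesProb m n`. -/
noncomputable def vlSet (m n : ℕ) : Finset (Matrix (Fin n) (Fin n) ℤˣ) :=
  (symSet (Fin n)).filter fun A => ∃ v : Fin n → ℝ, v ≠ 0 ∧
    (univ.image v).card ≤ m ∧ toR A *ᵥ v = 0

open Classical in
theorem mem_vlSet {m n : ℕ} {A : Matrix (Fin n) (Fin n) ℤˣ} :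
    A ∈ vlSet m n ↔ A ∈ symSet (Fin n) ∧ ∃ v : Fin n → ℝ, v ≠ 0 ∧
    (univ.image v).card ≤ m ∧ toR A *ᵥ v = 0 := by
  unfold vlSet
  rw [mem_filter]

theorem valuesProb_eq (m n : ℕ) :
    valuesProb m n = ((vlSet m n).card : ℝ) / ((symSignMatrices n).card : ℝ) := rfl

/-- A vector with at most `m` distinct values is constant on the fibres of some pattern
`p : Fin n → Fin m`. -/
theorem exists_pattern {n m : ℕ} (v : Fin n → ℝ) (hv : (univ.image v).card ≤ m) :
    ∃ p : Fin n → Fin m, v ∈ patSub p := by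
  classical
  have hcard : Fintype.card ↥(univ.image v) ≤ Fintype.card (Fin m) := by
    rw [Fintype.card_coe, Fintype.card_fin]
    exact hv
  obtain ⟨e⟩ := Function.Embedding.nonempty_of_card_le hcard
  let p : Fin n → Fin m := fun j => e ⟨v j, Finset.mem_image_of_mem v (mem_univ j)⟩
  refine ⟨p, ?_⟩
  let c : Fin m → ℝ := fun l => if h : ∃ j, p j = l then v (Classical.choose h) else 0
  refine ⟨c, ?_⟩
  funext j
  show c (p j) = v j
  have h : ∃ j', p j' = p j := ⟨j, rfl⟩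
  have hc : c (p j) = v (Classical.choose h) := by
    simp only [c]
    rw [dif_pos h]
  rw [hc]
  have hch : p (Classical.choose h) = p j := Classical.choose_spec h
  have := e.injective hch
  exact congrArg Subtype.val this

open Classical in
theorem vlSet_subset (ε : ℝ) (m n : ℕ) :
    vlSet m n ⊆ spSetZ ε n ∪
      (univ : Finset (Fin n → Fin m)).biUnion fun p =>
        ((univ : Finset (Fin n)).powerset.filter fun I => I.card ≤ m).biUnion fun I =>
          (symSet (Fin n)).filter fun A => FVEv p I ⌈(1 - ε) * (n : ℝ)⌉₊ A := by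
  intro A hA
  rw [mem_vlSet] at hA
  obtain ⟨hA1, v, hv0, hcard, hAv⟩ := hA
  rw [mem_union]
  by_cases hz : ((univ.filter fun j => v j ≠ 0).card : ℝ) ≤ (1 - ε) * (n : ℝ)
  · left
    exact mem_spSetZ.2 ⟨hA1, v, hv0, hz, hAv⟩
  · right
    rw [not_le] at hz
    obtain ⟨p, hp⟩ := exists_pattern v hcard
    obtain ⟨I, -, hIcard, hall⟩ := exists_rows_sub (patSub p) A _ ∅ le_rfl
    have hvK : ∀ I : Finset (Fin n), v ∈ patSub p ⊓ annSub univ I A := by
      intro I
      refine Submodule.mem_inf.2 ⟨hp, mem_annSub.2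
        ⟨fun j hj => absurd (mem_univ j) hj, fun r _ => ?_⟩⟩
      rw [← toR_mulVec, hAv]; rfl
    have hpos : 0 < Module.finrank ℝ ↥(patSub p ⊓ annSub univ I A) := by
      rw [Module.finrank_pos_iff_exists_ne_zero]
      exact ⟨⟨v, hvK I⟩, fun h => hv0 (congrArg Subtype.val h)⟩
    have hle0 : Module.finrank ℝ ↥(patSub p ⊓ annSub univ ∅ A) ≤ m :=
      (Submodule.finrank_mono inf_le_left).trans (finrank_patSub_le p)
    have hI : I.card ≤ m := by
      simp only [Finset.card_empty, zero_add] at hIcard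
      omega
    rw [mem_biUnion]
    refine ⟨p, mem_univ p, ?_⟩
    rw [mem_biUnion]
    refine ⟨I, mem_filter.2 ⟨Finset.mem_powerset.2 (Finset.subset_univ I), hI⟩, ?_⟩
    rw [mem_filter]
    exact ⟨hA1, ⟨v, hvK I, Nat.ceil_le.2 hz.le⟩, hall⟩

open Classical in
theorem union_fv_card_le (m n s : ℕ) (hs : s ≤ n) :
    ((((univ : Finset (Fin n → Fin m)).biUnion fun p =>
        ((univ : Finset (Fin n)).powerset.filter fun I => I.card ≤ m).biUnion fun I =>
          (symSet (Fin n)).filter fun A => FVEv p I s A).card : ℝ)) ≤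
      ((m : ℝ) ^ n * 2 ^ n * Qr (s - m)) * ((symSet (Fin n)).card : ℝ) := by
  have hN : (0 : ℝ) ≤ ((symSet (Fin n)).card : ℝ) := Nat.cast_nonneg _
  have hQ : 0 ≤ Qr (s - m) := (Qr_pos _).le
  have hinner : ∀ p : Fin n → Fin m,
      ((((univ : Finset (Fin n)).powerset.filter fun I => I.card ≤ m).biUnion fun I =>
          (symSet (Fin n)).filter fun A => FVEv p I s A).card : ℝ) ≤
        (2 : ℝ) ^ n * (Qr (s - m) * ((symSet (Fin n)).card : ℝ)) := by
    intro p
    have h1 := Finset.card_biUnion_le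
      (s := (univ : Finset (Fin n)).powerset.filter fun I => I.card ≤ m)
      (t := fun I => (symSet (Fin n)).filter fun A => FVEv p I s A)
    have h1' : ((((univ : Finset (Fin n)).powerset.filter fun I => I.card ≤ m).biUnion fun I =>
          (symSet (Fin n)).filter fun A => FVEv p I s A).card : ℝ) ≤
        ∑ I ∈ (univ : Finset (Fin n)).powerset.filter fun I => I.card ≤ m,
          (((symSet (Fin n)).filter fun A => FVEv p I s A).card : ℝ) := by
      exact_mod_cast h1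
    have h2 : ∑ I ∈ (univ : Finset (Fin n)).powerset.filter fun I => I.card ≤ m,
          (((symSet (Fin n)).filter fun A => FVEv p I s A).card : ℝ) ≤
        ∑ _I ∈ (univ : Finset (Fin n)).powerset.filter fun I => I.card ≤ m,
          Qr (s - m) * ((symSet (Fin n)).card : ℝ) := by
      refine Finset.sum_le_sum fun I hI => ?_
      exact fv_card_le p I s (by rw [Fintype.card_fin]; exact hs) (mem_filter.1 hI).2
    have h3 : (((univ : Finset (Fin n)).powerset.filter fun I => I.card ≤ m).card : ℝ) ≤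
        (2 : ℝ) ^ n := by
      have := Finset.card_filter_le ((univ : Finset (Fin n)).powerset) (fun I => I.card ≤ m)
      rw [Finset.card_powerset, Finset.card_univ, Fintype.card_fin] at this
      exact_mod_cast this
    calc _ ≤ _ := h1'
      _ ≤ _ := h2
      _ = (((univ : Finset (Fin n)).powerset.filter fun I => I.card ≤ m).card : ℝ) *
            (Qr (s - m) * ((symSet (Fin n)).card : ℝ)) := by
          rw [Finset.sum_const, nsmul_eq_mul]
      _ ≤ _ := mul_le_mul_of_nonneg_right h3 (mul_nonneg hQ hN)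
  have h1 := Finset.card_biUnion_le (s := (univ : Finset (Fin n → Fin m)))
      (t := fun p => ((univ : Finset (Fin n)).powerset.filter fun I => I.card ≤ m).biUnion fun I =>
          (symSet (Fin n)).filter fun A => FVEv p I s A)
  have h1' : ((((univ : Finset (Fin n → Fin m)).biUnion fun p =>
        ((univ : Finset (Fin n)).powerset.filter fun I => I.card ≤ m).biUnion fun I =>
          (symSet (Fin n)).filter fun A => FVEv p I s A).card : ℝ)) ≤
      ∑ p : Fin n → Fin m,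
        ((((univ : Finset (Fin n)).powerset.filter fun I => I.card ≤ m).biUnion fun I =>
          (symSet (Fin n)).filter fun A => FVEv p I s A).card : ℝ) := by
    exact_mod_cast h1
  calc _ ≤ _ := h1'
    _ ≤ ∑ _p : Fin n → Fin m, (2 : ℝ) ^ n * (Qr (s - m) * ((symSet (Fin n)).card : ℝ)) :=
        Finset.sum_le_sum fun p _ => hinner p
    _ = ((m : ℝ) ^ n * 2 ^ n * Qr (s - m)) * ((symSet (Fin n)).card : ℝ) := by
        rw [Finset.sum_const, Finset.card_univ, Fintype.card_fun, Fintype.card_fin,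
          Fintype.card_fin, nsmul_eq_mul]
        push_cast
        ring

theorem valuesProb_le_aux {C : ℝ}
    (hC : ∀ (m n s : ℕ), 1 ≤ m → 2 ^ 60 * m ^ 2 ≤ n →
      (1 - 40 / Real.logb 2 (n : ℝ)) * (n : ℝ) ≤ (s : ℝ) → s ≤ n →
      (m : ℝ) ^ n * 2 ^ n * Qr (s - m) ≤ C * (243 / 512) ^ n)
    {m n : ℕ} (hm : 1 ≤ m) (hmn : 2 ^ 60 * m ^ 2 ≤ n) :
    valuesProb m n ≤ ((n : ℝ) * ((n : ℝ) - 1)) / 2 ^ n +
      (H63.constL + |C|) * (243 / 512) ^ n := by
  classical
  have hn2 : 2 ≤ n := by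
    have h1 : 1 ≤ m ^ 2 := Nat.one_le_pow _ _ hm
    have h2 : 2 ^ 60 * 1 ≤ 2 ^ 60 * m ^ 2 := Nat.mul_le_mul_left _ h1
    have h3 : (2 : ℕ) ≤ 2 ^ 60 * 1 := by norm_num
    omega
  have hn1 : (1 : ℝ) < (n : ℝ) := by exact_mod_cast hn2
  have hL : 0 < Real.logb 2 (n : ℝ) := Real.logb_pos (by norm_num) hn1
  have hε : 0 ≤ 40 / Real.logb 2 (n : ℝ) := by positivity
  have h40 : 40 ≤ 40 / Real.logb 2 (n : ℝ) * Real.logb 2 (n : ℝ) := by
    rw [div_mul_cancel₀ _ hL.ne']
  have hZ := zerosProb_le_log h40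
  rw [zerosProb_eq] at hZ
  rw [valuesProb_eq]
  have hNpos : (0 : ℝ) < ((symSignMatrices n).card : ℝ) := by
    rw [card_symSignMatrices]
    positivity
  have hθ : (0 : ℝ) ≤ (243 / 512 : ℝ) ^ n := by positivity
  have hCabs : C * (243 / 512 : ℝ) ^ n ≤ |C| * (243 / 512 : ℝ) ^ n :=
    mul_le_mul_of_nonneg_right (le_abs_self C) hθ
  have hs1 : ⌈(1 - 40 / Real.logb 2 (n : ℝ)) * (n : ℝ)⌉₊ ≤ n := by
    apply Nat.ceil_le.2
    have hn0 : (0 : ℝ) ≤ (n : ℝ) := Nat.cast_nonneg n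
    nlinarith
  have h0 := (Finset.card_le_card (vlSet_subset (40 / Real.logb 2 (n : ℝ)) m n)).trans
    (Finset.card_union_le _ _)
  have h1 := union_fv_card_le m n ⌈(1 - 40 / Real.logb 2 (n : ℝ)) * (n : ℝ)⌉₊ hs1
  have h2 := hC m n ⌈(1 - 40 / Real.logb 2 (n : ℝ)) * (n : ℝ)⌉₊ hm hmn (Nat.le_ceil _) hs1
  have hsym : ((symSet (Fin n)).card : ℝ) = ((symSignMatrices n).card : ℝ) := by
    rw [symSignMatrices_eq]
  rw [hsym] at h1
  have h0' : ((vlSet m n).card : ℝ) ≤ ((spSetZ (40 / Real.logb 2 (n : ℝ)) n).card : ℝ) +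
      (((univ : Finset (Fin n → Fin m)).biUnion fun p =>
        ((univ : Finset (Fin n)).powerset.filter fun I => I.card ≤ m).biUnion fun I =>
          (symSet (Fin n)).filter fun A =>
            FVEv p I ⌈(1 - 40 / Real.logb 2 (n : ℝ)) * (n : ℝ)⌉₊ A).card : ℝ) := by
    exact_mod_cast h0
  have h3 : ((vlSet m n).card : ℝ) ≤ ((spSetZ (40 / Real.logb 2 (n : ℝ)) n).card : ℝ) +
      (C * (243 / 512 : ℝ) ^ n) * ((symSignMatrices n).card : ℝ) := by
    have := mul_le_mul_of_nonneg_right h2 hNpos.le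
    linarith
  have h4 : ((vlSet m n).card : ℝ) / ((symSignMatrices n).card : ℝ) ≤
      ((spSetZ (40 / Real.logb 2 (n : ℝ)) n).card : ℝ) / ((symSignMatrices n).card : ℝ) +
        C * (243 / 512 : ℝ) ^ n := by
    rw [div_le_iff₀ hNpos, add_mul, div_mul_cancel₀ _ hNpos.ne']
    exact h3
  rw [add_mul]
  linarith

theorem exists_const_valuesProb_le :
    ∃ C : ℝ, ∀ (m n : ℕ), 1 ≤ m → 2 ^ 60 * m ^ 2 ≤ n →
      valuesProb m n ≤ ((n : ℝ) * ((n : ℝ) - 1)) / 2 ^ n + C * (243 / 512) ^ n := by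
  obtain ⟨C, hC⟩ := values_num
  exact ⟨H63.constL + |C|, fun _ _ hm hmn => valuesProb_le_aux hC hm hmn⟩

theorem card_image_le_three {n : ℕ} (w : Fin n → ℝ) (a b c : ℝ)
    (h : ∀ l, w l = a ∨ w l = b ∨ w l = c) : (univ.image w).card ≤ 3 := by
  classical
  have hsub : univ.image w ⊆ {a, b, c} := by
    intro y hy
    rw [mem_image] at hy
    obtain ⟨l, -, rfl⟩ := hy
    rw [mem_insert, mem_insert, mem_singleton]
    exact h l
  exact (Finset.card_le_card hsub).trans Finset.card_le_three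

theorem pair_vec_values {n : ℕ} (i j : Fin n) (hij : i ≠ j) (σ : ℤ) (l : Fin n) :
    ((((Pi.single i 1 - Pi.single j σ : Fin n → ℤ) l : ℤ)) : ℝ) = 1 ∨
    ((((Pi.single i 1 - Pi.single j σ : Fin n → ℤ) l : ℤ)) : ℝ) = -(σ : ℝ) ∨
    ((((Pi.single i 1 - Pi.single j σ : Fin n → ℤ) l : ℤ)) : ℝ) = 0 := by
  by_cases h1 : l = i
  · left
    subst h1
    simp [hij]
  · by_cases h2 : l = j
    · right; left
      subst h2
      simp [h1]
    · right; right
      simp [h1, h2]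

open Classical in
theorem biUnion_Ev_subset_vlSet {m n : ℕ} (hm : 3 ≤ m) :
    ((univ : Finset (Fin n)).offDiag).biUnion Ev ⊆ vlSet m n := by
  intro A hA
  rw [mem_biUnion] at hA
  obtain ⟨p, hp, hAp⟩ := hA
  have hne : p.1 ≠ p.2 := (mem_offDiag.1 hp).2.2
  unfold Ev at hAp
  rw [mem_vlSet]
  have hnull := pairEvent_null hne hAp
  have hs : A ∈ symSet (Fin n) := mem_symSet.2 (mem_pairEvent.1 hAp).1
  refine ⟨hs, ?_⟩
  refine ⟨fun l => ((((Pi.single p.1 1 - Pi.single p.2 ((sg p : ℤˣ) : ℤ) : Fin n → ℤ) l : ℤ)) : ℝ),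
    ?_⟩
  refine ⟨?_, ?_, hnull⟩
  · intro h
    have := congrFun h p.1
    simp [hne] at this
  · exact (card_image_le_three _ 1 (-((((sg p : ℤˣ) : ℤ)) : ℝ)) 0
      (fun l => pair_vec_values p.1 p.2 hne _ l)).trans hm

theorem valuesProb_ge {m : ℕ} (hm : 3 ≤ m) (n : ℕ) : lowerB n ≤ valuesProb m n := by
  rw [valuesProb_eq]
  exact prob_ge n _ (biUnion_Ev_subset_vlSet hm)

theorem valuesProb_le_singProb (m n : ℕ) : valuesProb m n ≤ singProb n := by
  refine symProb_le_singProb n _ ?_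
  rintro M ⟨v, hv, -, hMv⟩
  exact Matrix.exists_mulVec_eq_zero_iff.1 ⟨v, hv, hMv⟩

theorem sqrt_params {n : ℕ} (hn : 2 ^ 64 ≤ n) :
    3 ≤ Nat.sqrt n / 2 ^ 30 ∧ 2 ^ 60 * (Nat.sqrt n / 2 ^ 30) ^ 2 ≤ n := by
  have h1 : 2 ^ 32 ≤ Nat.sqrt n := by
    rw [Nat.le_sqrt]
    calc 2 ^ 32 * 2 ^ 32 = 2 ^ 64 := by norm_num
      _ ≤ n := hn
  constructor
  · rw [Nat.le_div_iff_mul_le (by positivity)]
    calc 3 * 2 ^ 30 ≤ 2 ^ 32 := by norm_num
      _ ≤ Nat.sqrt n := h1
  · have h2 : Nat.sqrt n / 2 ^ 30 * 2 ^ 30 ≤ Nat.sqrt n := Nat.div_mul_le_self _ _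
    have h3 : Nat.sqrt n * Nat.sqrt n ≤ n := Nat.sqrt_le n
    calc 2 ^ 60 * (Nat.sqrt n / 2 ^ 30) ^ 2 = (Nat.sqrt n / 2 ^ 30 * 2 ^ 30) ^ 2 := by ring
      _ ≤ Nat.sqrt n ^ 2 := Nat.pow_le_pow_left h2 2
      _ = Nat.sqrt n * Nat.sqrt n := by ring
      _ ≤ n := h3

theorem valuesProb_sqrt_tendsto :
    Filter.Tendsto (fun n : ℕ => valuesProb (Nat.sqrt n / 2 ^ 30) n * 2 ^ n / (n : ℝ) ^ 2)
      Filter.atTop (nhds 1) := by
  obtain ⟨C, hC⟩ := exists_const_valuesProb_le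
  refine tendsto_ratio (C := C) (θ := 243 / 512) (by norm_num) (by norm_num) (2 ^ 64)
    (fun n hn => valuesProb_ge (sqrt_params hn).1 n) (fun n hn => hC _ n ?_ (sqrt_params hn).2)
  exact le_trans (by norm_num) (sqrt_params hn).1

end Vale.Agent.Lib.P160
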