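import Vale.Agent.Lib.P160.Fam1
import Vale.Agent.Lib.P160.Values2

namespace Vale.Agent.Lib.P160

open Finset Matrix

open Classical in
/-- The event set: symmetric sign matrices with a nonzero null vector in a subspace of `F`. -/
noncomputable def famSet {n : ℕ} (F : Finset (Submodule ℝ (Fin n → ℝ))) :
    Finset (Matrix (Fin n) (Fin n) ℤˣ) :=
  (symSet (Fin n)).filter fun A => ∃ V ∈ F, ∃ v ∈ V, v ≠ 0 ∧ toR A *ᵥ v = 0

open Classical in
theorem mem_famSet {n : ℕ} {F : Finset (Submodule ℝ (Fin n → ℝ))}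
    {A : Matrix (Fin n) (Fin n) ℤˣ} :
    A ∈ famSet F ↔ A ∈ symSet (Fin n) ∧ ∃ V ∈ F, ∃ v ∈ V, v ≠ 0 ∧ toR A *ᵥ v = 0 := by
  unfold famSet
  rw [mem_filter]

theorem famProb_eq {n : ℕ} (F : Finset (Submodule ℝ (Fin n → ℝ))) :
    symProb n (fun M => ∃ V ∈ F, ∃ v ∈ V, v ≠ 0 ∧ M.mulVec v = 0) =
      ((famSet F).card : ℝ) / ((symSignMatrices n).card : ℝ) := by
  have key : ∀ (inst : DecidablePred fun A : Matrix (Fin n) (Fin n) ℤˣ =>
      (fun M : Matrix (Fin n) (Fin n) ℝ => ∃ V ∈ F, ∃ v ∈ V, v ≠ 0 ∧ M.mulVec v = 0)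
        (A.map fun u : ℤˣ => ((u : ℤ) : ℝ))),
      (@Finset.filter _ _ inst (symSignMatrices n)) = famSet F := by
    intro inst
    ext A
    rw [mem_filter, mem_famSet]
    rfl
  unfold symProb
  rw [key]

open Classical in
theorem famSet_subset (ε : ℝ) {n d : ℕ} (F : Finset (Submodule ℝ (Fin n → ℝ)))
    (hd : ∀ V ∈ F, Module.finrank ℝ V ≤ d) :
    famSet F ⊆ spSetZ ε n ∪
      F.biUnion fun V =>
        ((univ : Finset (Fin n)).powerset.filter fun I => I.card ≤ d).biUnion fun I =>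
          (symSet (Fin n)).filter fun A => SFEv V I ⌈(1 - ε) * (n : ℝ)⌉₊ A := by
  intro A hA
  rw [mem_famSet] at hA
  obtain ⟨hA1, V, hVF, v, hvV, hv0, hAv⟩ := hA
  rw [mem_union]
  by_cases hz : ((univ.filter fun j => v j ≠ 0).card : ℝ) ≤ (1 - ε) * (n : ℝ)
  · left
    exact mem_spSetZ.2 ⟨hA1, v, hv0, hz, hAv⟩
  · right
    rw [not_le] at hz
    obtain ⟨I, -, hIcard, hall⟩ := exists_rows_sub V A _ ∅ le_rfl
    have hvK : ∀ I : Finset (Fin n), v ∈ V ⊓ annSub univ I A := by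
      intro I
      refine Submodule.mem_inf.2 ⟨hvV, mem_annSub.2
        ⟨fun j hj => absurd (mem_univ j) hj, fun r _ => ?_⟩⟩
      rw [← toR_mulVec, hAv]; rfl
    have hpos : 0 < Module.finrank ℝ ↥(V ⊓ annSub univ I A) := by
      rw [Module.finrank_pos_iff_exists_ne_zero]
      exact ⟨⟨v, hvK I⟩, fun h => hv0 (congrArg Subtype.val h)⟩
    have hle0 : Module.finrank ℝ ↥(V ⊓ annSub univ ∅ A) ≤ d :=
      (Submodule.finrank_mono inf_le_left).trans (hd V hVF)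
    have hI : I.card ≤ d := by
      simp only [Finset.card_empty, zero_add] at hIcard
      omega
    rw [mem_biUnion]
    refine ⟨V, hVF, ?_⟩
    rw [mem_biUnion]
    refine ⟨I, mem_filter.2 ⟨Finset.mem_powerset.2 (Finset.subset_univ I), hI⟩, ?_⟩
    rw [mem_filter]
    exact ⟨hA1, ⟨v, hvK I, Nat.ceil_le.2 hz.le⟩, hall⟩

open Classical in
theorem union_sf_card_le {n : ℕ} (F : Finset (Submodule ℝ (Fin n → ℝ))) (d s : ℕ) (hs : s ≤ n) :
    (((F.biUnion fun V =>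
        ((univ : Finset (Fin n)).powerset.filter fun I => I.card ≤ d).biUnion fun I =>
          (symSet (Fin n)).filter fun A => SFEv V I s A).card : ℝ)) ≤
      ((F.card : ℝ) * 2 ^ n * Qr (s - d)) * ((symSet (Fin n)).card : ℝ) := by
  have hN : (0 : ℝ) ≤ ((symSet (Fin n)).card : ℝ) := Nat.cast_nonneg _
  have hQ : 0 ≤ Qr (s - d) := (Qr_pos _).le
  have hinner : ∀ V : Submodule ℝ (Fin n → ℝ),
      ((((univ : Finset (Fin n)).powerset.filter fun I => I.card ≤ d).biUnion fun I =>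
          (symSet (Fin n)).filter fun A => SFEv V I s A).card : ℝ) ≤
        (2 : ℝ) ^ n * (Qr (s - d) * ((symSet (Fin n)).card : ℝ)) := by
    intro V
    have h1 := Finset.card_biUnion_le
      (s := (univ : Finset (Fin n)).powerset.filter fun I => I.card ≤ d)
      (t := fun I => (symSet (Fin n)).filter fun A => SFEv V I s A)
    have h1' : ((((univ : Finset (Fin n)).powerset.filter fun I => I.card ≤ d).biUnion fun I =>
          (symSet (Fin n)).filter fun A => SFEv V I s A).card : ℝ) ≤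
        ∑ I ∈ (univ : Finset (Fin n)).powerset.filter fun I => I.card ≤ d,
          (((symSet (Fin n)).filter fun A => SFEv V I s A).card : ℝ) := by
      exact_mod_cast h1
    have h2 : ∑ I ∈ (univ : Finset (Fin n)).powerset.filter fun I => I.card ≤ d,
          (((symSet (Fin n)).filter fun A => SFEv V I s A).card : ℝ) ≤
        ∑ _I ∈ (univ : Finset (Fin n)).powerset.filter fun I => I.card ≤ d,
          Qr (s - d) * ((symSet (Fin n)).card : ℝ) := by
      refine Finset.sum_le_sum fun I hI => ?_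
      exact sf_card_le V I s (by rw [Fintype.card_fin]; exact hs) (mem_filter.1 hI).2
    have h3 : (((univ : Finset (Fin n)).powerset.filter fun I => I.card ≤ d).card : ℝ) ≤
        (2 : ℝ) ^ n := by
      have := Finset.card_filter_le ((univ : Finset (Fin n)).powerset) (fun I => I.card ≤ d)
      rw [Finset.card_powerset, Finset.card_univ, Fintype.card_fin] at this
      exact_mod_cast this
    calc _ ≤ _ := h1'
      _ ≤ _ := h2
      _ = (((univ : Finset (Fin n)).powerset.filter fun I => I.card ≤ d).card : ℝ) *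
            (Qr (s - d) * ((symSet (Fin n)).card : ℝ)) := by
          rw [Finset.sum_const, nsmul_eq_mul]
      _ ≤ _ := mul_le_mul_of_nonneg_right h3 (mul_nonneg hQ hN)
  have h1 := Finset.card_biUnion_le (s := F)
      (t := fun V => ((univ : Finset (Fin n)).powerset.filter fun I => I.card ≤ d).biUnion fun I =>
          (symSet (Fin n)).filter fun A => SFEv V I s A)
  have h1' : (((F.biUnion fun V =>
        ((univ : Finset (Fin n)).powerset.filter fun I => I.card ≤ d).biUnion fun I =>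
          (symSet (Fin n)).filter fun A => SFEv V I s A).card : ℝ)) ≤
      ∑ V ∈ F,
        ((((univ : Finset (Fin n)).powerset.filter fun I => I.card ≤ d).biUnion fun I =>
          (symSet (Fin n)).filter fun A => SFEv V I s A).card : ℝ) := by
    exact_mod_cast h1
  calc _ ≤ _ := h1'
    _ ≤ ∑ _V ∈ F, (2 : ℝ) ^ n * (Qr (s - d) * ((symSet (Fin n)).card : ℝ)) :=
        Finset.sum_le_sum fun V _ => hinner V
    _ = ((F.card : ℝ) * 2 ^ n * Qr (s - d)) * ((symSet (Fin n)).card : ℝ) := by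
        rw [Finset.sum_const, nsmul_eq_mul]
        ring

/-- The numeric step: under the factorial hypothesis the union bound is at most `(243/512)^n`. -/
theorem fam_num {N d n s : ℕ}
    (hH : N ^ 2 * 2 ^ (7 * n) ≤
      (n - d - ⌈40 * (n : ℝ) / Real.logb 2 (n : ℝ)⌉₊).factorial)
    (hs : (1 - 40 / Real.logb 2 (n : ℝ)) * (n : ℝ) ≤ (s : ℝ)) :
    (N : ℝ) * 2 ^ n * Qr (s - d) ≤ (243 / 512) ^ n := by
  set c := ⌈40 * (n : ℝ) / Real.logb 2 (n : ℝ)⌉₊ with hc
  have hc1 : 40 * (n : ℝ) / Real.logb 2 (n : ℝ) ≤ (c : ℝ) := Nat.le_ceil _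
  have hsc : n ≤ s + c := by
    have h1 : (n : ℝ) ≤ (s : ℝ) + (c : ℝ) := by
      have e : (1 - 40 / Real.logb 2 (n : ℝ)) * (n : ℝ) =
          (n : ℝ) - 40 * (n : ℝ) / Real.logb 2 (n : ℝ) := by ring
      linarith
    exact_mod_cast h1
  have hk : n - d - c ≤ s - d := by omega
  have hQ : Qr (s - d) ≤ Qr (n - d - c) := Qr_antitone hk
  have hfac := h18_Qr_sq_factorial (n - d - c)
  have hH' : (N : ℝ) ^ 2 * 2 ^ (7 * n) ≤ ((n - d - c).factorial : ℝ) := by exact_mod_cast hH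
  have hQ0 : 0 < Qr (n - d - c) := Qr_pos _
  have hN0 : (0 : ℝ) ≤ (N : ℝ) := Nat.cast_nonneg _
  have hx0 : 0 ≤ (N : ℝ) * 2 ^ n * Qr (n - d - c) := by positivity
  have hsq : ((N : ℝ) * 2 ^ n * Qr (n - d - c)) ^ 2 ≤ ((1 / 4 : ℝ) ^ n) ^ 2 := by
    have h1 : (N : ℝ) ^ 2 * 2 ^ (7 * n) * Qr (n - d - c) ^ 2 ≤ 1 := by
      calc (N : ℝ) ^ 2 * 2 ^ (7 * n) * Qr (n - d - c) ^ 2
          ≤ ((n - d - c).factorial : ℝ) * Qr (n - d - c) ^ 2 :=
            mul_le_mul_of_nonneg_right hH' (by positivity)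
        _ = Qr (n - d - c) ^ 2 * ((n - d - c).factorial : ℝ) := by ring
        _ ≤ 1 := hfac
    have e7 : (2 : ℝ) ^ (7 * n) = (2 ^ n) ^ 2 * 2 ^ (5 * n) := by
      rw [← pow_mul, ← pow_add]
      congr 1
      ring
    have h2 : ((N : ℝ) * 2 ^ n * Qr (n - d - c)) ^ 2 * 2 ^ (5 * n) =
        (N : ℝ) ^ 2 * 2 ^ (7 * n) * Qr (n - d - c) ^ 2 := by
      rw [e7]
      ring
    have e5 : (2 : ℝ) ^ (5 * n) = (4 ^ n) ^ 2 * 2 ^ n := by
      rw [show (4 : ℝ) = 2 ^ 2 by norm_num, ← pow_mul, ← pow_mul, ← pow_add]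
      congr 1
      ring
    have h4pos : (0 : ℝ) < 4 ^ n := by positivity
    have h3 : ((1 / 4 : ℝ) ^ n) ^ 2 * 2 ^ (5 * n) = 2 ^ n := by
      rw [e5, one_div, inv_pow]
      field_simp
    have h4 : (1 : ℝ) ≤ 2 ^ n := one_le_pow₀ (by norm_num)
    have h5 : (0 : ℝ) < 2 ^ (5 * n) := by positivity
    have h6 : ((N : ℝ) * 2 ^ n * Qr (n - d - c)) ^ 2 * 2 ^ (5 * n) ≤
        ((1 / 4 : ℝ) ^ n) ^ 2 * 2 ^ (5 * n) := by
      rw [h2, h3]
      linarith
    exact le_of_mul_le_mul_right h6 h5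
  have hx : (N : ℝ) * 2 ^ n * Qr (n - d - c) ≤ (1 / 4 : ℝ) ^ n :=
    (pow_le_pow_iff_left₀ hx0 (by positivity) two_ne_zero).1 hsq
  calc (N : ℝ) * 2 ^ n * Qr (s - d) ≤ (N : ℝ) * 2 ^ n * Qr (n - d - c) :=
        mul_le_mul_of_nonneg_left hQ (by positivity)
    _ ≤ (1 / 4 : ℝ) ^ n := hx
    _ ≤ (243 / 512) ^ n := pow_le_pow_left₀ (by norm_num) (by norm_num) n

theorem famProb_le_of_two_le {n d : ℕ} (hn2 : 2 ≤ n) (F : Finset (Submodule ℝ (Fin n → ℝ)))
    (hd : ∀ V ∈ F, Module.finrank ℝ V ≤ d)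
    (hH : F.card ^ 2 * 2 ^ (7 * n) ≤
      (n - d - ⌈40 * (n : ℝ) / Real.logb 2 (n : ℝ)⌉₊).factorial) :
    symProb n (fun M => ∃ V ∈ F, ∃ v ∈ V, v ≠ 0 ∧ M.mulVec v = 0) ≤
      ((n : ℝ) * ((n : ℝ) - 1)) / 2 ^ n + (H63.constL + 1) * (243 / 512) ^ n := by
  classical
  have hn1 : (1 : ℝ) < (n : ℝ) := by exact_mod_cast hn2
  have hL : 0 < Real.logb 2 (n : ℝ) := Real.logb_pos (by norm_num) hn1
  have hε : 0 ≤ 40 / Real.logb 2 (n : ℝ) := by positivity
  have h40 : 40 ≤ 40 / Real.logb 2 (n : ℝ) * Real.logb 2 (n : ℝ) := by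
    rw [div_mul_cancel₀ _ hL.ne']
  have hZ := zerosProb_le_log h40
  rw [zerosProb_eq] at hZ
  rw [famProb_eq]
  have hNpos : (0 : ℝ) < ((symSignMatrices n).card : ℝ) := by
    rw [card_symSignMatrices]
    positivity
  have hs1 : ⌈(1 - 40 / Real.logb 2 (n : ℝ)) * (n : ℝ)⌉₊ ≤ n := by
    apply Nat.ceil_le.2
    have hn0 : (0 : ℝ) ≤ (n : ℝ) := Nat.cast_nonneg n
    nlinarith
  have h0 := (Finset.card_le_card (famSet_subset (40 / Real.logb 2 (n : ℝ)) F hd)).trans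
    (Finset.card_union_le _ _)
  have h1 := union_sf_card_le F d ⌈(1 - 40 / Real.logb 2 (n : ℝ)) * (n : ℝ)⌉₊ hs1
  have h2 := fam_num (s := ⌈(1 - 40 / Real.logb 2 (n : ℝ)) * (n : ℝ)⌉₊) hH (Nat.le_ceil _)
  have hsym : ((symSet (Fin n)).card : ℝ) = ((symSignMatrices n).card : ℝ) := by
    rw [symSignMatrices_eq]
  rw [hsym] at h1
  have h0' : ((famSet F).card : ℝ) ≤ ((spSetZ (40 / Real.logb 2 (n : ℝ)) n).card : ℝ) +
      ((F.biUnion fun V =>
        ((univ : Finset (Fin n)).powerset.filter fun I => I.card ≤ d).biUnion fun I =>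
          (symSet (Fin n)).filter fun A =>
            SFEv V I ⌈(1 - 40 / Real.logb 2 (n : ℝ)) * (n : ℝ)⌉₊ A).card : ℝ) := by
    exact_mod_cast h0
  have h3 : ((famSet F).card : ℝ) ≤ ((spSetZ (40 / Real.logb 2 (n : ℝ)) n).card : ℝ) +
      ((243 / 512 : ℝ) ^ n) * ((symSignMatrices n).card : ℝ) := by
    have := mul_le_mul_of_nonneg_right h2 hNpos.le
    linarith
  have h4 : ((famSet F).card : ℝ) / ((symSignMatrices n).card : ℝ) ≤
      ((spSetZ (40 / Real.logb 2 (n : ℝ)) n).card : ℝ) / ((symSignMatrices n).card : ℝ) +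
        (243 / 512 : ℝ) ^ n := by
    rw [div_le_iff₀ hNpos, add_mul, div_mul_cancel₀ _ hNpos.ne']
    exact h3
  rw [add_mul]
  linarith

open Classical in
theorem symProb_eq_zero (n : ℕ) {P : Matrix (Fin n) (Fin n) ℝ → Prop} (h : ∀ M, ¬ P M) :
    symProb n P = 0 := by
  unfold symProb
  have : ((symSignMatrices n).filter fun A => P (A.map fun u : ℤˣ => ((u : ℤ) : ℝ))) = ∅ := by
    refine Finset.filter_eq_empty_iff.2 fun A _ => h _
  rw [this, Finset.card_empty, Nat.cast_zero, zero_div]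

theorem exists_const_famProb_le :
    ∃ C : ℝ, ∀ (n d : ℕ) (F : Finset (Submodule ℝ (Fin n → ℝ))),
      (∀ V ∈ F, Module.finrank ℝ V ≤ d) →
      F.card ^ 2 * 2 ^ (7 * n) ≤
        (n - d - ⌈40 * (n : ℝ) / Real.logb 2 (n : ℝ)⌉₊).factorial →
      symProb n (fun M => ∃ V ∈ F, ∃ v ∈ V, v ≠ 0 ∧ M.mulVec v = 0) ≤
        ((n : ℝ) * ((n : ℝ) - 1)) / 2 ^ n + C * (243 / 512) ^ n := by
  refine ⟨H63.constL + 1, fun n d F hd hH => ?_⟩
  by_cases hn2 : 2 ≤ n
  · exact famProb_le_of_two_le hn2 F hd hH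
  · have hzero : symProb n (fun M => ∃ V ∈ F, ∃ v ∈ V, v ≠ 0 ∧ M.mulVec v = 0) = 0 := by
      refine symProb_eq_zero n ?_
      rintro M ⟨V, hVF, v, -, hv0, -⟩
      have hn : n = 0 ∨ n = 1 := by omega
      rcases hn with rfl | rfl
      · exact hv0 (Subsingleton.elim _ _)
      · have hpos : 0 < F.card := Finset.card_pos.2 ⟨V, hVF⟩
        have hfac : (1 - d - ⌈40 * ((1 : ℕ) : ℝ) / Real.logb 2 ((1 : ℕ) : ℝ)⌉₊).factorial ≤ 1 := by
          have : 1 - d - ⌈40 * ((1 : ℕ) : ℝ) / Real.logb 2 ((1 : ℕ) : ℝ)⌉₊ ≤ 1 := by omega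
          interval_cases (1 - d - ⌈40 * ((1 : ℕ) : ℝ) / Real.logb 2 ((1 : ℕ) : ℝ)⌉₊) <;> simp
        have h1 : 1 ≤ F.card ^ 2 := Nat.one_le_pow _ _ hpos
        have h2 : 2 ^ (7 * 1) ≤ F.card ^ 2 * 2 ^ (7 * 1) := Nat.le_mul_of_pos_left _ (by omega)
        have h3 : (2 : ℕ) ^ (7 * 1) = 128 := by norm_num
        omega
    rw [hzero]
    have h1 : (0 : ℝ) ≤ ((n : ℝ) * ((n : ℝ) - 1)) / 2 ^ n := by
      have hn : n = 0 ∨ n = 1 := by omega
      rcases hn with rfl | rfl <;> simp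
    have h2 : (0 : ℝ) ≤ (H63.constL + 1) * (243 / 512) ^ n := by
      have := H63.one_le_constL
      positivity
    linarith

end Vale.Agent.Lib.P160
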