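import Vale.Agent.Lib.P160.Fam2
import Vale.Agent.Lib.P160.helper76.BasisNum

namespace Vale.Agent.Lib.P160

open Finset Matrix

/-- Null vectors that are combinations of at most `(1 - ε) n` vectors of a fixed family
`b 0, …, b (n - 1)` of vectors of `ℝ^n`. -/
theorem exists_const_basisProb_le :
    ∃ C : ℝ, ∀ (ε : ℝ) (n : ℕ) (b : Fin n → Fin n → ℝ), 100 ≤ ε * Real.logb 2 (n : ℝ) →
      symProb n (fun M => ∃ v : Fin n → ℝ, v ≠ 0 ∧
        (∃ S : Finset (Fin n), (S.card : ℝ) ≤ (1 - ε) * (n : ℝ) ∧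
          v ∈ Submodule.span ℝ (b '' (S : Set (Fin n)))) ∧ M.mulVec v = 0) ≤
        ((n : ℝ) * ((n : ℝ) - 1)) / 2 ^ n + C * (243 / 512) ^ n := by
  classical
  obtain ⟨C, hC⟩ := exists_const_famProb_le
  refine ⟨C, fun ε n b h => ?_⟩
  have hn2 : 2 ≤ n := by
    by_contra hlt
    have hn : n = 0 ∨ n = 1 := by omega
    rcases hn with rfl | rfl <;> simp at h <;> linarith
  obtain ⟨F, hF⟩ : ∃ F : Finset (Submodule ℝ (Fin n → ℝ)), F =
    (((univ : Finset (Fin n)).powerset.filter
      fun S : Finset (Fin n) => (S.card : ℝ) ≤ (1 - ε) * (n : ℝ)).image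
      fun S : Finset (Fin n) => Submodule.span ℝ (b '' (S : Set (Fin n)))) := ⟨_, rfl⟩
  have hmono : symProb n (fun M => ∃ v : Fin n → ℝ, v ≠ 0 ∧
        (∃ S : Finset (Fin n), (S.card : ℝ) ≤ (1 - ε) * (n : ℝ) ∧
          v ∈ Submodule.span ℝ (b '' (S : Set (Fin n)))) ∧ M.mulVec v = 0) ≤
      symProb n (fun M => ∃ V ∈ F, ∃ v ∈ V, v ≠ 0 ∧ M.mulVec v = 0) := by
    refine symProb_mono n ?_
    rintro M ⟨v, hv0, ⟨S, hS, hvS⟩, hMv⟩
    have hVF : Submodule.span ℝ (b '' (S : Set (Fin n))) ∈ F := by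
      rw [hF, Finset.mem_image]
      exact ⟨S, mem_filter.2 ⟨Finset.mem_powerset.2 (Finset.subset_univ S), hS⟩, rfl⟩
    exact ⟨_, hVF, v, hvS, hv0, hMv⟩
  refine hmono.trans (hC n ⌊(1 - ε) * (n : ℝ)⌋₊ F ?_ ?_)
  · intro V hV
    rw [hF, Finset.mem_image] at hV
    obtain ⟨S, hS, rfl⟩ := hV
    have hS' := (mem_filter.1 hS).2
    have h1 : Module.finrank ℝ (Submodule.span ℝ (b '' (S : Set (Fin n)))) ≤ S.card := by
      have h2 := finrank_span_finset_le_card (R := ℝ) (S.image b)
      rw [Finset.coe_image] at h2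
      exact h2.trans Finset.card_image_le
    exact h1.trans (Nat.le_floor hS')
  · have hcard : F.card ≤ 2 ^ n := by
      rw [hF]
      refine Finset.card_image_le.trans ?_
      refine (Finset.card_filter_le _ _).trans ?_
      rw [Finset.card_powerset, Finset.card_univ, Fintype.card_fin]
    by_cases hε : ε ≤ 1
    · have hb := basis_num ε n h hε
      calc F.card ^ 2 * 2 ^ (7 * n) ≤ (2 ^ n) ^ 2 * 2 ^ (7 * n) :=
            Nat.mul_le_mul_right _ (Nat.pow_le_pow_left hcard 2)
        _ = 2 ^ (9 * n) := by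
            rw [← pow_mul, ← pow_add]
            congr 1
            ring
        _ ≤ _ := hb
    · have hempty : F = ∅ := by
        rw [hF, Finset.image_eq_empty, Finset.filter_eq_empty_iff]
        intro S _
        rw [not_le]
        have hn0 : (0 : ℝ) < (n : ℝ) := by exact_mod_cast (by omega : 0 < n)
        have hneg : (1 - ε) * (n : ℝ) < 0 := mul_neg_of_neg_of_pos (by linarith) hn0
        have hS0 : (0 : ℝ) ≤ (S.card : ℝ) := Nat.cast_nonneg _
        linarith
      rw [hempty]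
      simp

/-- The lower bound for the singularity probability itself. -/
theorem lowerB_le_singProb (n : ℕ) : lowerB n ≤ singProb n :=
  (valuesProb_ge (m := 3) le_rfl n).trans (valuesProb_le_singProb 3 n)

end Vale.Agent.Lib.P160
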