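import Vale.Agent.Lib.P160.Small

namespace Vale.Agent.Lib.P160

open Finset Matrix

open Classical in
/-- The symmetric sign matrices having a nonzero integer null vector with entries in `[-K, K]`. -/
noncomputable def hevSet (n K : ℕ) : Finset (Matrix (Fin n) (Fin n) ℤˣ) :=
  (symSet (Fin n)).filter fun A => ∃ v : Fin n → ℤ, v ≠ 0 ∧ (∀ j, |v j| ≤ (K : ℤ)) ∧
    toR A *ᵥ (fun j => ((v j : ℤ) : ℝ)) = 0

open Classical in
theorem mem_hevSet {n K : ℕ} {A : Matrix (Fin n) (Fin n) ℤˣ} :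
    A ∈ hevSet n K ↔ A ∈ symSet (Fin n) ∧ ∃ v : Fin n → ℤ, v ≠ 0 ∧ (∀ j, |v j| ≤ (K : ℤ)) ∧
    toR A *ᵥ (fun j => ((v j : ℤ) : ℝ)) = 0 := by
  unfold hevSet
  rw [mem_filter]

/-- The box of integer vectors with entries in `[-K, K]`. -/
noncomputable def box (n K : ℕ) : Finset (Fin n → ℤ) := Fintype.piFinset fun _ => Finset.Icc (-(K : ℤ)) K

/-- Number of nonzero coordinates of an integer vector. -/
def sz {n : ℕ} (v : Fin n → ℤ) : ℕ := (univ.filter fun j => v j ≠ 0).card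

theorem sz_cast {n : ℕ} (v : Fin n → ℤ) :
    (univ.filter fun j => ((v j : ℤ) : ℝ) ≠ 0).card = sz v := by
  unfold sz
  congr 1
  ext j
  simp

theorem sz_le {n : ℕ} (v : Fin n → ℤ) : sz v ≤ n := by
  unfold sz
  exact (Finset.card_filter_le _ _).trans (by simp)

open Classical in
theorem hevSet_subset (n K : ℕ) :
    hevSet n K ⊆ (univ : Finset (Fin n)).offDiag.biUnion Ev ∪
      ((box n K).filter fun v => 3 ≤ sz v).biUnion
        (fun v => (symSet (Fin n)).filter fun A => toR A *ᵥ (fun j => ((v j : ℤ) : ℝ)) = 0) := by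
  intro A hA
  unfold hevSet at hA
  rw [mem_filter] at hA
  obtain ⟨hA1, v, hv0, hvK, hAv⟩ := hA
  have hv0' : (fun j => ((v j : ℤ) : ℝ)) ≠ 0 := by
    intro h
    apply hv0
    funext j
    have := congrFun h j
    simpa using this
  have h2 := two_le_supp hv0' hAv
  rw [sz_cast] at h2
  rw [mem_union]
  rcases Nat.eq_or_lt_of_le h2 with h2' | h3
  · left
    have hc : (univ.filter fun j => v j ≠ 0).card = 2 := h2'.symm
    rw [Finset.card_eq_two] at hc
    obtain ⟨i, j, hij, hset⟩ := hc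
    have hsupp : ∀ k, k ≠ i → k ≠ j → ((v k : ℤ) : ℝ) = 0 := by
      intro k hki hkj
      by_contra hne
      have : k ∈ univ.filter fun j => v j ≠ 0 := by
        simp only [mem_filter, mem_univ, true_and]
        intro h0
        exact hne (by simp [h0])
      rw [hset] at this
      simp only [mem_insert, mem_singleton] at this
      rcases this with h | h
      · exact hki h
      · exact hkj h
    have hj : ((v j : ℤ) : ℝ) ≠ 0 := by
      have : j ∈ univ.filter fun j => v j ≠ 0 := by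
        rw [hset]; simp
      simp only [mem_filter, mem_univ, true_and] at this
      exact_mod_cast this
    exact pairEvent_subset_biUnion hij _ (mem_pairEvent_of_supp_two hA1 hij hsupp hj hAv)
  · right
    rw [mem_biUnion]
    refine ⟨v, ?_, ?_⟩
    · rw [mem_filter]
      refine ⟨?_, h3⟩
      unfold box
      rw [Fintype.mem_piFinset]
      intro j
      rw [Finset.mem_Icc]
      exact abs_le.1 (hvK j)
    · rw [mem_filter]
      exact ⟨hA1, hAv⟩

open Classical in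
theorem hevSet_card_le (n K : ℕ) :
    (hevSet n K).card ≤ (n * n - n) * 2 ^ (Nat.choose n 2) +
      ∑ v ∈ (box n K).filter fun v => 3 ≤ sz v, G n (sz v) := by
  refine (Finset.card_le_card (hevSet_subset n K)).trans ?_
  refine (Finset.card_union_le _ _).trans ?_
  refine Nat.add_le_add ?_ ?_
  · refine Finset.card_biUnion_le.trans ?_
    rw [Finset.sum_congr rfl (fun p hp => Ev_card (mem_offDiag.1 hp).2.2), Finset.sum_const,
      smul_eq_mul, Finset.offDiag_card, Finset.card_univ, Fintype.card_fin]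
  · refine Finset.card_biUnion_le.trans ?_
    refine Finset.sum_le_sum fun v _ => ?_
    have := count_eq_le n (Fin n) (Fintype.card_fin n) (fun j => ((v j : ℤ) : ℝ)) 0
    rw [sz_cast] at this
    exact this

theorem sum_box_pow (n K : ℕ) (x : ℝ) : ∑ v ∈ box n K, x ^ sz v = (1 + 2 * (K : ℝ) * x) ^ n := by
  have h1 : ∀ v : Fin n → ℤ, x ^ sz v = ∏ j, (if v j ≠ 0 then x else 1) := by
    intro v
    rw [Finset.prod_ite, Finset.prod_const, Finset.prod_const_one, mul_one]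
    rfl
  rw [Finset.sum_congr rfl (fun v _ => h1 v)]
  unfold box
  rw [Finset.sum_prod_piFinset (Finset.Icc (-(K : ℤ)) K) (fun _ z => if z ≠ 0 then x else 1),
    Finset.prod_const, Finset.card_univ, Fintype.card_fin]
  congr 1
  have hmem : (0 : ℤ) ∈ Finset.Icc (-(K : ℤ)) K := by
    rw [Finset.mem_Icc]; constructor <;> omega
  rw [← Finset.add_sum_erase _ _ hmem]
  have h2 : ∑ z ∈ (Finset.Icc (-(K : ℤ)) K).erase 0, (if z ≠ 0 then x else 1) =
      ∑ z ∈ (Finset.Icc (-(K : ℤ)) K).erase 0, x := by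
    refine Finset.sum_congr rfl fun z hz => ?_
    rw [if_pos (Finset.ne_of_mem_erase hz)]
  rw [h2, Finset.sum_const, Finset.card_erase_of_mem hmem, Int.card_Icc]
  have h3 : ((K : ℤ) + 1 - -(K : ℤ)).toNat - 1 = 2 * K := by omega
  rw [h3]
  simp

theorem term_bound {K : ℕ} (hK : 1 ≤ K) {n s : ℕ} (h3 : 3 ≤ s) (hs : s ≤ n) :
    Lr s ^ (n - s) * Qr s ≤
      (32 * (K : ℝ)) ^ (1024 * K ^ 2) * (3 / 8) ^ n * (1 / (12 * (K : ℝ))) ^ s := by
  have hK' : (1 : ℝ) ≤ K := by exact_mod_cast hK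
  have hD : (1 : ℝ) ≤ 32 * (K : ℝ) := by linarith
  have hD0 : (0 : ℝ) < 32 * (K : ℝ) := by linarith
  have hD1 : ∀ m, 1024 * K ^ 2 ≤ m → Lr m * (32 * (K : ℝ)) ≤ 1 := by
    intro m hm
    have h1 : Lr m ≤ Lr (2 * (512 * K ^ 2)) := Lr_antitone (by omega)
    have h2 : Lr (2 * (512 * K ^ 2)) * (32 * (K : ℝ)) ≤ 1 := by
      apply Lr_even_mul_le hD0.le
      push_cast
      nlinarith
    calc Lr m * (32 * (K : ℝ)) ≤ Lr (2 * (512 * K ^ 2)) * (32 * (K : ℝ)) :=
          mul_le_mul_of_nonneg_right h1 hD0.le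
      _ ≤ 1 := h2
  have hQ := Qr_mul_pow_le hD hD1 s
  have hpow : Lr s ^ (n - s) ≤ (3 / 8 : ℝ) ^ (n - s) :=
    pow_le_pow_left₀ (Lr_pos s).le (Lr_le_of_three_le h3) _
  have hDs : (0 : ℝ) < (32 * (K : ℝ)) ^ s := pow_pos hD0 s
  have hQ' : Qr s ≤ (32 * (K : ℝ)) ^ (1024 * K ^ 2) / (32 * (K : ℝ)) ^ s := by
    rw [le_div_iff₀ hDs]
    exact hQ
  have hn : (3 / 8 : ℝ) ^ n = (3 / 8) ^ (n - s) * (3 / 8) ^ s := by
    rw [← pow_add]; congr 1; omega
  have hx : (3 / 8 : ℝ) ^ s * (1 / (12 * (K : ℝ))) ^ s = 1 / (32 * (K : ℝ)) ^ s := by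
    rw [← mul_pow, ← _root_.one_div_pow]
    congr 1
    field_simp
    ring
  calc Lr s ^ (n - s) * Qr s
      ≤ (3 / 8 : ℝ) ^ (n - s) * ((32 * (K : ℝ)) ^ (1024 * K ^ 2) / (32 * (K : ℝ)) ^ s) :=
        mul_le_mul hpow hQ' (Qr_pos s).le (by positivity)
    _ = (32 * (K : ℝ)) ^ (1024 * K ^ 2) * ((3 / 8) ^ (n - s) * ((3 / 8) ^ s *
          (1 / (12 * (K : ℝ))) ^ s)) := by
        rw [hx]; ring
    _ = (32 * (K : ℝ)) ^ (1024 * K ^ 2) * (3 / 8) ^ n * (1 / (12 * (K : ℝ))) ^ s := by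
        rw [hn]; ring

theorem sum_G_le {n K : ℕ} (hK : 1 ≤ K) :
    ((∑ v ∈ (box n K).filter fun v => 3 ≤ sz v, G n (sz v) : ℕ) : ℝ) ≤
      2 ^ (Nat.choose (n + 1) 2) * ((32 * (K : ℝ)) ^ (1024 * K ^ 2) * (7 / 16) ^ n) := by
  have hK' : (1 : ℝ) ≤ K := by exact_mod_cast hK
  push_cast
  have h1 : ∀ v ∈ (box n K).filter fun v => 3 ≤ sz v, (G n (sz v) : ℝ) ≤
      2 ^ (Nat.choose (n + 1) 2) * ((32 * (K : ℝ)) ^ (1024 * K ^ 2) * (3 / 8) ^ n) *
        (1 / (12 * (K : ℝ))) ^ sz v := by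
    intro v hv
    rw [mem_filter] at hv
    rw [G_eq' (sz_le v)]
    have := term_bound hK (n := n) hv.2 (sz_le v)
    have h2 : (0 : ℝ) < 2 ^ (Nat.choose (n + 1) 2) := by positivity
    calc (2 : ℝ) ^ (Nat.choose (n + 1) 2) * Lr (sz v) ^ (n - sz v) * Qr (sz v)
        = 2 ^ (Nat.choose (n + 1) 2) * (Lr (sz v) ^ (n - sz v) * Qr (sz v)) := by ring
      _ ≤ 2 ^ (Nat.choose (n + 1) 2) * ((32 * (K : ℝ)) ^ (1024 * K ^ 2) * (3 / 8) ^ n *
            (1 / (12 * (K : ℝ))) ^ sz v) := mul_le_mul_of_nonneg_left this h2.le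
      _ = _ := by ring
  refine (Finset.sum_le_sum h1).trans ?_
  have h3 : ∑ v ∈ (box n K).filter fun v => 3 ≤ sz v,
      2 ^ (Nat.choose (n + 1) 2) * ((32 * (K : ℝ)) ^ (1024 * K ^ 2) * (3 / 8) ^ n) *
        (1 / (12 * (K : ℝ))) ^ sz v ≤
      ∑ v ∈ box n K, 2 ^ (Nat.choose (n + 1) 2) * ((32 * (K : ℝ)) ^ (1024 * K ^ 2) * (3 / 8) ^ n) *
        (1 / (12 * (K : ℝ))) ^ sz v := by
    refine Finset.sum_le_sum_of_subset_of_nonneg (Finset.filter_subset _ _) ?_
    intro v _ _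
    positivity
  refine h3.trans ?_
  rw [← Finset.mul_sum, sum_box_pow]
  have h4 : (1 + 2 * (K : ℝ) * (1 / (12 * (K : ℝ)))) = 7 / 6 := by
    field_simp
    ring
  rw [h4]
  have h5 : (7 / 16 : ℝ) ^ n = (3 / 8) ^ n * (7 / 6) ^ n := by
    rw [← mul_pow]; norm_num
  rw [h5]
  apply le_of_eq
  ring

end Vale.Agent.Lib.P160
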