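import Vale.Agent.Lib.P160.Union

namespace Vale.Agent.Lib.P160

open Filter Topology

theorem tendsto_ratio {f : ℕ → ℝ} {C θ : ℝ} (hθ0 : 0 ≤ θ) (hθ : θ < 1 / 2) (n0 : ℕ)
    (hl : ∀ n, n0 ≤ n → lowerB n ≤ f n)
    (hu : ∀ n, n0 ≤ n → f n ≤ ((n : ℝ) * ((n : ℝ) - 1)) / 2 ^ n + C * θ ^ n) :
    Tendsto (fun n : ℕ => f n * 2 ^ n / (n : ℝ) ^ 2) atTop (𝓝 1) := by
  have ha : Tendsto (fun n : ℕ => 1 - 1 / (n : ℝ)) atTop (𝓝 1) := by
    have := (tendsto_const_nhds (x := (1 : ℝ))).sub tendsto_one_div_atTop_nhds_zero_nat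
    simpa using this
  have hb2 := tendsto_pow_const_div_const_pow_of_one_lt 2 (show (1 : ℝ) < 2 by norm_num)
  have hb1 := tendsto_pow_const_div_const_pow_of_one_lt 1 (show (1 : ℝ) < 2 by norm_num)
  have hb0 := tendsto_pow_const_div_const_pow_of_one_lt 0 (show (1 : ℝ) < 2 by norm_num)
  have hb : Tendsto (fun n : ℕ => (n : ℝ) ^ 2 / 2 ^ n - (n : ℝ) ^ 1 / 2 ^ n -
      2 * ((n : ℝ) ^ 0 / 2 ^ n)) atTop (𝓝 0) := by
    have := (hb2.sub hb1).sub (hb0.const_mul 2)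
    simpa using this
  have hg1 : Tendsto (fun n : ℕ => (1 - 1 / (n : ℝ)) - (1 - 1 / (n : ℝ)) *
      ((n : ℝ) ^ 2 / 2 ^ n - (n : ℝ) ^ 1 / 2 ^ n - 2 * ((n : ℝ) ^ 0 / 2 ^ n))) atTop (𝓝 1) := by
    have := ha.sub (ha.mul hb)
    simpa using this
  have hc : Tendsto (fun n : ℕ => (2 * θ) ^ n) atTop (𝓝 0) :=
    tendsto_pow_atTop_nhds_zero_of_lt_one (by linarith) (by linarith)
  have hd : Tendsto (fun n : ℕ => 1 / (n : ℝ)) atTop (𝓝 0) := tendsto_one_div_atTop_nhds_zero_nat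
  have hg2 : Tendsto (fun n : ℕ => (1 - 1 / (n : ℝ)) +
      C * ((2 * θ) ^ n * (1 / (n : ℝ) * (1 / (n : ℝ))))) atTop (𝓝 1) := by
    have := ha.add ((hc.mul (hd.mul hd)).const_mul C)
    simpa using this
  refine tendsto_of_tendsto_of_tendsto_of_le_of_le' hg1 hg2 ?_ ?_
  · filter_upwards [eventually_ge_atTop n0, eventually_ge_atTop 1] with n hn hn1
    have hx : (0 : ℝ) < n := by exact_mod_cast hn1
    have hP : (0 : ℝ) < 2 ^ n := by positivity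
    have h4 : (4 : ℝ) ^ n = 2 ^ n * 2 ^ n := by
      rw [← mul_pow]; norm_num
    have e : (1 - 1 / (n : ℝ)) - (1 - 1 / (n : ℝ)) *
        ((n : ℝ) ^ 2 / 2 ^ n - (n : ℝ) ^ 1 / 2 ^ n - 2 * ((n : ℝ) ^ 0 / 2 ^ n)) =
        lowerB n * 2 ^ n / (n : ℝ) ^ 2 := by
      unfold lowerB
      rw [h4]
      field_simp
    rw [e]
    have := hl n hn
    gcongr
  · filter_upwards [eventually_ge_atTop n0, eventually_ge_atTop 1] with n hn hn1
    have hx : (0 : ℝ) < n := by exact_mod_cast hn1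
    have hP : (0 : ℝ) < 2 ^ n := by positivity
    have e : (1 - 1 / (n : ℝ)) + C * ((2 * θ) ^ n * (1 / (n : ℝ) * (1 / (n : ℝ)))) =
        (((n : ℝ) * ((n : ℝ) - 1)) / 2 ^ n + C * θ ^ n) * 2 ^ n / (n : ℝ) ^ 2 := by
      rw [mul_pow]
      field_simp
    rw [e]
    have := hu n hn
    gcongr

end Vale.Agent.Lib.P160
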