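import Vale.Agent.Lib.P160.Height
import Vale.Agent.Lib.P160.Limit

namespace Vale.Agent.Lib.P160

open Finset Matrix

theorem smallNullProb_eq (K n : ℕ) :
    smallNullProb K n = ((hevSet n K).card : ℝ) / ((symSignMatrices n).card : ℝ) := rfl

theorem biUnion_Ev_subset_hevSet {n K : ℕ} (hK : 1 ≤ K) :
    ((univ : Finset (Fin n)).offDiag).biUnion Ev ⊆ hevSet n K := by
  intro A hA
  rw [mem_biUnion] at hA
  obtain ⟨p, hp, hAp⟩ := hA
  have hne : p.1 ≠ p.2 := (mem_offDiag.1 hp).2.2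
  unfold Ev at hAp
  rw [mem_hevSet]
  have hnull := pairEvent_null hne hAp
  have hs : A ∈ symSet (Fin n) := mem_symSet.2 (mem_pairEvent.1 hAp).1
  refine ⟨hs, ?_⟩
  refine ⟨Pi.single p.1 1 - Pi.single p.2 ((sg p : ℤˣ) : ℤ), ?_⟩
  refine ⟨?_, ?_, hnull⟩
  · intro h
    have := congrFun h p.1
    simp [Pi.single_apply, hne] at this
  · intro j
    have hK' : (1 : ℤ) ≤ K := by exact_mod_cast hK
    have habs : |((sg p : ℤˣ) : ℤ)| = 1 := by
      rcases Int.units_eq_one_or (sg p) with h | h <;> simp [h]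
    simp only [Pi.sub_apply, Pi.single_apply]
    by_cases h1 : j = p.1
    · have h2 : j ≠ p.2 := fun h2 => hne (h1.symm.trans h2)
      rw [if_pos h1, if_neg h2]
      simpa using hK'
    · by_cases h2 : j = p.2
      · rw [if_neg h1, if_pos h2]
        simpa [habs] using hK'
      · rw [if_neg h1, if_neg h2]
        simp

theorem smallNullProb_ge {K : ℕ} (hK : 1 ≤ K) (n : ℕ) : lowerB n ≤ smallNullProb K n := by
  rw [smallNullProb_eq]
  exact prob_ge n _ (biUnion_Ev_subset_hevSet hK)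

theorem smallNullProb_le {K : ℕ} (hK : 1 ≤ K) (n : ℕ) :
    smallNullProb K n ≤ ((n : ℝ) * ((n : ℝ) - 1)) / 2 ^ n +
      (32 * (K : ℝ)) ^ (1024 * K ^ 2) * (7 / 16) ^ n := by
  rw [smallNullProb_eq, symSignMatrices_eq, card_symSet, Fintype.card_fin]
  have h1 := hevSet_card_le n K
  have h2 := sum_G_le (n := n) hK
  have h3 : ((hevSet n K).card : ℝ) ≤ ((n * n - n : ℕ) : ℝ) * 2 ^ (Nat.choose n 2) +
      2 ^ (Nat.choose (n + 1) 2) * ((32 * (K : ℝ)) ^ (1024 * K ^ 2) * (7 / 16) ^ n) := by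
    have : ((hevSet n K).card : ℝ) ≤ (((n * n - n) * 2 ^ (Nat.choose n 2) +
        ∑ v ∈ (box n K).filter fun v => 3 ≤ sz v, G n (sz v) : ℕ) : ℝ) := by
      exact_mod_cast h1
    refine this.trans ?_
    push_cast at h2 ⊢
    linarith
  have hc : Nat.choose (n + 1) 2 = n + Nat.choose n 2 := by
    rw [Nat.choose_succ_succ' n 1, Nat.choose_one_right]
  have hnn : ((n * n - n : ℕ) : ℝ) = (n : ℝ) * ((n : ℝ) - 1) := by
    have : n ≤ n * n := Nat.le_mul_self n
    rw [Nat.cast_sub this]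
    push_cast
    ring
  rw [hnn, hc] at h3
  push_cast
  rw [hc, div_le_iff₀ (by positivity)]
  refine h3.trans (le_of_eq ?_)
  rw [pow_add]
  field_simp

theorem smallNullProb_tendsto {K : ℕ} (hK : 1 ≤ K) :
    Filter.Tendsto (fun n : ℕ => smallNullProb K n * 2 ^ n / (n : ℝ) ^ 2) Filter.atTop
      (nhds 1) :=
  tendsto_ratio (C := (32 * (K : ℝ)) ^ (1024 * K ^ 2)) (θ := 7 / 16) (by norm_num) (by norm_num) 0
    (fun n _ => smallNullProb_ge hK n) (fun n _ => smallNullProb_le hK n)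

end Vale.Agent.Lib.P160
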