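import Vale.Agent.Lib.P160.Dense1
import Vale.Agent.Lib.P160.Closed
import Vale.Agent.Lib.P160.helper23.Block

namespace Vale.Agent.Lib.P160

open Finset Matrix

section general

variable {ι : Type} [Fintype ι] [DecidableEq ι]

/-- The level event: some real null vector of `A` equals `1` on all of `Z`. -/
def LevelEv (Z : Finset ι) (A : Matrix ι ι ℤˣ) : Prop :=
  ∃ v : ι → ℝ, (∀ j ∈ Z, v j = 1) ∧ toR A *ᵥ v = 0

/-- Every vector supported off `Z` that is orthogonal to the rows outside `T` is orthogonal to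
all rows. -/
def RowsDet (Z T : Finset ι) (A : Matrix ι ι ℤˣ) : Prop :=
  ∀ u, IsAnn (univ \ Z) (univ \ T) A u → ∀ i, sdot (A i) u = 0

omit [DecidableEq ι] in
theorem sdot_sub (x : ι → ℤˣ) (u w : ι → ℝ) : sdot x (u - w) = sdot x u - sdot x w := by
  unfold sdot
  rw [← Finset.sum_sub_distrib]
  refine Finset.sum_congr rfl fun j _ => ?_
  simp [mul_sub]

/-- Given the entries outside the block `T × T`, the row sums of the block are determined on
the level event. -/
theorem level_det {Z T : Finset ι} (hTZ : T ⊆ Z) {A B : Matrix ι ι ℤˣ}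
    (hA : LevelEv Z A) (hdet : RowsDet Z T A) (hB : LevelEv Z B)
    (hAB : ∀ i j, ¬ (i ∈ T ∧ j ∈ T) → A i j = B i j) :
    ∀ i ∈ T, ∑ j ∈ T, ((A i j : ℤ) : ℝ) = ∑ j ∈ T, ((B i j : ℤ) : ℝ) := by
  obtain ⟨v, hv1, hAv⟩ := hA
  obtain ⟨w, hw1, hBw⟩ := hB
  have hrow : ∀ r, r ∉ T → A r = B r := by
    intro r hr
    funext j
    exact hAB r j (fun h => hr h.1)
  have hAv' : ∀ r, sdot (A r) v = 0 := by
    intro r
    rw [← toR_mulVec, hAv]; rfl
  have hBw' : ∀ r, sdot (B r) w = 0 := by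
    intro r
    rw [← toR_mulVec, hBw]; rfl
  have hu : IsAnn (univ \ Z) (univ \ T) A (v - w) := by
    refine ⟨fun j hj => ?_, fun r hr => ?_⟩
    · have hjZ : j ∈ Z := by
        by_contra h
        exact hj (mem_sdiff.2 ⟨mem_univ j, h⟩)
      simp [hv1 j hjZ, hw1 j hjZ]
    · have hrT : r ∉ T := (mem_sdiff.1 hr).2
      rw [sdot_sub, hAv' r, hrow r hrT, hBw' r, sub_zero]
  intro i hi
  have hAi : sdot (A i) w = 0 := by
    have h0 := hdet (v - w) hu i
    rw [sdot_sub, hAv' i] at h0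
    linarith
  have hBi : sdot (B i) w = 0 := hBw' i
  unfold sdot at hAi hBi
  rw [← Finset.sum_add_sum_compl T] at hAi hBi
  have hT1 : ∀ (C : Matrix ι ι ℤˣ),
      ∑ j ∈ T, ((C i j : ℤ) : ℝ) * w j = ∑ j ∈ T, ((C i j : ℤ) : ℝ) := by
    intro C
    refine Finset.sum_congr rfl fun j hj => ?_
    rw [hw1 j (hTZ hj), mul_one]
  have hT2 : ∑ j ∈ Tᶜ, ((A i j : ℤ) : ℝ) * w j = ∑ j ∈ Tᶜ, ((B i j : ℤ) : ℝ) * w j := by
    refine Finset.sum_congr rfl fun j hj => ?_
    rw [hAB i j (fun h => (mem_compl.1 hj) h.2)]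
  rw [hT1] at hAi hBi
  linarith

open Classical in
theorem level_count_T {Z T : Finset ι} (hTZ : T ⊆ Z) :
    ((symSet ι).filter fun A => LevelEv Z A ∧ RowsDet Z T A).card *
      2 ^ (Nat.choose (T.card + 1) 2) ≤ G T.card T.card * (symSet ι).card := by
  have h := block_count T (fun A => LevelEv Z A ∧ RowsDet Z T A) (by
    intro A _ B _ hA hB hAB
    exact level_det hTZ hA.1 hA.2 hB.1 hAB)
  convert h using 3
  ext A
  simp only [mem_filter]

theorem exists_T {Z : Finset ι} {A : Matrix ι ι ℤˣ} {k : ℕ}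
    (hcor : Module.finrank ℝ (annSub (univ \ Z) (univ \ Z) A) ≤ k) :
    ∃ T ∈ Z.powersetCard (Z.card - k), RowsDet Z T A := by
  obtain ⟨I, -, hdisj, hcard, hall⟩ :=
    exists_rows_union (univ \ Z) A
      (Module.finrank ℝ (annSub (univ \ Z) ((univ \ Z) ∪ ∅) A)) ∅
      (Finset.disjoint_empty_left _) le_rfl
  have hTe : (univ \ Z) ∪ (∅ : Finset ι) = univ \ Z := Finset.union_empty _
  rw [hTe] at hcard
  simp only [Finset.card_empty, zero_add] at hcard
  have hIZ : I ⊆ Z := by
    intro j hj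
    by_contra h
    exact (Finset.disjoint_left.1 hdisj hj) (mem_sdiff.2 ⟨mem_univ j, h⟩)
  have hIk : I.card ≤ k := by omega
  have hle : Z.card - k ≤ (Z \ I).card := by
    rw [Finset.card_sdiff_of_subset hIZ]
    omega
  obtain ⟨T, hTsub, hTcard⟩ := Finset.exists_subset_card_eq hle
  refine ⟨T, Finset.mem_powersetCard.2 ⟨hTsub.trans Finset.sdiff_subset, hTcard⟩, ?_⟩
  intro u hu i
  refine hall i u ⟨hu.1, fun r hr => hu.2 r ?_⟩
  rw [mem_sdiff]
  refine ⟨mem_univ r, fun hrT => ?_⟩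
  have hrZI := hTsub hrT
  rw [mem_sdiff] at hrZI
  rcases Finset.mem_union.1 hr with h | h
  · exact (mem_sdiff.1 h).2 hrZI.1
  · exact hrZI.2 h

open Classical in
theorem level_count (Z : Finset ι) (k : ℕ) :
    ((symSet ι).filter fun A => LevelEv Z A ∧
        Module.finrank ℝ (annSub (univ \ Z) (univ \ Z) A) ≤ k).card *
      2 ^ (Nat.choose (Z.card - k + 1) 2) ≤
      Nat.choose Z.card (Z.card - k) * (G (Z.card - k) (Z.card - k) * (symSet ι).card) := by
  have hsub : ((symSet ι).filter fun A => LevelEv Z A ∧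
        Module.finrank ℝ (annSub (univ \ Z) (univ \ Z) A) ≤ k) ⊆
      (Z.powersetCard (Z.card - k)).biUnion fun T =>
        (symSet ι).filter fun A => LevelEv Z A ∧ RowsDet Z T A := by
    intro A hA
    rw [mem_filter] at hA
    obtain ⟨T, hT, hdet⟩ := exists_T hA.2.2
    rw [mem_biUnion]
    exact ⟨T, hT, mem_filter.2 ⟨hA.1, hA.2.1, hdet⟩⟩
  have h1 := (Finset.card_le_card hsub).trans Finset.card_biUnion_le
  calc _ ≤ (∑ T ∈ Z.powersetCard (Z.card - k),
          ((symSet ι).filter fun A => LevelEv Z A ∧ RowsDet Z T A).card) *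
          2 ^ (Nat.choose (Z.card - k + 1) 2) := Nat.mul_le_mul_right _ h1
    _ = ∑ T ∈ Z.powersetCard (Z.card - k),
          ((symSet ι).filter fun A => LevelEv Z A ∧ RowsDet Z T A).card *
          2 ^ (Nat.choose (Z.card - k + 1) 2) := Finset.sum_mul _ _ _
    _ ≤ ∑ _T ∈ Z.powersetCard (Z.card - k),
          G (Z.card - k) (Z.card - k) * (symSet ι).card := by
        refine Finset.sum_le_sum fun T hT => ?_
        obtain ⟨hTZ, hTc⟩ := Finset.mem_powersetCard.1 hT
        have := level_count_T (ι := ι) hTZ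
        rw [hTc] at this
        exact this
    _ = Nat.choose Z.card (Z.card - k) * (G (Z.card - k) (Z.card - k) * (symSet ι).card) := by
        rw [Finset.sum_const, Finset.card_powersetCard, smul_eq_mul]

open Classical in
/-- The level event for `Z` has probability at most
`C(z, z - k) Qr (z - k) + 2 ^ (n - z) / 2 ^ C(k + 1, 2)`. -/
theorem level_card_le (Z : Finset ι) (k : ℕ) :
    (((symSet ι).filter fun A => LevelEv Z A).card : ℝ) ≤
      ((Nat.choose Z.card (Z.card - k) : ℝ) * Qr (Z.card - k) +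
        2 ^ (Fintype.card ι - Z.card) / 2 ^ (Nat.choose (k + 1) 2)) *
        ((symSet ι).card : ℝ) := by
  have hsub : ((symSet ι).filter fun A => LevelEv Z A) ⊆
      ((symSet ι).filter fun A => LevelEv Z A ∧
        Module.finrank ℝ (annSub (univ \ Z) (univ \ Z) A) ≤ k) ∪
      ((symSet ι).filter fun A =>
        k + 1 ≤ Module.finrank ℝ (annSub (univ \ Z) (univ \ Z) A)) := by
    intro A hA
    rw [mem_filter] at hA
    rw [mem_union, mem_filter, mem_filter]
    rcases Nat.lt_or_ge k (Module.finrank ℝ (annSub (univ \ Z) (univ \ Z) A)) with h | h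
    · exact Or.inr ⟨hA.1, h⟩
    · exact Or.inl ⟨hA.1, hA.2, h⟩
  have h0 := (Finset.card_le_card hsub).trans (Finset.card_union_le _ _)
  have h1 := level_count (ι := ι) Z k
  have h2 := corank_count (univ \ Z).card ι (univ \ Z) (k + 1) rfl
  rw [Finset.card_univ_sdiff] at h2
  have hG := G_eq' (n := Z.card - k) (s := Z.card - k) le_rfl
  rw [Nat.sub_self, pow_zero, mul_one] at hG
  have h1' : (((symSet ι).filter fun A => LevelEv Z A ∧
        Module.finrank ℝ (annSub (univ \ Z) (univ \ Z) A) ≤ k).card : ℝ) ≤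
      (Nat.choose Z.card (Z.card - k) : ℝ) * Qr (Z.card - k) * ((symSet ι).card : ℝ) := by
    have h3 : (((symSet ι).filter fun A => LevelEv Z A ∧
        Module.finrank ℝ (annSub (univ \ Z) (univ \ Z) A) ≤ k).card : ℝ) *
        2 ^ (Nat.choose (Z.card - k + 1) 2) ≤
        (Nat.choose Z.card (Z.card - k) : ℝ) *
          ((G (Z.card - k) (Z.card - k) : ℝ) * ((symSet ι).card : ℝ)) := by
      exact_mod_cast h1
    rw [hG] at h3
    have hp : (0 : ℝ) < 2 ^ (Nat.choose (Z.card - k + 1) 2) := by positivity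
    have h4 : (Nat.choose Z.card (Z.card - k) : ℝ) *
        (2 ^ (Nat.choose (Z.card - k + 1) 2) * Qr (Z.card - k) * ((symSet ι).card : ℝ)) =
        ((Nat.choose Z.card (Z.card - k) : ℝ) * Qr (Z.card - k) * ((symSet ι).card : ℝ)) *
          2 ^ (Nat.choose (Z.card - k + 1) 2) := by ring
    rw [h4] at h3
    exact le_of_mul_le_mul_right h3 hp
  have h2' : (((symSet ι).filter fun A =>
        k + 1 ≤ Module.finrank ℝ (annSub (univ \ Z) (univ \ Z) A)).card : ℝ) ≤
      2 ^ (Fintype.card ι - Z.card) / 2 ^ (Nat.choose (k + 1) 2) * ((symSet ι).card : ℝ) := by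
    have h3 : (((symSet ι).filter fun A =>
        k + 1 ≤ Module.finrank ℝ (annSub (univ \ Z) (univ \ Z) A)).card : ℝ) *
        2 ^ (Nat.choose (k + 1) 2) ≤
        2 ^ (Fintype.card ι - Z.card) * ((symSet ι).card : ℝ) := by
      exact_mod_cast h2
    have hp : (0 : ℝ) < 2 ^ (Nat.choose (k + 1) 2) := by positivity
    rw [div_mul_eq_mul_div, le_div_iff₀ hp]
    exact h3
  have h0' : (((symSet ι).filter fun A => LevelEv Z A).card : ℝ) ≤
      (((symSet ι).filter fun A => LevelEv Z A ∧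
        Module.finrank ℝ (annSub (univ \ Z) (univ \ Z) A) ≤ k).card : ℝ) +
      (((symSet ι).filter fun A =>
        k + 1 ≤ Module.finrank ℝ (annSub (univ \ Z) (univ \ Z) A)).card : ℝ) := by
    exact_mod_cast h0
  rw [add_mul]
  linarith

end general

end Vale.Agent.Lib.P160
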