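import Vale.Agent.Lib.P160.Defs
import Vale.Agent.Lib.P160.Count
import Vale.Agent.Lib.P160.Bonferroni

namespace Vale.Agent.Lib.P160

open Finset Matrix

section general

variable {ι : Type*} [Fintype ι] [DecidableEq ι]

theorem det_eq_zero_of_mem_pairEvent {i j : ι} (hij : i ≠ j) {s : ℤˣ} {A : Matrix ι ι ℤˣ}
    (hA : A ∈ pairEvent i j s) : (A.map fun u : ℤˣ => ((u : ℤ) : ℝ)).det = 0 := by
  rw [mem_pairEvent] at hA
  rw [← Matrix.exists_vecMul_eq_zero_iff]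
  refine ⟨Pi.single i 1 - Pi.single j ((s : ℤ) : ℝ), ?_, ?_⟩
  · intro h
    have h1 := congrFun h i
    simp [hij] at h1
  · ext k
    have h2 := hA.2 k
    simp [Matrix.sub_vecMul, h2]

variable [LinearOrder ι]

/-- The sign attached to an ordered pair of indices. -/
def sg (p : ι × ι) : ℤˣ := if p.1 < p.2 then 1 else -1

/-- The event attached to an ordered pair of distinct indices. -/
def Ev (p : ι × ι) : Finset (Matrix ι ι ℤˣ) := pairEvent p.1 p.2 (sg p)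

omit [Fintype ι] [DecidableEq ι] in
theorem sg_swap {p : ι × ι} (hp : p.1 ≠ p.2) : sg p.swap = - sg p := by
  unfold sg
  rcases lt_or_gt_of_ne hp with h | h
  · simp [h, not_lt.2 h.le]
  · simp [h, not_lt.2 h.le]

theorem Ev_inter_swap {p : ι × ι} (hp : p.1 ≠ p.2) : Ev p ∩ Ev p.swap = ∅ := by
  rw [Finset.eq_empty_iff_forall_notMem]
  intro A hA
  rw [mem_inter] at hA
  obtain ⟨h1, h2⟩ := hA
  unfold Ev at h1 h2
  rw [mem_pairEvent] at h1 h2
  have e1 := h1.2 p.1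
  have e2 := h2.2 p.1
  rw [sg_swap hp] at e2
  simp only [Prod.fst_swap, Prod.snd_swap] at e2
  rw [e2, neg_mul, mul_neg, ← mul_assoc, Int.units_mul_self, one_mul] at e1
  exact units_ne_neg_self _ e1

theorem Ev_card {p : ι × ι} (hp : p.1 ≠ p.2) :
    (Ev p).card = 2 ^ (Nat.choose (Fintype.card ι) 2) :=
  card_pairEvent hp _

theorem Ev_inter_le {p q : ι × ι} (hp : p.1 ≠ p.2) (hq : q.1 ≠ q.2) (hpq : q ≠ p)
    (hpq' : q ≠ p.swap) :
    (Ev p ∩ Ev q).card ≤ 2 ^ (Nat.choose (Fintype.card ι - 1) 2) := by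
  obtain ⟨i, j⟩ := p
  obtain ⟨k, l⟩ := q
  simp only at hp hq
  unfold Ev
  simp only
  by_cases hi : k ≠ i ∧ l ≠ i
  · exact card_pairEvent_inter_le hp hq hi.1 hi.2 _ _
  · have hj : k ≠ j ∧ l ≠ j := by
      constructor
      · intro hkj
        subst hkj
        by_cases hli : l = i
        · subst hli
          exact hpq' rfl
        · exact hi ⟨hp.symm, hli⟩
      · intro hlj
        subst hlj
        by_cases hki : k = i
        · subst hki
          exact hpq rfl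
        · exact hi ⟨hki, hp.symm⟩
    rw [pairEvent_swap i j]
    exact card_pairEvent_inter_le hp.symm hq hj.1 hj.2 _ _

theorem Ev_subset_singular {p : ι × ι} (hp : p.1 ≠ p.2) :
    Ev p ⊆ (symSet ι).filter fun A => (A.map fun u : ℤˣ => ((u : ℤ) : ℝ)).det = 0 := by
  intro A hA
  rw [mem_filter]
  exact ⟨mem_of_mem_filter A hA, det_eq_zero_of_mem_pairEvent hp hA⟩

theorem inner_sum_le {p : ι × ι} (hp : p ∈ (univ : Finset ι).offDiag) :
    ∑ q ∈ (univ : Finset ι).offDiag, (Ev p ∩ Ev q).card ≤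
      2 ^ (Nat.choose (Fintype.card ι) 2) +
        ((univ : Finset ι).offDiag.card - 2) * 2 ^ (Nat.choose (Fintype.card ι - 1) 2) := by
  have hp' : p.1 ≠ p.2 := by
    rw [mem_offDiag] at hp
    exact hp.2.2
  have hs : p.swap ∈ ((univ : Finset ι).offDiag).erase p := by
    rw [mem_erase, mem_offDiag]
    refine ⟨?_, mem_univ _, mem_univ _, ?_⟩
    · intro h
      exact hp' (congrArg Prod.fst h).symm
    · simpa using hp'.symm
  rw [← Finset.add_sum_erase _ _ hp, ← Finset.add_sum_erase _ _ hs, Finset.inter_self,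
    Ev_inter_swap hp', Finset.card_empty, zero_add, Ev_card hp']
  refine Nat.add_le_add_left ?_ _
  have hc : ((((univ : Finset ι).offDiag).erase p).erase p.swap).card =
      (univ : Finset ι).offDiag.card - 2 := by
    rw [Finset.card_erase_of_mem hs, Finset.card_erase_of_mem hp]
    rfl
  rw [← hc, ← smul_eq_mul]
  refine Finset.sum_le_card_nsmul _ _ _ ?_
  intro q hq
  rw [mem_erase, mem_erase, mem_offDiag] at hq
  exact Ev_inter_le hp' hq.2.2.2.2 hq.2.1 hq.1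

theorem main_count :
    2 * ((univ : Finset ι).offDiag.card * 2 ^ (Nat.choose (Fintype.card ι) 2)) ≤
      2 * ((symSet ι).filter fun A => (A.map fun u : ℤˣ => ((u : ℤ) : ℝ)).det = 0).card +
        (univ : Finset ι).offDiag.card * (((univ : Finset ι).offDiag.card - 2) *
          2 ^ (Nat.choose (Fintype.card ι - 1) 2)) := by
  have hB := bonferroni ((univ : Finset ι).offDiag) (Ev (ι := ι))
  have h1 : ∑ p ∈ (univ : Finset ι).offDiag, (Ev p).card =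
      (univ : Finset ι).offDiag.card * 2 ^ (Nat.choose (Fintype.card ι) 2) := by
    rw [Finset.sum_congr rfl (fun p hp => Ev_card (mem_offDiag.1 hp).2.2), Finset.sum_const,
      smul_eq_mul]
  have h2 : ∑ p ∈ (univ : Finset ι).offDiag, ∑ q ∈ (univ : Finset ι).offDiag,
      (Ev p ∩ Ev q).card ≤ (univ : Finset ι).offDiag.card *
        (2 ^ (Nat.choose (Fintype.card ι) 2) +
        ((univ : Finset ι).offDiag.card - 2) * 2 ^ (Nat.choose (Fintype.card ι - 1) 2)) := by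
    rw [← smul_eq_mul]
    exact Finset.sum_le_card_nsmul _ _ _ fun p hp => inner_sum_le hp
  have h3 : (((univ : Finset ι).offDiag).biUnion (Ev (ι := ι))).card ≤
      ((symSet ι).filter fun A => (A.map fun u : ℤˣ => ((u : ℤ) : ℝ)).det = 0).card := by
    refine Finset.card_le_card ?_
    rw [Finset.biUnion_subset]
    intro p hp
    exact Ev_subset_singular (mem_offDiag.1 hp).2.2
  rw [h1] at hB
  rw [mul_add] at h2
  omega

end general

theorem symSignMatrices_eq (n : ℕ) : symSignMatrices n = symSet (Fin n) := rfl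

theorem card_symSignMatrices (n : ℕ) : (symSignMatrices n).card = 2 ^ (n * (n + 1) / 2) := by
  rw [symSignMatrices_eq, card_symSet, Fintype.card_fin, Nat.choose_two_right,
    Nat.add_sub_cancel, mul_comm]

theorem singProb_nonneg (n : ℕ) : 0 ≤ singProb n := by
  unfold singProb
  positivity

theorem singProb_ge_aux (k : ℕ) :
    (((k + 2 : ℕ) : ℝ) * (((k + 2 : ℕ) : ℝ) - 1)) / 2 ^ (k + 2) -
      (((k + 2 : ℕ) : ℝ) * (((k + 2 : ℕ) : ℝ) - 1) *
        (((k + 2 : ℕ) : ℝ) * (((k + 2 : ℕ) : ℝ) - 1) - 2)) / 4 ^ (k + 2) ≤ singProb (k + 2) := by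
  have hmain := main_count (ι := Fin (k + 2))
  rw [Finset.offDiag_card, Finset.card_univ, Fintype.card_fin] at hmain
  have hm : (k + 2) * (k + 2) - (k + 2) = (k + 2) * (k + 1) := by
    have : (k + 2) * (k + 2) = (k + 2) * (k + 1) + (k + 2) := by ring
    omega
  rw [hm] at hmain
  have hm2 : (k + 2) * (k + 1) - 2 + 2 = (k + 2) * (k + 1) := by
    have : 2 ≤ (k + 2) * (k + 1) := by nlinarith
    omega
  have hc1 : Nat.choose (k + 2) 2 = Nat.choose (k + 1) 2 + (k + 1) := by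
    rw [Nat.choose_succ_succ' (k + 1) 1, Nat.choose_one_right, add_comm]
  have hc0 : Nat.choose (k + 3) 2 = Nat.choose (k + 1) 2 + (k + 1) + (k + 2) := by
    rw [Nat.choose_succ_succ' (k + 2) 1, Nat.choose_one_right, hc1, add_comm]
  have hS : ((symSignMatrices (k + 2)).card : ℝ) =
      2 ^ (Nat.choose (k + 1) 2) * 2 ^ (k + 1) * 2 ^ (k + 2) := by
    rw [symSignMatrices_eq, card_symSet, Fintype.card_fin, hc0, pow_add, pow_add]
    push_cast
    ring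
  have hk21 : k + 2 - 1 = k + 1 := rfl
  rw [hk21, hc1, pow_add] at hmain
  have hmainR : (2 : ℝ) * (((k + 2 : ℕ) : ℝ) * ((k + 1 : ℕ) : ℝ) *
      (2 ^ (Nat.choose (k + 1) 2) * 2 ^ (k + 1))) ≤
      2 * (((symSet (Fin (k + 2))).filter fun A =>
        (A.map fun u : ℤˣ => ((u : ℤ) : ℝ)).det = 0).card : ℝ) +
      ((k + 2 : ℕ) : ℝ) * ((k + 1 : ℕ) : ℝ) * ((((k + 2) * (k + 1) - 2 : ℕ) : ℝ) *
        2 ^ (Nat.choose (k + 1) 2)) := by
    exact_mod_cast hmain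
  have hm2R : ((((k + 2) * (k + 1) - 2 : ℕ) : ℝ)) =
      ((k + 2 : ℕ) : ℝ) * ((k + 1 : ℕ) : ℝ) - 2 := by
    have := congrArg (fun x : ℕ => (x : ℝ)) hm2
    push_cast at this ⊢
    linarith
  rw [hm2R] at hmainR
  unfold singProb
  rw [hS, symSignMatrices_eq]
  have hc2 : (0 : ℝ) < 2 ^ (Nat.choose (k + 1) 2) := by positivity
  have hX : (0 : ℝ) < 2 ^ (k + 1) := by positivity
  have h4 : (4 : ℝ) ^ (k + 2) = 2 ^ (k + 2) * 2 ^ (k + 2) := by
    rw [← mul_pow]; norm_num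
  have h2 : (2 : ℝ) ^ (k + 2) = 2 * 2 ^ (k + 1) := by
    rw [pow_succ]; ring
  rw [le_div_iff₀ (by positivity), h4, h2]
  have hk1 : ((k + 1 : ℕ) : ℝ) = ((k + 2 : ℕ) : ℝ) - 1 := by push_cast; ring
  rw [hk1] at hmainR
  have e : (((k + 2 : ℕ) : ℝ) * (((k + 2 : ℕ) : ℝ) - 1) / (2 * 2 ^ (k + 1)) -
      ((k + 2 : ℕ) : ℝ) * (((k + 2 : ℕ) : ℝ) - 1) *
        (((k + 2 : ℕ) : ℝ) * (((k + 2 : ℕ) : ℝ) - 1) - 2) /
        (2 * 2 ^ (k + 1) * (2 * 2 ^ (k + 1)))) *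
      (2 ^ (Nat.choose (k + 1) 2) * 2 ^ (k + 1) * (2 * 2 ^ (k + 1))) =
      ((k + 2 : ℕ) : ℝ) * (((k + 2 : ℕ) : ℝ) - 1) * (2 ^ (Nat.choose (k + 1) 2) * 2 ^ (k + 1)) -
      ((k + 2 : ℕ) : ℝ) * (((k + 2 : ℕ) : ℝ) - 1) *
        (((k + 2 : ℕ) : ℝ) * (((k + 2 : ℕ) : ℝ) - 1) - 2) * 2 ^ (Nat.choose (k + 1) 2) / 2 := by
    field_simp
  rw [e]
  linarith

theorem singProb_ge (n : ℕ) :
    ((n : ℝ) * ((n : ℝ) - 1)) / 2 ^ n -
      ((n : ℝ) * ((n : ℝ) - 1) * ((n : ℝ) * ((n : ℝ) - 1) - 2)) / 4 ^ n ≤ singProb n := by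
  rcases n with _ | _ | k
  · simpa using singProb_nonneg 0
  · simpa using singProb_nonneg 1
  · exact singProb_ge_aux k

theorem singProb_asymp (ε : ℝ) (hε : 0 < ε) :
    ∀ᶠ n : ℕ in Filter.atTop, (1 - ε) * (n : ℝ) ^ 2 / 2 ^ n ≤ singProb n := by
  have h1 : ∀ᶠ n : ℕ in Filter.atTop, (n : ℝ) ^ 2 / 2 ^ n < ε / 2 := by
    have ht := tendsto_pow_const_div_const_pow_of_one_lt 2 (show (1 : ℝ) < 2 by norm_num)
    exact ht.eventually (gt_mem_nhds (by positivity : (0 : ℝ) < ε / 2))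
  have h2 : ∀ᶠ n : ℕ in Filter.atTop, 2 / ε ≤ (n : ℝ) :=
    tendsto_natCast_atTop_atTop.eventually_ge_atTop (2 / ε)
  filter_upwards [h1, h2, Filter.eventually_ge_atTop 2] with n hn1 hn2 hn3
  refine le_trans ?_ (singProb_ge n)
  have hpow : (0 : ℝ) < 2 ^ n := by positivity
  have h4 : (4 : ℝ) ^ n = 2 ^ n * 2 ^ n := by
    rw [← mul_pow]; norm_num
  rw [h4]
  have hn : (2 : ℝ) ≤ n := by exact_mod_cast hn3
  have key : (n : ℝ) * (n - 1) * (n * (n - 1) - 2) / 2 ^ n ≤ ε / 2 * (n : ℝ) ^ 2 := by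
    have h5 : (n : ℝ) * (n - 1) * (n * (n - 1) - 2) ≤ (n : ℝ) ^ 2 * (n : ℝ) ^ 2 := by
      have ha : (n : ℝ) * (n - 1) ≤ (n : ℝ) ^ 2 := by nlinarith
      have hb : (n : ℝ) * (n - 1) - 2 ≤ (n : ℝ) ^ 2 := by nlinarith
      have hc : (0 : ℝ) ≤ (n : ℝ) * (n - 1) := by nlinarith
      have hd : (0 : ℝ) ≤ (n : ℝ) ^ 2 := by positivity
      calc (n : ℝ) * (n - 1) * (n * (n - 1) - 2)
          ≤ (n : ℝ) * (n - 1) * (n : ℝ) ^ 2 := mul_le_mul_of_nonneg_left hb hc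
        _ ≤ (n : ℝ) ^ 2 * (n : ℝ) ^ 2 := mul_le_mul_of_nonneg_right ha hd
    calc (n : ℝ) * (n - 1) * (n * (n - 1) - 2) / 2 ^ n
        ≤ (n : ℝ) ^ 2 * (n : ℝ) ^ 2 / 2 ^ n := div_le_div_of_nonneg_right h5 hpow.le
      _ = (n : ℝ) ^ 2 * ((n : ℝ) ^ 2 / 2 ^ n) := by ring
      _ ≤ (n : ℝ) ^ 2 * (ε / 2) := mul_le_mul_of_nonneg_left hn1.le (by positivity)
      _ = ε / 2 * (n : ℝ) ^ 2 := by ring
  have key2 : (n : ℝ) ≤ ε / 2 * (n : ℝ) ^ 2 := by
    have h6 : 2 ≤ ε * n := by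
      rw [div_le_iff₀ hε] at hn2
      linarith
    nlinarith
  have e : (n : ℝ) * (n - 1) / 2 ^ n -
      (n : ℝ) * (n - 1) * (n * (n - 1) - 2) / (2 ^ n * 2 ^ n) =
      ((n : ℝ) * (n - 1) - (n : ℝ) * (n - 1) * (n * (n - 1) - 2) / 2 ^ n) / 2 ^ n := by
    field_simp
  rw [e]
  refine div_le_div_of_nonneg_right ?_ hpow.le
  have e2 : (n : ℝ) * (n - 1) = (n : ℝ) ^ 2 - n := by ring
  rw [e2] at key ⊢
  linarith

end Vale.Agent.Lib.P160
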