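import Vale.Agent.Lib.P160.Values1
import Vale.Agent.Lib.P160.helper22.CountSS
import Vale.Agent.Lib.P160.helper16.BlockAbs

namespace Vale.Agent.Lib.P160

open Finset Matrix

section general

variable {ι : Type} [Fintype ι] [DecidableEq ι]

/-- The number of distinct absolute values among the nonzero coordinates of `u` in `T`. -/
noncomputable def dabsOn (T : Finset ι) (u : ι → ℝ) : ℕ :=
  dabs (fun j : {k // k ∈ T} => u j.1)

/-- The event used for null vectors with many repeated values: the vectors of pattern `p`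
annihilated by the rows in `I` contain one with at least `D` distinct nonzero absolute values
outside `I`, and all of them are annihilated by every row. -/
def RVEv {m : ℕ} (p : ι → Fin m) (I : Finset ι) (D : ℕ) (A : Matrix ι ι ℤˣ) : Prop :=
  (∃ u ∈ patSub p ⊓ annSub univ I A, D ≤ dabsOn (univ \ I) u) ∧
    ∀ i, ∀ u ∈ patSub p ⊓ annSub univ I A, sdot (A i) u = 0

open Classical in
/-- A canonical vector of `K` with at least `D` distinct nonzero absolute values in `T`. -/
noncomputable def canonVecD (K : Submodule ℝ (ι → ℝ)) (T : Finset ι) (D : ℕ) : ι → ℝ :=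
  if h : ∃ u ∈ K, D ≤ dabsOn T u then Classical.choose h else 0

omit [DecidableEq ι] [Fintype ι] in
theorem canonVecD_spec {K : Submodule ℝ (ι → ℝ)} {T : Finset ι} {D : ℕ}
    (h : ∃ u ∈ K, D ≤ dabsOn T u) :
    canonVecD K T D ∈ K ∧ D ≤ dabsOn T (canonVecD K T D) := by
  unfold canonVecD
  rw [dif_pos h]
  exact Classical.choose_spec h

open Classical in
theorem rv_count {m : ℕ} (p : ι → Fin m) (I : Finset ι) (D : ℕ) (ρ : ℝ) (hρ0 : 0 ≤ ρ)
    (hrow : RowBound D ρ) :
    (((symSet ι).filter fun A => RVEv p I D A).card : ℝ) ≤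
      ρ ^ ((univ \ I).card - D) * ((symSet ι).card : ℝ) := by
  have h := H16.block_count_abs (univ \ I) D
    (2 ^ (Nat.choose ((univ \ I).card + 1) 2) * ρ ^ ((univ \ I).card - D))
    (mul_nonneg (by positivity) (pow_nonneg hρ0 _))
    (fun v c hv => H22.count_ss D ρ hρ0 hrow (univ \ I).card {k // k ∈ univ \ I}
      (Fintype.card_of_subtype (univ \ I) (fun _ => Iff.rfl)) v c hv)
    (fun A => RVEv p I D A)
    (fun A => canonVecD (patSub p ⊓ annSub univ I A) (univ \ I) D)
    (fun A i => - ∑ j ∈ I, ((A i j : ℤ) : ℝ) *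
      canonVecD (patSub p ⊓ annSub univ I A) (univ \ I) D j)
    (by
      intro A _ B _ _ _ hAB
      have hrow' : ∀ r ∈ I, A r = B r := by
        intro r hr
        funext j
        exact hAB r j (fun h => (mem_sdiff.1 h.1).2 hr)
      have hK : annSub univ I A = annSub univ I B := by
        ext u
        rw [mem_annSub, mem_annSub]
        constructor
        · rintro ⟨h1, h2⟩
          exact ⟨h1, fun r hr => by rw [← hrow' r hr]; exact h2 r hr⟩
        · rintro ⟨h1, h2⟩
          exact ⟨h1, fun r hr => by rw [hrow' r hr]; exact h2 r hr⟩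
      refine ⟨?_, ?_⟩
      · show canonVecD (patSub p ⊓ annSub univ I A) (univ \ I) D =
          canonVecD (patSub p ⊓ annSub univ I B) (univ \ I) D
        rw [hK]
      · funext i
        show - ∑ j ∈ I, ((A i j : ℤ) : ℝ) *
            canonVecD (patSub p ⊓ annSub univ I A) (univ \ I) D j =
          - ∑ j ∈ I, ((B i j : ℤ) : ℝ) *
            canonVecD (patSub p ⊓ annSub univ I B) (univ \ I) D j
        rw [hK]
        congr 1
        refine Finset.sum_congr rfl fun j hj => ?_
        rw [hAB i j (fun h => (mem_sdiff.1 h.2).2 hj)])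
    (by
      intro A _ hRV
      obtain ⟨hex, hall⟩ := hRV
      obtain ⟨hmem, hnz⟩ := canonVecD_spec hex
      refine ⟨fun i _ => ?_, hnz⟩
      have h0 := hall i _ hmem
      unfold sdot at h0
      rw [← Finset.sum_sdiff (Finset.subset_univ I)] at h0
      linarith)
  have hp : (0 : ℝ) < 2 ^ (Nat.choose ((univ \ I).card + 1) 2) := by positivity
  have h' : (((symSet ι).filter fun A => RVEv p I D A).card : ℝ) *
      2 ^ (Nat.choose ((univ \ I).card + 1) 2) ≤
      (ρ ^ ((univ \ I).card - D) * ((symSet ι).card : ℝ)) *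
        2 ^ (Nat.choose ((univ \ I).card + 1) 2) := by
    calc _ ≤ _ := h
      _ = _ := by ring
  exact le_of_mul_le_mul_right h' hp

end general

end Vale.Agent.Lib.P160
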