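import Vale.Agent.Lib.P160.RV1
import Vale.Agent.Lib.P160.Values2
import Vale.Agent.Lib.P160.Defs6
import Vale.Agent.Lib.P160.helper45.Kill

namespace Vale.Agent.Lib.P160

open Finset Matrix

open Classical in
/-- The event set of `rareProb R n`. -/
noncomputable def rvSet (R n : ℕ) : Finset (Matrix (Fin n) (Fin n) ℤˣ) :=
  (symSet (Fin n)).filter fun A => ∃ v : Fin n → ℝ, v ≠ 0 ∧
    ((univ.image v).filter fun y => (univ.filter fun j => v j = y).card < 8).card ≤ R ∧
    toR A *ᵥ v = 0

open Classical in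
theorem mem_rvSet {R n : ℕ} {A : Matrix (Fin n) (Fin n) ℤˣ} :
    A ∈ rvSet R n ↔ A ∈ symSet (Fin n) ∧ ∃ v : Fin n → ℝ, v ≠ 0 ∧
    ((univ.image v).filter fun y => (univ.filter fun j => v j = y).card < 8).card ≤ R ∧
    toR A *ᵥ v = 0 := by
  unfold rvSet
  rw [mem_filter]

theorem rareProb_eq (R n : ℕ) :
    rareProb R n = ((rvSet R n).card : ℝ) / ((symSignMatrices n).card : ℝ) := rfl

open Classical in
/-- The union of the events for patterns with more than `M` classes. -/
noncomputable def rvUnion (M n : ℕ) : Finset (Matrix (Fin n) (Fin n) ℤˣ) :=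
  ((range (n + 1)).filter fun m => M < m ∧ 6 * m ≤ n).biUnion fun m =>
    (univ : Finset (Fin n → Fin m)).biUnion fun p =>
      ((univ : Finset (Fin n)).powerset.filter fun I => I.card < m).biUnion fun I =>
        (symSet (Fin n)).filter fun A => RVEv p I (m / 4) A

open Classical in
theorem rvSet_subset (R M n : ℕ) (hM4 : 4 * R ≤ M) (hM5 : 5 ≤ M) :
    rvSet R n ⊆ vlSet M n ∪ rvUnion M n := by
  intro A hA
  rw [mem_rvSet] at hA
  obtain ⟨hA1, v, hv0, hrare, hAv⟩ := hA
  rw [mem_union]
  by_cases hm : (univ.image v).card ≤ M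
  · left
    exact mem_vlSet.2 ⟨hA1, v, hv0, hm, hAv⟩
  · right
    rw [not_le] at hm
    have hr : 4 * ((univ.image v).filter fun y =>
        (univ.filter fun j => v j = y).card < 8).card < (univ.image v).card := by omega
    have h6 := H45.six_mul_le v rfl hr
    obtain ⟨p, hp⟩ := exists_pattern v (le_refl (univ.image v).card)
    obtain ⟨I, -, hIcard, hall⟩ := exists_rows_sub (patSub p) A _ ∅ le_rfl
    have hvK : ∀ I : Finset (Fin n), v ∈ patSub p ⊓ annSub univ I A := by
      intro I
      refine Submodule.mem_inf.2 ⟨hp, mem_annSub.2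
        ⟨fun j hj => absurd (mem_univ j) hj, fun r _ => ?_⟩⟩
      rw [← toR_mulVec, hAv]; rfl
    have hpos : 0 < Module.finrank ℝ ↥(patSub p ⊓ annSub univ I A) := by
      rw [Module.finrank_pos_iff_exists_ne_zero]
      exact ⟨⟨v, hvK I⟩, fun h => hv0 (congrArg Subtype.val h)⟩
    have hle0 : Module.finrank ℝ ↥(patSub p ⊓ annSub univ ∅ A) ≤ (univ.image v).card :=
      (Submodule.finrank_mono inf_le_left).trans (finrank_patSub_le p)
    have hI : I.card < (univ.image v).card := by
      simp only [Finset.card_empty, zero_add] at hIcard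
      omega
    have hkill := H45.kill_lemma v I rfl hr hI (by omega)
    unfold rvUnion
    rw [mem_biUnion]
    refine ⟨(univ.image v).card, mem_filter.2 ⟨mem_range.2 (by omega), hm, h6⟩, ?_⟩
    rw [mem_biUnion]
    refine ⟨p, mem_univ p, ?_⟩
    rw [mem_biUnion]
    refine ⟨I, mem_filter.2 ⟨Finset.mem_powerset.2 (Finset.subset_univ I), hI⟩, ?_⟩
    rw [mem_filter]
    exact ⟨hA1, ⟨v, hvK I, hkill⟩, hall⟩

open Classical in
theorem rvUnion_card_le (M n : ℕ) (ρ : ℕ → ℝ) (hρ0 : ∀ m, 0 ≤ ρ m)
    (hrow : ∀ m, M < m → RowBound (m / 4) (ρ m))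
    (hnum : ∀ m, M < m → 6 * m ≤ n →
      ρ m ≤ 1 ∧ (m : ℝ) ^ n * 2 ^ n * ρ m ^ (n - m - m / 4) ≤ (1 / 8) ^ n) :
    ((rvUnion M n).card : ℝ) ≤ (1 / 4) ^ n * ((symSet (Fin n)).card : ℝ) := by
  have hN : (0 : ℝ) ≤ ((symSet (Fin n)).card : ℝ) := Nat.cast_nonneg _
  -- one (m, p, I)
  have hone : ∀ m, M < m → 6 * m ≤ n → ∀ (p : Fin n → Fin m) (I : Finset (Fin n)),
      I.card < m →
      (((symSet (Fin n)).filter fun A => RVEv p I (m / 4) A).card : ℝ) ≤
        ρ m ^ (n - m - m / 4) * ((symSet (Fin n)).card : ℝ) := by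
    intro m hm h6 p I hI
    have h1 := rv_count p I (m / 4) (ρ m) (hρ0 m) (hrow m hm)
    have hT : (univ \ I).card = n - I.card := by
      rw [Finset.card_univ_sdiff, Fintype.card_fin]
    have hexp : n - m - m / 4 ≤ (univ \ I).card - m / 4 := by
      rw [hT]; omega
    have hpow : ρ m ^ ((univ \ I).card - m / 4) ≤ ρ m ^ (n - m - m / 4) :=
      pow_le_pow_of_le_one (hρ0 m) (hnum m hm h6).1 hexp
    exact h1.trans (mul_le_mul_of_nonneg_right hpow hN)
  -- one (m, p)
  have htwo : ∀ m, M < m → 6 * m ≤ n → ∀ (p : Fin n → Fin m),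
      ((((univ : Finset (Fin n)).powerset.filter fun I => I.card < m).biUnion fun I =>
          (symSet (Fin n)).filter fun A => RVEv p I (m / 4) A).card : ℝ) ≤
        (2 : ℝ) ^ n * (ρ m ^ (n - m - m / 4) * ((symSet (Fin n)).card : ℝ)) := by
    intro m hm h6 p
    have h1 := Finset.card_biUnion_le
      (s := (univ : Finset (Fin n)).powerset.filter fun I => I.card < m)
      (t := fun I => (symSet (Fin n)).filter fun A => RVEv p I (m / 4) A)
    have h1' : ((((univ : Finset (Fin n)).powerset.filter fun I => I.card < m).biUnion fun I =>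
          (symSet (Fin n)).filter fun A => RVEv p I (m / 4) A).card : ℝ) ≤
        ∑ I ∈ (univ : Finset (Fin n)).powerset.filter fun I => I.card < m,
          (((symSet (Fin n)).filter fun A => RVEv p I (m / 4) A).card : ℝ) := by
      exact_mod_cast h1
    have h2 : ∑ I ∈ (univ : Finset (Fin n)).powerset.filter fun I => I.card < m,
          (((symSet (Fin n)).filter fun A => RVEv p I (m / 4) A).card : ℝ) ≤
        ∑ _I ∈ (univ : Finset (Fin n)).powerset.filter fun I => I.card < m,
          ρ m ^ (n - m - m / 4) * ((symSet (Fin n)).card : ℝ) := by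
      refine Finset.sum_le_sum fun I hI => ?_
      exact hone m hm h6 p I (mem_filter.1 hI).2
    have h3 : (((univ : Finset (Fin n)).powerset.filter fun I => I.card < m).card : ℝ) ≤
        (2 : ℝ) ^ n := by
      have := Finset.card_filter_le ((univ : Finset (Fin n)).powerset) (fun I => I.card < m)
      rw [Finset.card_powerset, Finset.card_univ, Fintype.card_fin] at this
      exact_mod_cast this
    calc _ ≤ _ := h1'
      _ ≤ _ := h2
      _ = (((univ : Finset (Fin n)).powerset.filter fun I => I.card < m).card : ℝ) *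
            (ρ m ^ (n - m - m / 4) * ((symSet (Fin n)).card : ℝ)) := by
          rw [Finset.sum_const, nsmul_eq_mul]
      _ ≤ _ := mul_le_mul_of_nonneg_right h3
          (mul_nonneg (pow_nonneg (hρ0 m) _) hN)
  -- one m
  have hthree : ∀ m, M < m → 6 * m ≤ n →
      ((((univ : Finset (Fin n → Fin m)).biUnion fun p =>
        ((univ : Finset (Fin n)).powerset.filter fun I => I.card < m).biUnion fun I =>
          (symSet (Fin n)).filter fun A => RVEv p I (m / 4) A).card : ℝ)) ≤
        (1 / 8) ^ n * ((symSet (Fin n)).card : ℝ) := by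
    intro m hm h6
    have h1 := Finset.card_biUnion_le (s := (univ : Finset (Fin n → Fin m)))
      (t := fun p => ((univ : Finset (Fin n)).powerset.filter fun I => I.card < m).biUnion fun I =>
          (symSet (Fin n)).filter fun A => RVEv p I (m / 4) A)
    have h1' : ((((univ : Finset (Fin n → Fin m)).biUnion fun p =>
        ((univ : Finset (Fin n)).powerset.filter fun I => I.card < m).biUnion fun I =>
          (symSet (Fin n)).filter fun A => RVEv p I (m / 4) A).card : ℝ)) ≤
      ∑ p : Fin n → Fin m,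
        ((((univ : Finset (Fin n)).powerset.filter fun I => I.card < m).biUnion fun I =>
          (symSet (Fin n)).filter fun A => RVEv p I (m / 4) A).card : ℝ) := by
      exact_mod_cast h1
    calc _ ≤ _ := h1'
      _ ≤ ∑ _p : Fin n → Fin m,
            (2 : ℝ) ^ n * (ρ m ^ (n - m - m / 4) * ((symSet (Fin n)).card : ℝ)) :=
          Finset.sum_le_sum fun p _ => htwo m hm h6 p
      _ = ((m : ℝ) ^ n * 2 ^ n * ρ m ^ (n - m - m / 4)) * ((symSet (Fin n)).card : ℝ) := by
          rw [Finset.sum_const, Finset.card_univ, Fintype.card_fun, Fintype.card_fin,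
            Fintype.card_fin, nsmul_eq_mul]
          push_cast
          ring
      _ ≤ _ := mul_le_mul_of_nonneg_right (hnum m hm h6).2 hN
  -- all m
  unfold rvUnion
  have h1 := Finset.card_biUnion_le
    (s := (range (n + 1)).filter fun m => M < m ∧ 6 * m ≤ n)
    (t := fun m => (univ : Finset (Fin n → Fin m)).biUnion fun p =>
      ((univ : Finset (Fin n)).powerset.filter fun I => I.card < m).biUnion fun I =>
        (symSet (Fin n)).filter fun A => RVEv p I (m / 4) A)
  have h1' : (((((range (n + 1)).filter fun m => M < m ∧ 6 * m ≤ n).biUnion fun m =>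
      (univ : Finset (Fin n → Fin m)).biUnion fun p =>
        ((univ : Finset (Fin n)).powerset.filter fun I => I.card < m).biUnion fun I =>
          (symSet (Fin n)).filter fun A => RVEv p I (m / 4) A).card : ℝ)) ≤
      ∑ m ∈ (range (n + 1)).filter fun m => M < m ∧ 6 * m ≤ n,
        ((((univ : Finset (Fin n → Fin m)).biUnion fun p =>
          ((univ : Finset (Fin n)).powerset.filter fun I => I.card < m).biUnion fun I =>
            (symSet (Fin n)).filter fun A => RVEv p I (m / 4) A).card : ℝ)) := by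
    exact_mod_cast h1
  have hcnt : ((((range (n + 1)).filter fun m => M < m ∧ 6 * m ≤ n).card : ℝ)) ≤ (2 : ℝ) ^ n := by
    have h2 := Finset.card_filter_le (range (n + 1)) (fun m => M < m ∧ 6 * m ≤ n)
    rw [Finset.card_range] at h2
    have h3 : n + 1 ≤ 2 ^ n := Nat.lt_two_pow_self
    have h4 : ((range (n + 1)).filter fun m => M < m ∧ 6 * m ≤ n).card ≤ 2 ^ n := h2.trans h3
    exact_mod_cast h4
  calc _ ≤ _ := h1'
    _ ≤ ∑ _m ∈ (range (n + 1)).filter fun m => M < m ∧ 6 * m ≤ n,
          (1 / 8 : ℝ) ^ n * ((symSet (Fin n)).card : ℝ) :=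
        Finset.sum_le_sum fun m hm =>
          hthree m (mem_filter.1 hm).2.1 (mem_filter.1 hm).2.2
    _ = ((((range (n + 1)).filter fun m => M < m ∧ 6 * m ≤ n).card : ℝ)) *
          ((1 / 8 : ℝ) ^ n * ((symSet (Fin n)).card : ℝ)) := by
        rw [Finset.sum_const, nsmul_eq_mul]
    _ ≤ (2 : ℝ) ^ n * ((1 / 8 : ℝ) ^ n * ((symSet (Fin n)).card : ℝ)) :=
        mul_le_mul_of_nonneg_right hcnt (mul_nonneg (by positivity) hN)
    _ = (1 / 4) ^ n * ((symSet (Fin n)).card : ℝ) := by
        rw [← mul_assoc, ← mul_pow]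
        norm_num

end Vale.Agent.Lib.P160
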