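import Vale.Agent.Lib.P160.RV2
import Vale.Agent.Lib.P160.helper6.RvNum
import Vale.Agent.Lib.P160.helper4.SSRow

namespace Vale.Agent.Lib.P160

open Finset Matrix

theorem rareProb_le_one (R n : ℕ) : rareProb R n ≤ 1 := by
  classical
  rw [rareProb_eq]
  have hNpos : (0 : ℝ) < ((symSignMatrices n).card : ℝ) := by
    rw [card_symSignMatrices]
    positivity
  rw [div_le_one hNpos]
  have h : (rvSet R n).card ≤ (symSignMatrices n).card := by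
    rw [symSignMatrices_eq]
    unfold rvSet
    exact Finset.card_filter_le _ _
  exact_mod_cast h

theorem rareProb_le_aux {C0 C1 : ℝ} {m₀ : ℕ} (hC0 : 0 < C0)
    (hss : ∀ (κ : Type) [Fintype κ] [DecidableEq κ] (w : κ → ℝ) (c : ℝ) (D : ℕ), D ≤ dabs w →
      ((univ.filter fun x : κ → ℤˣ => sdot x w = c).card : ℝ) * ((D : ℝ) * Real.sqrt (D : ℝ)) ≤
        C0 * 2 ^ Fintype.card κ)
    (hm8 : 8 ≤ m₀)
    (hnum : ∀ m n : ℕ, m₀ ≤ m → 6 * m ≤ n →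
      C0 / (((m / 4 : ℕ) : ℝ) * Real.sqrt ((m / 4 : ℕ) : ℝ)) ≤ 1 ∧
      (m : ℝ) ^ n * 2 ^ n *
        (C0 / (((m / 4 : ℕ) : ℝ) * Real.sqrt ((m / 4 : ℕ) : ℝ))) ^ (n - m - m / 4) ≤ (1 / 8) ^ n)
    (hC1 : ∀ (m n : ℕ), 1 ≤ m → 2 ^ 60 * m ^ 2 ≤ n →
      valuesProb m n ≤ ((n : ℝ) * ((n : ℝ) - 1)) / 2 ^ n + C1 * (243 / 512) ^ n)
    {R n : ℕ} (hR : 2 ^ 64 * R ^ 2 ≤ n) (hn : 2 ^ 60 * m₀ ^ 2 ≤ n) :
    rareProb R n ≤ ((n : ℝ) * ((n : ℝ) - 1)) / 2 ^ n + (C1 + 1) * (243 / 512) ^ n := by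
  classical
  set M := max m₀ (4 * R) with hMdef
  have hM0 : m₀ ≤ M := le_max_left _ _
  have hM4 : 4 * R ≤ M := le_max_right _ _
  have hMn : 2 ^ 60 * M ^ 2 ≤ n := by
    rcases max_choice m₀ (4 * R) with h | h
    · rw [hMdef, h]; exact hn
    · rw [hMdef, h]
      calc 2 ^ 60 * (4 * R) ^ 2 = 2 ^ 64 * R ^ 2 := by ring
        _ ≤ n := hR
  have hV := hC1 M n (by omega) hMn
  rw [valuesProb_eq] at hV
  rw [rareProb_eq]
  have hNpos : (0 : ℝ) < ((symSignMatrices n).card : ℝ) := by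
    rw [card_symSignMatrices]
    positivity
  have hsym : ((symSet (Fin n)).card : ℝ) = ((symSignMatrices n).card : ℝ) := by
    rw [symSignMatrices_eq]
  -- the row bounds
  let ρ : ℕ → ℝ := fun m => C0 / (((m / 4 : ℕ) : ℝ) * Real.sqrt ((m / 4 : ℕ) : ℝ))
  have hρ0 : ∀ m, 0 ≤ ρ m := by
    intro m
    exact div_nonneg hC0.le (mul_nonneg (Nat.cast_nonneg _) (Real.sqrt_nonneg _))
  have hrow : ∀ m, M < m → RowBound (m / 4) (ρ m) := by
    intro m hm κ _ _ w c hD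
    have hd : 0 < m / 4 := by
      have : 8 ≤ m := by omega
      omega
    have hdr : (0 : ℝ) < ((m / 4 : ℕ) : ℝ) := by exact_mod_cast hd
    have hpos : (0 : ℝ) < ((m / 4 : ℕ) : ℝ) * Real.sqrt ((m / 4 : ℕ) : ℝ) :=
      mul_pos hdr (Real.sqrt_pos.2 hdr)
    have h1 := hss κ w c (m / 4) hD
    show _ ≤ C0 / (((m / 4 : ℕ) : ℝ) * Real.sqrt ((m / 4 : ℕ) : ℝ)) * 2 ^ Fintype.card κ
    rw [div_mul_eq_mul_div, le_div_iff₀ hpos]
    exact h1
  have hU := rvUnion_card_le M n ρ hρ0 hrow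
    (fun m hm h6 => hnum m n (by omega) h6)
  rw [hsym] at hU
  have h0 := (Finset.card_le_card (rvSet_subset R M n hM4 (by omega))).trans
    (Finset.card_union_le _ _)
  have h0' : ((rvSet R n).card : ℝ) ≤ ((vlSet M n).card : ℝ) + ((rvUnion M n).card : ℝ) := by
    exact_mod_cast h0
  have h4 : ((rvSet R n).card : ℝ) / ((symSignMatrices n).card : ℝ) ≤
      ((vlSet M n).card : ℝ) / ((symSignMatrices n).card : ℝ) + (1 / 4) ^ n := by
    rw [div_le_iff₀ hNpos, add_mul, div_mul_cancel₀ _ hNpos.ne']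
    linarith
  have h5 : (1 / 4 : ℝ) ^ n ≤ (243 / 512) ^ n :=
    pow_le_pow_left₀ (by norm_num) (by norm_num) n
  rw [add_mul, one_mul]
  linarith

theorem exists_const_rareProb_le :
    ∃ C : ℝ, ∀ (R n : ℕ), 2 ^ 64 * R ^ 2 ≤ n →
      rareProb R n ≤ ((n : ℝ) * ((n : ℝ) - 1)) / 2 ^ n + C * (243 / 512) ^ n := by
  obtain ⟨C0, hC0, hss⟩ := H4.ss_row
  obtain ⟨m₀, hm8, hnum⟩ := H6.rv_num C0 hC0
  obtain ⟨C1, hC1⟩ := exists_const_valuesProb_le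
  refine ⟨|C1| + 1 + (512 / 243) ^ (2 ^ 60 * m₀ ^ 2), fun R n hR => ?_⟩
  have hθ : (0 : ℝ) ≤ (243 / 512 : ℝ) ^ n := by positivity
  have hmain : (0 : ℝ) ≤ ((n : ℝ) * ((n : ℝ) - 1)) / 2 ^ n := by
    rcases Nat.eq_zero_or_pos n with h | h
    · subst h; simp
    · have h1 : (1 : ℝ) ≤ (n : ℝ) := by exact_mod_cast h
      have : (0 : ℝ) ≤ (n : ℝ) * ((n : ℝ) - 1) := mul_nonneg (by linarith) (by linarith)
      positivity
  have hbig : (0 : ℝ) ≤ (512 / 243 : ℝ) ^ (2 ^ 60 * m₀ ^ 2) := by positivity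
  by_cases hn : 2 ^ 60 * m₀ ^ 2 ≤ n
  · have h1 := rareProb_le_aux hC0 hss hm8 hnum hC1 hR hn
    have h2 : (C1 + 1) * (243 / 512 : ℝ) ^ n ≤
        (|C1| + 1 + (512 / 243) ^ (2 ^ 60 * m₀ ^ 2)) * (243 / 512 : ℝ) ^ n := by
      refine mul_le_mul_of_nonneg_right ?_ hθ
      have := le_abs_self C1
      linarith
    linarith
  · rw [not_le] at hn
    have h1 := rareProb_le_one R n
    have h2 : (1 : ℝ) ≤ (512 / 243 : ℝ) ^ (2 ^ 60 * m₀ ^ 2) * (243 / 512 : ℝ) ^ n := by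
      have h3 : (512 / 243 : ℝ) ^ n ≤ (512 / 243 : ℝ) ^ (2 ^ 60 * m₀ ^ 2) :=
        pow_le_pow_right₀ (by norm_num) hn.le
      have h4 : (512 / 243 : ℝ) ^ n * (243 / 512 : ℝ) ^ n = 1 := by
        rw [← mul_pow]; norm_num
      calc (1 : ℝ) = (512 / 243 : ℝ) ^ n * (243 / 512 : ℝ) ^ n := h4.symm
        _ ≤ _ := mul_le_mul_of_nonneg_right h3 hθ
    have h5 : (0 : ℝ) ≤ (|C1| + 1) * (243 / 512 : ℝ) ^ n :=
      mul_nonneg (by positivity) hθ
    have h6 : (|C1| + 1 + (512 / 243) ^ (2 ^ 60 * m₀ ^ 2)) * (243 / 512 : ℝ) ^ n =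
        (|C1| + 1) * (243 / 512 : ℝ) ^ n +
          (512 / 243 : ℝ) ^ (2 ^ 60 * m₀ ^ 2) * (243 / 512 : ℝ) ^ n := by ring
    rw [h6]
    linarith

open Classical in
theorem biUnion_Ev_subset_rvSet {R n : ℕ} (hR : 2 ≤ R) (hn : 10 ≤ n) :
    ((univ : Finset (Fin n)).offDiag).biUnion Ev ⊆ rvSet R n := by
  intro A hA
  rw [mem_biUnion] at hA
  obtain ⟨p, hp, hAp⟩ := hA
  have hne : p.1 ≠ p.2 := (mem_offDiag.1 hp).2.2
  unfold Ev at hAp
  rw [mem_rvSet]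
  have hnull := pairEvent_null hne hAp
  have hs : A ∈ symSet (Fin n) := mem_symSet.2 (mem_pairEvent.1 hAp).1
  refine ⟨hs, ?_⟩
  refine ⟨fun l => ((((Pi.single p.1 1 - Pi.single p.2 ((sg p : ℤˣ) : ℤ) : Fin n → ℤ) l : ℤ)) : ℝ),
    ?_⟩
  refine ⟨?_, ?_, hnull⟩
  · intro h
    have := congrFun h p.1
    simp [hne] at this
  · set w : Fin n → ℝ := fun l =>
      ((((Pi.single p.1 1 - Pi.single p.2 ((sg p : ℤˣ) : ℤ) : Fin n → ℤ) l : ℤ)) : ℝ) with hw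
    have hzero : 8 ≤ (univ.filter fun j => w j = 0).card := by
      have hsub : (univ : Finset (Fin n)) \ {p.1, p.2} ⊆ univ.filter fun j => w j = 0 := by
        intro l hl
        rw [mem_sdiff, mem_insert, mem_singleton] at hl
        rw [mem_filter]
        refine ⟨mem_univ l, ?_⟩
        have h1 : l ≠ p.1 := fun h => hl.2 (Or.inl h)
        have h2 : l ≠ p.2 := fun h => hl.2 (Or.inr h)
        simp [hw, h1, h2]
      have hc := Finset.card_le_card hsub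
      have hc2 : n - 2 ≤ ((univ : Finset (Fin n)) \ {p.1, p.2}).card := by
        have := Finset.le_card_sdiff ({p.1, p.2} : Finset (Fin n)) univ
        rw [Finset.card_univ, Fintype.card_fin] at this
        have h2 : ({p.1, p.2} : Finset (Fin n)).card ≤ 2 := Finset.card_le_two
        omega
      omega
    have hsub : ((univ.image w).filter fun y => (univ.filter fun j => w j = y).card < 8) ⊆
        {1, -((((sg p : ℤˣ) : ℤ)) : ℝ)} := by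
      intro y hy
      rw [mem_filter, mem_image] at hy
      obtain ⟨⟨l, -, rfl⟩, hlt⟩ := hy
      rw [mem_insert, mem_singleton]
      rcases pair_vec_values p.1 p.2 hne ((sg p : ℤˣ) : ℤ) l with h | h | h
      · exact Or.inl h
      · exact Or.inr h
      · exfalso
        have h' : w l = 0 := h
        rw [h'] at hlt
        omega
    exact (Finset.card_le_card hsub).trans (Finset.card_le_two.trans hR)

theorem rareProb_ge {R n : ℕ} (hR : 2 ≤ R) (hn : 10 ≤ n) : lowerB n ≤ rareProb R n := by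
  rw [rareProb_eq]
  exact prob_ge n _ (biUnion_Ev_subset_rvSet hR hn)

theorem rareProb_le_singProb (R n : ℕ) : rareProb R n ≤ singProb n := by
  refine symProb_le_singProb n _ ?_
  rintro M ⟨v, hv, -, hMv⟩
  exact Matrix.exists_mulVec_eq_zero_iff.1 ⟨v, hv, hMv⟩

theorem rare_sqrt_params {n : ℕ} (hn : 2 ^ 66 ≤ n) :
    2 ≤ Nat.sqrt n / 2 ^ 32 ∧ 2 ^ 64 * (Nat.sqrt n / 2 ^ 32) ^ 2 ≤ n ∧ 10 ≤ n := by
  have h1 : 2 ^ 33 ≤ Nat.sqrt n := by
    rw [Nat.le_sqrt]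
    calc 2 ^ 33 * 2 ^ 33 = 2 ^ 66 := by norm_num
      _ ≤ n := hn
  refine ⟨?_, ?_, ?_⟩
  · rw [Nat.le_div_iff_mul_le (by positivity)]
    calc 2 * 2 ^ 32 = 2 ^ 33 := by norm_num
      _ ≤ Nat.sqrt n := h1
  · have h2 : Nat.sqrt n / 2 ^ 32 * 2 ^ 32 ≤ Nat.sqrt n := Nat.div_mul_le_self _ _
    have h3 : Nat.sqrt n * Nat.sqrt n ≤ n := Nat.sqrt_le n
    calc 2 ^ 64 * (Nat.sqrt n / 2 ^ 32) ^ 2 = (Nat.sqrt n / 2 ^ 32 * 2 ^ 32) ^ 2 := by ring
      _ ≤ Nat.sqrt n ^ 2 := Nat.pow_le_pow_left h2 2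
      _ = Nat.sqrt n * Nat.sqrt n := by ring
      _ ≤ n := h3
  · calc 10 ≤ 2 ^ 66 := by norm_num
      _ ≤ n := hn

theorem rareProb_sqrt_tendsto :
    Filter.Tendsto (fun n : ℕ => rareProb (Nat.sqrt n / 2 ^ 32) n * 2 ^ n / (n : ℝ) ^ 2)
      Filter.atTop (nhds 1) := by
  obtain ⟨C, hC⟩ := exists_const_rareProb_le
  exact tendsto_ratio (C := C) (θ := 243 / 512) (by norm_num) (by norm_num) (2 ^ 66)
    (fun n hn => rareProb_ge (rare_sqrt_params hn).1 (rare_sqrt_params hn).2.2)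
    (fun n hn => hC _ n (rare_sqrt_params hn).2.1)

end Vale.Agent.Lib.P160
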