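import Vale.Agent.Lib.P160.RV1
import Vale.Agent.Lib.P160.Values2
import Vale.Agent.Lib.P160.Fam2
import Vale.Agent.Lib.P160.helper86.Relabel
import Vale.Agent.Lib.P160.helper45.ImageDabs
import Vale.Agent.Lib.P160.helper69.CardLabels
import Vale.Agent.Lib.P160.RV.Defs2

namespace Vale.Agent.Lib.P160

open Finset Matrix

theorem mem_patSub_iff {n m : ℕ} (p : Fin n → Fin m) (u : Fin n → ℝ) :
    u ∈ patSub p ↔ ∀ j j', p j = p j' → u j = u j' := by
  constructor
  · rintro ⟨c, rfl⟩ j j' h
    show c (p j) = c (p j')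
    rw [h]
  · intro h
    classical
    let c : Fin m → ℝ := fun l => if hl : ∃ j, p j = l then u (Classical.choose hl) else 0
    refine ⟨c, ?_⟩
    funext j
    show c (p j) = u j
    have hj : ∃ j', p j' = p j := ⟨j, rfl⟩
    have hc : c (p j) = u (Classical.choose hj) := by
      simp only [c]
      rw [dif_pos hj]
    rw [hc]
    exact h _ _ (Classical.choose_spec hj)

theorem dabsOn_le_card_image {n : ℕ} (T : Finset (Fin n)) (v : Fin n → ℝ) :
    dabsOn T v ≤ (univ.image v).card := by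
  classical
  unfold dabsOn dabs
  have hsub : ((univ.filter fun j : {k // k ∈ T} => v j.1 ≠ 0).image fun j => |v j.1|) ⊆
      (univ.image v).image fun y => |y| := by
    intro a ha
    rw [mem_image] at ha
    obtain ⟨j, -, rfl⟩ := ha
    exact mem_image.2 ⟨v j.1, mem_image.2 ⟨j.1, mem_univ _, rfl⟩, rfl⟩
  exact (Finset.card_le_card hsub).trans Finset.card_image_le

/-- The family of subspaces for the vectors with few values outside a small set. -/
noncomputable def outFam (m n L : ℕ) : Finset (Submodule ℝ (Fin n → ℝ)) := by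
  classical
  exact ((((univ : Finset (Fin n)).powerset.filter fun I => I.card < m) ×ˢ
    (univ : Finset (Fin n → Fin L))).image fun x => patOut x.1 x.2)

open Classical in
/-- The union of the events for the vectors with many absolute values outside the rows. -/
noncomputable def rvUnion1 (m n s : ℕ) : Finset (Matrix (Fin n) (Fin n) ℤˣ) :=
  ((range (m + 1)).filter fun D => s ≤ D).biUnion fun D =>
    ((univ : Finset (Fin n)).powerset.filter fun I => I.card < m).biUnion fun I =>
      ((univ : Finset (Fin n → Fin ((2 * D + 1) + I.card))).filter fun p' =>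
        ∀ j, j ∉ I → (p' j).val < 2 * D + 1).biUnion fun p' =>
        (symSet (Fin n)).filter fun A => RVEv p' I D A

open Classical in
theorem vlSet_subset_lin (m n s : ℕ) :
    vlSet m n ⊆ famSet (outFam m n (2 * s + 1)) ∪ rvUnion1 m n s := by
  intro A hA
  rw [mem_vlSet] at hA
  obtain ⟨hA1, v, hv0, hcard, hAv⟩ := hA
  rw [mem_union]
  obtain ⟨p₀, hp₀⟩ := H86.exists_exact_pattern v hcard
  have hvp₀ : v ∈ patSub p₀ := (mem_patSub_iff p₀ v).2 fun j j' h => (hp₀ j j').1 h
  obtain ⟨I, -, hIcard, hall⟩ := exists_rows_sub (patSub p₀) A _ ∅ le_rfl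
  have hann : ∀ I : Finset (Fin n), v ∈ annSub univ I A := by
    intro I
    refine mem_annSub.2 ⟨fun j hj => absurd (mem_univ j) hj, fun r _ => ?_⟩
    rw [← toR_mulVec, hAv]; rfl
  have hvK : v ∈ patSub p₀ ⊓ annSub univ I A := Submodule.mem_inf.2 ⟨hvp₀, hann I⟩
  have hpos : 0 < Module.finrank ℝ ↥(patSub p₀ ⊓ annSub univ I A) := by
    rw [Module.finrank_pos_iff_exists_ne_zero]
    exact ⟨⟨v, hvK⟩, fun h => hv0 (congrArg Subtype.val h)⟩
  have hle0 : Module.finrank ℝ ↥(patSub p₀ ⊓ annSub univ ∅ A) ≤ m :=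
    (Submodule.finrank_mono inf_le_left).trans (finrank_patSub_le p₀)
  have hI : I.card < m := by
    simp only [Finset.card_empty, zero_add] at hIcard
    omega
  have hval : ((univ \ I).image v).card ≤ 2 * dabsOn (univ \ I) v + 1 :=
    H45.card_image_le_dabs v (univ \ I)
  have hDm : dabsOn (univ \ I) v ≤ m := (dabsOn_le_card_image _ v).trans hcard
  have hImem : I ∈ (univ : Finset (Fin n)).powerset.filter fun I => I.card < m :=
    mem_filter.2 ⟨Finset.mem_powerset.2 (Finset.subset_univ I), hI⟩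
  by_cases hD : dabsOn (univ \ I) v < s
  · left
    have hL : ((univ \ I).image v).card ≤ 2 * s + 1 := by omega
    obtain ⟨p', hp', hlt⟩ := H86.exists_relabel v I (2 * s + 1) hL
    let q : Fin n → Fin (2 * s + 1) := fun j =>
      if h : (p' j).val < 2 * s + 1 then ⟨(p' j).val, h⟩ else ⟨0, by omega⟩
    have hq : ∀ j, j ∉ I → (q j).val = (p' j).val := by
      intro j hj
      simp only [q]
      rw [dif_pos (hlt j hj)]
    have hvq : v ∈ patOut I q := by
      rw [mem_patOut]
      intro j j' hj hj' h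
      have h1 : (p' j).val = (p' j').val := by
        rw [← hq j hj, ← hq j' hj', h]
      exact (hp' j j').1 (Fin.ext h1)
    rw [mem_famSet]
    refine ⟨hA1, patOut I q, ?_, v, hvq, hv0, hAv⟩
    unfold outFam
    rw [mem_image]
    exact ⟨(I, q), mem_product.2 ⟨hImem, mem_univ q⟩, rfl⟩
  · right
    rw [not_lt] at hD
    obtain ⟨p', hp', hlt⟩ := H86.exists_relabel v I (2 * dabsOn (univ \ I) v + 1) hval
    have hvp' : v ∈ patSub p' := (mem_patSub_iff p' v).2 fun j j' h => (hp' j j').1 h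
    have hsub : patSub p' ≤ patSub p₀ := by
      intro u hu
      rw [mem_patSub_iff] at hu ⊢
      intro j j' h
      exact hu j j' ((hp' j j').2 ((hp₀ j j').1 h))
    unfold rvUnion1
    rw [mem_biUnion]
    refine ⟨dabsOn (univ \ I) v, mem_filter.2 ⟨mem_range.2 (by omega), hD⟩, ?_⟩
    rw [mem_biUnion]
    refine ⟨I, hImem, ?_⟩
    rw [mem_biUnion]
    refine ⟨p', mem_filter.2 ⟨mem_univ p', hlt⟩, ?_⟩
    rw [mem_filter]
    refine ⟨hA1, ⟨v, Submodule.mem_inf.2 ⟨hvp', hann I⟩, le_rfl⟩, ?_⟩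
    intro i u hu
    exact hall i u (Submodule.mem_inf.2 ⟨hsub (Submodule.mem_inf.1 hu).1, (Submodule.mem_inf.1 hu).2⟩)

open Classical in
theorem rvUnion1_card_le (m n s : ℕ) (hmn : m ≤ n) (ρ : ℕ → ℝ) (hρ0 : ∀ D, 0 ≤ ρ D)
    (hrow : ∀ D, s ≤ D → RowBound D (ρ D))
    (hnum : ∀ D, s ≤ D → D ≤ m →
      ρ D ≤ 1 ∧ (2 : ℝ) ^ n * ((2 * D + 1 : ℕ) : ℝ) ^ n * ((2 * D + 1 + m : ℕ) : ℝ) ^ m *
        ρ D ^ (n - m - D) ≤ (1 / 8) ^ n) :
    ((rvUnion1 m n s).card : ℝ) ≤ (1 / 4) ^ n * ((symSet (Fin n)).card : ℝ) := by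
  have hN : (0 : ℝ) ≤ ((symSet (Fin n)).card : ℝ) := Nat.cast_nonneg _
  -- one (D, I, p')
  have hone : ∀ D, s ≤ D → D ≤ m → ∀ (I : Finset (Fin n)), I.card < m →
      ∀ (p' : Fin n → Fin ((2 * D + 1) + I.card)),
      (((symSet (Fin n)).filter fun A => RVEv p' I D A).card : ℝ) ≤
        ρ D ^ (n - m - D) * ((symSet (Fin n)).card : ℝ) := by
    intro D hD hDm I hI p'
    have h1 := rv_count p' I D (ρ D) (hρ0 D) (hrow D hD)
    have hT : (univ \ I).card = n - I.card := by
      rw [Finset.card_univ_sdiff, Fintype.card_fin]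
    have hexp : n - m - D ≤ (univ \ I).card - D := by
      rw [hT]; omega
    have hpow : ρ D ^ ((univ \ I).card - D) ≤ ρ D ^ (n - m - D) :=
      pow_le_pow_of_le_one (hρ0 D) (hnum D hD hDm).1 hexp
    exact h1.trans (mul_le_mul_of_nonneg_right hpow hN)
  -- one (D, I)
  have htwo : ∀ D, s ≤ D → D ≤ m → ∀ (I : Finset (Fin n)), I.card < m →
      (((((univ : Finset (Fin n → Fin ((2 * D + 1) + I.card))).filter fun p' =>
        ∀ j, j ∉ I → (p' j).val < 2 * D + 1).biUnion fun p' =>
        (symSet (Fin n)).filter fun A => RVEv p' I D A).card : ℝ)) ≤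
        (((2 * D + 1 : ℕ) : ℝ) ^ n * ((2 * D + 1 + m : ℕ) : ℝ) ^ m) *
          (ρ D ^ (n - m - D) * ((symSet (Fin n)).card : ℝ)) := by
    intro D hD hDm I hI
    have h1 := Finset.card_biUnion_le
      (s := (univ : Finset (Fin n → Fin ((2 * D + 1) + I.card))).filter fun p' =>
        ∀ j, j ∉ I → (p' j).val < 2 * D + 1)
      (t := fun p' => (symSet (Fin n)).filter fun A => RVEv p' I D A)
    have h1' : (((((univ : Finset (Fin n → Fin ((2 * D + 1) + I.card))).filter fun p' =>
        ∀ j, j ∉ I → (p' j).val < 2 * D + 1).biUnion fun p' =>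
        (symSet (Fin n)).filter fun A => RVEv p' I D A).card : ℝ)) ≤
        ∑ p' ∈ (univ : Finset (Fin n → Fin ((2 * D + 1) + I.card))).filter fun p' =>
          ∀ j, j ∉ I → (p' j).val < 2 * D + 1,
          (((symSet (Fin n)).filter fun A => RVEv p' I D A).card : ℝ) := by
      exact_mod_cast h1
    have h2 : ∑ p' ∈ (univ : Finset (Fin n → Fin ((2 * D + 1) + I.card))).filter fun p' =>
          ∀ j, j ∉ I → (p' j).val < 2 * D + 1,
          (((symSet (Fin n)).filter fun A => RVEv p' I D A).card : ℝ) ≤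
        ∑ _p' ∈ (univ : Finset (Fin n → Fin ((2 * D + 1) + I.card))).filter fun p' =>
          ∀ j, j ∉ I → (p' j).val < 2 * D + 1,
          ρ D ^ (n - m - D) * ((symSet (Fin n)).card : ℝ) :=
      Finset.sum_le_sum fun p' _ => hone D hD hDm I hI p'
    have h3n : ((univ : Finset (Fin n → Fin ((2 * D + 1) + I.card))).filter fun p' =>
          ∀ j, j ∉ I → (p' j).val < 2 * D + 1).card ≤
        (2 * D + 1) ^ n * (2 * D + 1 + m) ^ m := by
      refine (H69.card_labels I (2 * D + 1) I.card (by omega)).trans ?_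
      refine Nat.mul_le_mul_left _ ?_
      calc (2 * D + 1 + I.card) ^ I.card ≤ (2 * D + 1 + m) ^ I.card :=
            Nat.pow_le_pow_left (by omega) _
        _ ≤ (2 * D + 1 + m) ^ m := Nat.pow_le_pow_right (by omega) hI.le
    have h3 : ((((univ : Finset (Fin n → Fin ((2 * D + 1) + I.card))).filter fun p' =>
          ∀ j, j ∉ I → (p' j).val < 2 * D + 1).card : ℝ)) ≤
        ((2 * D + 1 : ℕ) : ℝ) ^ n * ((2 * D + 1 + m : ℕ) : ℝ) ^ m := by
      exact_mod_cast h3n
    calc _ ≤ _ := h1'
      _ ≤ _ := h2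
      _ = ((((univ : Finset (Fin n → Fin ((2 * D + 1) + I.card))).filter fun p' =>
          ∀ j, j ∉ I → (p' j).val < 2 * D + 1).card : ℝ)) *
            (ρ D ^ (n - m - D) * ((symSet (Fin n)).card : ℝ)) := by
          rw [Finset.sum_const, nsmul_eq_mul]
      _ ≤ _ := mul_le_mul_of_nonneg_right h3
          (mul_nonneg (pow_nonneg (hρ0 D) _) hN)
  -- one D
  have hthree : ∀ D, s ≤ D → D ≤ m →
      ((((((univ : Finset (Fin n)).powerset.filter fun I => I.card < m).biUnion fun I =>
      ((univ : Finset (Fin n → Fin ((2 * D + 1) + I.card))).filter fun p' =>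
        ∀ j, j ∉ I → (p' j).val < 2 * D + 1).biUnion fun p' =>
        (symSet (Fin n)).filter fun A => RVEv p' I D A).card : ℝ))) ≤
        (1 / 8) ^ n * ((symSet (Fin n)).card : ℝ) := by
    intro D hD hDm
    have h1 := Finset.card_biUnion_le
      (s := (univ : Finset (Fin n)).powerset.filter fun I => I.card < m)
      (t := fun I => ((univ : Finset (Fin n → Fin ((2 * D + 1) + I.card))).filter fun p' =>
        ∀ j, j ∉ I → (p' j).val < 2 * D + 1).biUnion fun p' =>
        (symSet (Fin n)).filter fun A => RVEv p' I D A)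
    have h1' : ((((((univ : Finset (Fin n)).powerset.filter fun I => I.card < m).biUnion fun I =>
      ((univ : Finset (Fin n → Fin ((2 * D + 1) + I.card))).filter fun p' =>
        ∀ j, j ∉ I → (p' j).val < 2 * D + 1).biUnion fun p' =>
        (symSet (Fin n)).filter fun A => RVEv p' I D A).card : ℝ))) ≤
        ∑ I ∈ (univ : Finset (Fin n)).powerset.filter fun I => I.card < m,
          (((((univ : Finset (Fin n → Fin ((2 * D + 1) + I.card))).filter fun p' =>
            ∀ j, j ∉ I → (p' j).val < 2 * D + 1).biUnion fun p' =>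
            (symSet (Fin n)).filter fun A => RVEv p' I D A).card : ℝ)) := by
      exact_mod_cast h1
    have h3 : (((univ : Finset (Fin n)).powerset.filter fun I => I.card < m).card : ℝ) ≤
        (2 : ℝ) ^ n := by
      have := Finset.card_filter_le ((univ : Finset (Fin n)).powerset) (fun I => I.card < m)
      rw [Finset.card_powerset, Finset.card_univ, Fintype.card_fin] at this
      exact_mod_cast this
    have hnn : (0 : ℝ) ≤ (((2 * D + 1 : ℕ) : ℝ) ^ n * ((2 * D + 1 + m : ℕ) : ℝ) ^ m) *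
          (ρ D ^ (n - m - D) * ((symSet (Fin n)).card : ℝ)) :=
      mul_nonneg (by positivity) (mul_nonneg (pow_nonneg (hρ0 D) _) hN)
    calc _ ≤ _ := h1'
      _ ≤ ∑ _I ∈ (univ : Finset (Fin n)).powerset.filter fun I => I.card < m,
            (((2 * D + 1 : ℕ) : ℝ) ^ n * ((2 * D + 1 + m : ℕ) : ℝ) ^ m) *
              (ρ D ^ (n - m - D) * ((symSet (Fin n)).card : ℝ)) :=
          Finset.sum_le_sum fun I hI => htwo D hD hDm I (mem_filter.1 hI).2
      _ = (((univ : Finset (Fin n)).powerset.filter fun I => I.card < m).card : ℝ) *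
            ((((2 * D + 1 : ℕ) : ℝ) ^ n * ((2 * D + 1 + m : ℕ) : ℝ) ^ m) *
              (ρ D ^ (n - m - D) * ((symSet (Fin n)).card : ℝ))) := by
          rw [Finset.sum_const, nsmul_eq_mul]
      _ ≤ (2 : ℝ) ^ n * ((((2 * D + 1 : ℕ) : ℝ) ^ n * ((2 * D + 1 + m : ℕ) : ℝ) ^ m) *
              (ρ D ^ (n - m - D) * ((symSet (Fin n)).card : ℝ))) :=
          mul_le_mul_of_nonneg_right h3 hnn
      _ = ((2 : ℝ) ^ n * ((2 * D + 1 : ℕ) : ℝ) ^ n * ((2 * D + 1 + m : ℕ) : ℝ) ^ m *
            ρ D ^ (n - m - D)) * ((symSet (Fin n)).card : ℝ) := by ring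
      _ ≤ _ := mul_le_mul_of_nonneg_right (hnum D hD hDm).2 hN
  -- all D
  unfold rvUnion1
  have h1 := Finset.card_biUnion_le
    (s := (range (m + 1)).filter fun D => s ≤ D)
    (t := fun D => ((univ : Finset (Fin n)).powerset.filter fun I => I.card < m).biUnion fun I =>
      ((univ : Finset (Fin n → Fin ((2 * D + 1) + I.card))).filter fun p' =>
        ∀ j, j ∉ I → (p' j).val < 2 * D + 1).biUnion fun p' =>
        (symSet (Fin n)).filter fun A => RVEv p' I D A)
  have h1' : ((((((range (m + 1)).filter fun D => s ≤ D).biUnion fun D =>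
    ((univ : Finset (Fin n)).powerset.filter fun I => I.card < m).biUnion fun I =>
      ((univ : Finset (Fin n → Fin ((2 * D + 1) + I.card))).filter fun p' =>
        ∀ j, j ∉ I → (p' j).val < 2 * D + 1).biUnion fun p' =>
        (symSet (Fin n)).filter fun A => RVEv p' I D A).card : ℝ))) ≤
      ∑ D ∈ (range (m + 1)).filter fun D => s ≤ D,
        ((((((univ : Finset (Fin n)).powerset.filter fun I => I.card < m).biUnion fun I =>
          ((univ : Finset (Fin n → Fin ((2 * D + 1) + I.card))).filter fun p' =>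
            ∀ j, j ∉ I → (p' j).val < 2 * D + 1).biUnion fun p' =>
            (symSet (Fin n)).filter fun A => RVEv p' I D A).card : ℝ))) := by
    exact_mod_cast h1
  have hcnt : ((((range (m + 1)).filter fun D => s ≤ D).card : ℝ)) ≤ (2 : ℝ) ^ n := by
    have h2 := Finset.card_filter_le (range (m + 1)) (fun D => s ≤ D)
    rw [Finset.card_range] at h2
    have h3 : n + 1 ≤ 2 ^ n := Nat.lt_two_pow_self
    have h4 : ((range (m + 1)).filter fun D => s ≤ D).card ≤ 2 ^ n := by omega
    exact_mod_cast h4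
  calc _ ≤ _ := h1'
    _ ≤ ∑ _D ∈ (range (m + 1)).filter fun D => s ≤ D,
          (1 / 8 : ℝ) ^ n * ((symSet (Fin n)).card : ℝ) :=
        Finset.sum_le_sum fun D hD =>
          hthree D (mem_filter.1 hD).2 (by have := mem_range.1 (mem_filter.1 hD).1; omega)
    _ = ((((range (m + 1)).filter fun D => s ≤ D).card : ℝ)) *
          ((1 / 8 : ℝ) ^ n * ((symSet (Fin n)).card : ℝ)) := by
        rw [Finset.sum_const, nsmul_eq_mul]
    _ ≤ (2 : ℝ) ^ n * ((1 / 8 : ℝ) ^ n * ((symSet (Fin n)).card : ℝ)) :=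
        mul_le_mul_of_nonneg_right hcnt (mul_nonneg (by positivity) hN)
    _ = (1 / 4) ^ n * ((symSet (Fin n)).card : ℝ) := by
        rw [← mul_assoc, ← mul_pow]
        norm_num

end Vale.Agent.Lib.P160
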