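import Vale.Agent.Lib.P160.RV3
import Vale.Agent.Lib.P160.RV4
import Vale.Agent.Lib.P160.helper77.FinrankPatOut
import Vale.Agent.Lib.P160.helper73.RvNum1
import Vale.Agent.Lib.P160.helper66.RvNum2

namespace Vale.Agent.Lib.P160

open Finset Matrix

theorem valuesProb_le_one (m n : ℕ) : valuesProb m n ≤ 1 := by
  classical
  rw [valuesProb_eq]
  have hNpos : (0 : ℝ) < ((symSignMatrices n).card : ℝ) := by
    rw [card_symSignMatrices]
    positivity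
  rw [div_le_one hNpos]
  have h : (vlSet m n).card ≤ (symSignMatrices n).card := by
    rw [symSignMatrices_eq]
    unfold vlSet
    exact Finset.card_filter_le _ _
  exact_mod_cast h

theorem outFam_finrank_le {m n L : ℕ} :
    ∀ V ∈ outFam m n L, Module.finrank ℝ V ≤ m + L := by
  classical
  intro V hV
  unfold outFam at hV
  rw [mem_image] at hV
  obtain ⟨x, hx, rfl⟩ := hV
  have hI := (mem_filter.1 (mem_product.1 hx).1).2
  have h1 := H77.finrank_patOut_le x.1 x.2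
  omega

theorem outFam_card_le (m n L : ℕ) : (outFam m n L).card ≤ 2 ^ n * L ^ n := by
  classical
  unfold outFam
  refine Finset.card_image_le.trans ?_
  rw [Finset.card_product]
  have h1 : ((univ : Finset (Fin n)).powerset.filter fun I => I.card < m).card ≤ 2 ^ n := by
    refine (Finset.card_filter_le _ _).trans ?_
    rw [Finset.card_powerset, Finset.card_univ, Fintype.card_fin]
  have h2 : (univ : Finset (Fin n → Fin L)).card = L ^ n := by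
    rw [Finset.card_univ, Fintype.card_fun, Fintype.card_fin, Fintype.card_fin]
  rw [h2]
  exact Nat.mul_le_mul_right _ h1

theorem valuesProb_lin_aux {C0 C1 : ℝ} {N1 N2 : ℕ} (hC0 : 0 < C0)
    (hss : ∀ (κ : Type) [Fintype κ] [DecidableEq κ] (w : κ → ℝ) (c : ℝ) (D : ℕ), D ≤ dabs w →
      ((univ.filter fun x : κ → ℤˣ => sdot x w = c).card : ℝ) * ((D : ℝ) * Real.sqrt (D : ℝ)) ≤
        C0 * 2 ^ Fintype.card κ)
    (hnum1 : ∀ m n D : ℕ, N1 ≤ n → 30 * m ≤ n → Nat.sqrt (Nat.sqrt n) ≤ D → D ≤ m →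
      C0 / ((D : ℝ) * Real.sqrt (D : ℝ)) ≤ 1 ∧
      (2 : ℝ) ^ n * ((2 * D + 1 : ℕ) : ℝ) ^ n * ((2 * D + 1 + m : ℕ) : ℝ) ^ m *
        (C0 / ((D : ℝ) * Real.sqrt (D : ℝ))) ^ (n - m - D) ≤ (1 / 8) ^ n)
    (hnum2 : ∀ m n : ℕ, N2 ≤ n → 30 * m ≤ n →
      (2 ^ n * (2 * Nat.sqrt (Nat.sqrt n) + 1) ^ n) ^ 2 * 2 ^ (7 * n) ≤
        (n - (m + (2 * Nat.sqrt (Nat.sqrt n) + 1)) -
          ⌈40 * (n : ℝ) / Real.logb 2 (n : ℝ)⌉₊).factorial)
    (hC1 : ∀ (n d : ℕ) (F : Finset (Submodule ℝ (Fin n → ℝ))),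
      (∀ V ∈ F, Module.finrank ℝ V ≤ d) →
      F.card ^ 2 * 2 ^ (7 * n) ≤
        (n - d - ⌈40 * (n : ℝ) / Real.logb 2 (n : ℝ)⌉₊).factorial →
      symProb n (fun M => ∃ V ∈ F, ∃ v ∈ V, v ≠ 0 ∧ M.mulVec v = 0) ≤
        ((n : ℝ) * ((n : ℝ) - 1)) / 2 ^ n + C1 * (243 / 512) ^ n)
    {m n : ℕ} (hmn : 30 * m ≤ n) (hn1 : N1 ≤ n) (hn2 : N2 ≤ n) (hn0 : 1 ≤ n) :
    valuesProb m n ≤ ((n : ℝ) * ((n : ℝ) - 1)) / 2 ^ n + (C1 + 1) * (243 / 512) ^ n := by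
  classical
  set s := Nat.sqrt (Nat.sqrt n) with hs
  have hs1 : 1 ≤ s := Nat.sqrt_pos.2 (Nat.sqrt_pos.2 hn0)
  have hNpos : (0 : ℝ) < ((symSignMatrices n).card : ℝ) := by
    rw [card_symSignMatrices]
    positivity
  have hsym : ((symSet (Fin n)).card : ℝ) = ((symSignMatrices n).card : ℝ) := by
    rw [symSignMatrices_eq]
  -- regime 2
  have hF := hC1 n (m + (2 * s + 1)) (outFam m n (2 * s + 1)) outFam_finrank_le
    (by
      have hc := outFam_card_le m n (2 * s + 1)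
      calc (outFam m n (2 * s + 1)).card ^ 2 * 2 ^ (7 * n)
          ≤ (2 ^ n * (2 * s + 1) ^ n) ^ 2 * 2 ^ (7 * n) :=
            Nat.mul_le_mul_right _ (Nat.pow_le_pow_left hc 2)
        _ ≤ _ := hnum2 m n hn2 hmn)
  rw [famProb_eq] at hF
  -- regime 1
  let ρ : ℕ → ℝ := fun D => C0 / ((D : ℝ) * Real.sqrt (D : ℝ))
  have hρ0 : ∀ D, 0 ≤ ρ D := by
    intro D
    exact div_nonneg hC0.le (mul_nonneg (Nat.cast_nonneg _) (Real.sqrt_nonneg _))
  have hrow : ∀ D, s ≤ D → RowBound D (ρ D) := by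
    intro D hD κ _ _ w c hDw
    have hd : 0 < D := by omega
    have hdr : (0 : ℝ) < (D : ℝ) := by exact_mod_cast hd
    have hpos : (0 : ℝ) < (D : ℝ) * Real.sqrt (D : ℝ) := mul_pos hdr (Real.sqrt_pos.2 hdr)
    have h1 := hss κ w c D hDw
    show _ ≤ C0 / ((D : ℝ) * Real.sqrt (D : ℝ)) * 2 ^ Fintype.card κ
    rw [div_mul_eq_mul_div, le_div_iff₀ hpos]
    exact h1
  have hU := rvUnion1_card_le m n s (by omega) ρ hρ0 hrow
    (fun D hD hDm => hnum1 m n D hn1 hmn hD hDm)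
  rw [hsym] at hU
  have h0 := (Finset.card_le_card (vlSet_subset_lin m n s)).trans (Finset.card_union_le _ _)
  have h0' : ((vlSet m n).card : ℝ) ≤
      ((famSet (outFam m n (2 * s + 1))).card : ℝ) + ((rvUnion1 m n s).card : ℝ) := by
    exact_mod_cast h0
  rw [valuesProb_eq]
  have h4 : ((vlSet m n).card : ℝ) / ((symSignMatrices n).card : ℝ) ≤
      ((famSet (outFam m n (2 * s + 1))).card : ℝ) / ((symSignMatrices n).card : ℝ) +
        (1 / 4) ^ n := by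
    rw [div_le_iff₀ hNpos, add_mul, div_mul_cancel₀ _ hNpos.ne']
    linarith
  have h5 : (1 / 4 : ℝ) ^ n ≤ (243 / 512) ^ n :=
    pow_le_pow_left₀ (by norm_num) (by norm_num) n
  rw [add_mul, one_mul]
  linarith

theorem main_term_nonneg (n : ℕ) : (0 : ℝ) ≤ ((n : ℝ) * ((n : ℝ) - 1)) / 2 ^ n := by
  rcases Nat.eq_zero_or_pos n with h | h
  · subst h; simp
  · have h1 : (1 : ℝ) ≤ (n : ℝ) := by exact_mod_cast h
    have : (0 : ℝ) ≤ (n : ℝ) * ((n : ℝ) - 1) := mul_nonneg (by linarith) (by linarith)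
    positivity

/-- Absorbing small `n` into the constant. -/
theorem absorb_small {f : ℝ} {C1 : ℝ} {N n : ℕ} (hf : f ≤ 1) (hn : n < N) :
    f ≤ ((n : ℝ) * ((n : ℝ) - 1)) / 2 ^ n +
      (|C1| + 1 + (512 / 243) ^ N) * (243 / 512) ^ n := by
  have hθ : (0 : ℝ) ≤ (243 / 512 : ℝ) ^ n := by positivity
  have hmain := main_term_nonneg n
  have h2 : (1 : ℝ) ≤ (512 / 243 : ℝ) ^ N * (243 / 512 : ℝ) ^ n := by
    have h3 : (512 / 243 : ℝ) ^ n ≤ (512 / 243 : ℝ) ^ N :=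
      pow_le_pow_right₀ (by norm_num) hn.le
    have h4 : (512 / 243 : ℝ) ^ n * (243 / 512 : ℝ) ^ n = 1 := by
      rw [← mul_pow]; norm_num
    calc (1 : ℝ) = (512 / 243 : ℝ) ^ n * (243 / 512 : ℝ) ^ n := h4.symm
      _ ≤ _ := mul_le_mul_of_nonneg_right h3 hθ
  have h5 : (0 : ℝ) ≤ (|C1| + 1) * (243 / 512 : ℝ) ^ n :=
    mul_nonneg (by positivity) hθ
  have h6 : (|C1| + 1 + (512 / 243) ^ N) * (243 / 512 : ℝ) ^ n =
      (|C1| + 1) * (243 / 512 : ℝ) ^ n + (512 / 243 : ℝ) ^ N * (243 / 512 : ℝ) ^ n := by ring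
  rw [h6]
  linarith

theorem absorb_large {f : ℝ} {C1 : ℝ} {N n : ℕ}
    (hf : f ≤ ((n : ℝ) * ((n : ℝ) - 1)) / 2 ^ n + (C1 + 1) * (243 / 512) ^ n) :
    f ≤ ((n : ℝ) * ((n : ℝ) - 1)) / 2 ^ n +
      (|C1| + 1 + (512 / 243) ^ N) * (243 / 512) ^ n := by
  have hθ : (0 : ℝ) ≤ (243 / 512 : ℝ) ^ n := by positivity
  have hbig : (0 : ℝ) ≤ (512 / 243 : ℝ) ^ N := by positivity
  have h2 : (C1 + 1) * (243 / 512 : ℝ) ^ n ≤
      (|C1| + 1 + (512 / 243) ^ N) * (243 / 512 : ℝ) ^ n := by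
    refine mul_le_mul_of_nonneg_right ?_ hθ
    have := le_abs_self C1
    linarith
  linarith

/-- Null vectors with at most `n / 30` distinct coordinate values. -/
theorem exists_const_valuesProb_lin :
    ∃ C : ℝ, ∀ (m n : ℕ), 30 * m ≤ n →
      valuesProb m n ≤ ((n : ℝ) * ((n : ℝ) - 1)) / 2 ^ n + C * (243 / 512) ^ n := by
  obtain ⟨C0, hC0, hss⟩ := H4.ss_row
  obtain ⟨N1, hnum1⟩ := H73.rv_num1 C0 hC0
  obtain ⟨N2, hnum2⟩ := H66.rv_num2
  obtain ⟨C1, hC1⟩ := exists_const_famProb_le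
  refine ⟨|C1| + 1 + (512 / 243) ^ (N1 + N2 + 1), fun m n hmn => ?_⟩
  by_cases hn : N1 + N2 + 1 ≤ n
  · exact absorb_large (valuesProb_lin_aux hC0 hss hnum1 hnum2 hC1 hmn (by omega) (by omega)
      (by omega))
  · exact absorb_small (valuesProb_le_one m n) (by omega)

theorem rareProb_lin_aux {C0 C1 : ℝ} {m₀ : ℕ} (hC0 : 0 < C0)
    (hss : ∀ (κ : Type) [Fintype κ] [DecidableEq κ] (w : κ → ℝ) (c : ℝ) (D : ℕ), D ≤ dabs w →
      ((univ.filter fun x : κ → ℤˣ => sdot x w = c).card : ℝ) * ((D : ℝ) * Real.sqrt (D : ℝ)) ≤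
        C0 * 2 ^ Fintype.card κ)
    (hm8 : 8 ≤ m₀)
    (hnum : ∀ m n : ℕ, m₀ ≤ m → 6 * m ≤ n →
      C0 / (((m / 4 : ℕ) : ℝ) * Real.sqrt ((m / 4 : ℕ) : ℝ)) ≤ 1 ∧
      (m : ℝ) ^ n * 2 ^ n *
        (C0 / (((m / 4 : ℕ) : ℝ) * Real.sqrt ((m / 4 : ℕ) : ℝ))) ^ (n - m - m / 4) ≤ (1 / 8) ^ n)
    (hC1 : ∀ (m n : ℕ), 30 * m ≤ n →
      valuesProb m n ≤ ((n : ℝ) * ((n : ℝ) - 1)) / 2 ^ n + C1 * (243 / 512) ^ n)
    {R n : ℕ} (hR : 120 * R ≤ n) (hn : 30 * m₀ ≤ n) :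
    rareProb R n ≤ ((n : ℝ) * ((n : ℝ) - 1)) / 2 ^ n + (C1 + 1) * (243 / 512) ^ n := by
  classical
  set M := max m₀ (4 * R) with hMdef
  have hM0 : m₀ ≤ M := le_max_left _ _
  have hM4 : 4 * R ≤ M := le_max_right _ _
  have hMn : 30 * M ≤ n := by
    rcases max_choice m₀ (4 * R) with h | h
    · rw [hMdef, h]; exact hn
    · rw [hMdef, h]; omega
  have hV := hC1 M n hMn
  rw [valuesProb_eq] at hV
  rw [rareProb_eq]
  have hNpos : (0 : ℝ) < ((symSignMatrices n).card : ℝ) := by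
    rw [card_symSignMatrices]
    positivity
  have hsym : ((symSet (Fin n)).card : ℝ) = ((symSignMatrices n).card : ℝ) := by
    rw [symSignMatrices_eq]
  let ρ : ℕ → ℝ := fun m => C0 / (((m / 4 : ℕ) : ℝ) * Real.sqrt ((m / 4 : ℕ) : ℝ))
  have hρ0 : ∀ m, 0 ≤ ρ m := by
    intro m
    exact div_nonneg hC0.le (mul_nonneg (Nat.cast_nonneg _) (Real.sqrt_nonneg _))
  have hrow : ∀ m, M < m → RowBound (m / 4) (ρ m) := by
    intro m hm κ _ _ w c hD
    have hd : 0 < m / 4 := by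
      have : 8 ≤ m := by omega
      omega
    have hdr : (0 : ℝ) < ((m / 4 : ℕ) : ℝ) := by exact_mod_cast hd
    have hpos : (0 : ℝ) < ((m / 4 : ℕ) : ℝ) * Real.sqrt ((m / 4 : ℕ) : ℝ) :=
      mul_pos hdr (Real.sqrt_pos.2 hdr)
    have h1 := hss κ w c (m / 4) hD
    show _ ≤ C0 / (((m / 4 : ℕ) : ℝ) * Real.sqrt ((m / 4 : ℕ) : ℝ)) * 2 ^ Fintype.card κ
    rw [div_mul_eq_mul_div, le_div_iff₀ hpos]
    exact h1
  have hU := rvUnion_card_le M n ρ hρ0 hrow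
    (fun m hm h6 => hnum m n (by omega) h6)
  rw [hsym] at hU
  have h0 := (Finset.card_le_card (rvSet_subset R M n hM4 (by omega))).trans
    (Finset.card_union_le _ _)
  have h0' : ((rvSet R n).card : ℝ) ≤ ((vlSet M n).card : ℝ) + ((rvUnion M n).card : ℝ) := by
    exact_mod_cast h0
  have h4 : ((rvSet R n).card : ℝ) / ((symSignMatrices n).card : ℝ) ≤
      ((vlSet M n).card : ℝ) / ((symSignMatrices n).card : ℝ) + (1 / 4) ^ n := by
    rw [div_le_iff₀ hNpos, add_mul, div_mul_cancel₀ _ hNpos.ne']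
    linarith
  have h5 : (1 / 4 : ℝ) ^ n ≤ (243 / 512) ^ n :=
    pow_le_pow_left₀ (by norm_num) (by norm_num) n
  rw [add_mul, one_mul]
  linarith

/-- Null vectors with at most `n / 120` rare coordinate values. -/
theorem exists_const_rareProb_lin :
    ∃ C : ℝ, ∀ (R n : ℕ), 120 * R ≤ n →
      rareProb R n ≤ ((n : ℝ) * ((n : ℝ) - 1)) / 2 ^ n + C * (243 / 512) ^ n := by
  obtain ⟨C0, hC0, hss⟩ := H4.ss_row
  obtain ⟨m₀, hm8, hnum⟩ := H6.rv_num C0 hC0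
  obtain ⟨C1, hC1⟩ := exists_const_valuesProb_lin
  refine ⟨|C1| + 1 + (512 / 243) ^ (30 * m₀), fun R n hR => ?_⟩
  by_cases hn : 30 * m₀ ≤ n
  · exact absorb_large (rareProb_lin_aux hC0 hss hm8 hnum hC1 hR hn)
  · exact absorb_small (rareProb_le_one R n) (by omega)

theorem valuesProb_lin_tendsto :
    Filter.Tendsto (fun n : ℕ => valuesProb (n / 30) n * 2 ^ n / (n : ℝ) ^ 2)
      Filter.atTop (nhds 1) := by
  obtain ⟨C, hC⟩ := exists_const_valuesProb_lin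
  exact tendsto_ratio (C := C) (θ := 243 / 512) (by norm_num) (by norm_num) 90
    (fun n hn => valuesProb_ge (by omega) n)
    (fun n _ => hC _ n (Nat.mul_div_le n 30))

theorem rareProb_lin_tendsto :
    Filter.Tendsto (fun n : ℕ => rareProb (n / 120) n * 2 ^ n / (n : ℝ) ^ 2)
      Filter.atTop (nhds 1) := by
  obtain ⟨C, hC⟩ := exists_const_rareProb_lin
  exact tendsto_ratio (C := C) (θ := 243 / 512) (by norm_num) (by norm_num) 240
    (fun n hn => rareProb_ge (by omega) (by omega))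
    (fun n _ => hC _ n (Nat.mul_div_le n 120))

end Vale.Agent.Lib.P160
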