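import Vale.Agent.Lib.P160.Main
import Vale.Agent.Lib.P160.Closed

namespace Vale.Agent.Lib.P160

open Finset Matrix

section general

variable {ι : Type*} [Fintype ι] [DecidableEq ι]

omit [DecidableEq ι] in
theorem unit_cast_ne_zero (u : ℤˣ) : ((u : ℤ) : ℝ) ≠ 0 := by
  rcases Int.units_eq_one_or u with h | h <;> simp [h]

omit [DecidableEq ι] in
theorem unit_cast_mul_self (u : ℤˣ) : ((u : ℤ) : ℝ) * ((u : ℤ) : ℝ) = 1 := by
  rcases Int.units_eq_one_or u with h | h <;> simp [h]

omit [DecidableEq ι] in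
/-- A nonzero null vector has at least two nonzero coordinates. -/
theorem two_le_supp {A : Matrix ι ι ℤˣ} {v : ι → ℝ} (hv : v ≠ 0) (hA : toR A *ᵥ v = 0) :
    2 ≤ (univ.filter fun j => v j ≠ 0).card := by
  by_contra hlt
  have hle : (univ.filter fun j => v j ≠ 0).card ≤ 1 := by omega
  obtain ⟨j0, hj0⟩ : ∃ j0, v j0 ≠ 0 := by
    by_contra h
    exact hv (funext fun j => by
      by_contra hne
      exact h ⟨j, hne⟩)
  have huniq : ∀ j, j ≠ j0 → v j = 0 := by
    intro j hj
    by_contra hne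
    rw [Finset.card_le_one] at hle
    exact hj (hle j (by simp [hne]) j0 (by simp [hj0]))
  have h1 := congrFun hA j0
  rw [toR_mulVec] at h1
  unfold sdot at h1
  rw [Finset.sum_eq_single j0 (fun j _ hj => by rw [huniq j hj, mul_zero])
    (fun h => (h (mem_univ _)).elim)] at h1
  simp only [Pi.zero_apply, mul_eq_zero] at h1
  rcases h1 with h1 | h1
  · exact unit_cast_ne_zero _ h1
  · exact hj0 h1

/-- A null vector with exactly two nonzero coordinates forces two proportional rows. -/
theorem mem_pairEvent_of_supp_two {A : Matrix ι ι ℤˣ} (hA : A ∈ symSet ι) {v : ι → ℝ}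
    {i j : ι} (hij : i ≠ j) (hsupp : ∀ k, k ≠ i → k ≠ j → v k = 0) (hj : v j ≠ 0)
    (hAv : toR A *ᵥ v = 0) : A ∈ pairEvent i j (A i i * A i j) := by
  have hs := mem_symSet.1 hA
  rw [mem_pairEvent]
  refine ⟨hs, fun k => ?_⟩
  have hrow : ∀ k, ((A k i : ℤ) : ℝ) * v i + ((A k j : ℤ) : ℝ) * v j = 0 := by
    intro k
    have h1 := congrFun hAv k
    rw [toR_mulVec] at h1
    unfold sdot at h1
    rw [Finset.sum_eq_add i j hij (fun c _ hc => by rw [hsupp c hc.1 hc.2, mul_zero])
      (fun h => (h (mem_univ _)).elim) (fun h => (h (mem_univ _)).elim)] at h1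
    simpa using h1
  have e1 := hrow i
  have e2 := hrow k
  have ha := unit_cast_mul_self (A i i)
  have hq : ((A k j : ℤ) : ℝ) = ((A k i : ℤ) : ℝ) * ((A i i : ℤ) : ℝ) * ((A i j : ℤ) : ℝ) := by
    have h3 : (((A k j : ℤ) : ℝ) -
        ((A k i : ℤ) : ℝ) * ((A i i : ℤ) : ℝ) * ((A i j : ℤ) : ℝ)) * v j = 0 := by
      linear_combination e2 - ((A k i : ℤ) : ℝ) * ((A i i : ℤ) : ℝ) * e1 +
        ((A k i : ℤ) : ℝ) * v i * ha
    rcases mul_eq_zero.1 h3 with h4 | h4
    · linarith
    · exact (hj h4).elim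
  have hq' : A k j = A k i * A i i * A i j := by
    apply Units.ext
    have : ((A k j : ℤ) : ℝ) = (((A k i * A i i * A i j : ℤˣ) : ℤ) : ℝ) := by
      rw [hq]; push_cast; ring
    exact_mod_cast this
  rw [hs i k, hs j k, hq']
  rcases Int.units_eq_one_or (A i i) with h1 | h1 <;>
    rcases Int.units_eq_one_or (A i j) with h2 | h2 <;> simp [h1, h2]

variable [LinearOrder ι]

theorem pairEvent_subset_biUnion {i j : ι} (hij : i ≠ j) (σ : ℤˣ) :
    pairEvent i j σ ⊆ (univ : Finset ι).offDiag.biUnion Ev := by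
  intro A hA
  rw [mem_biUnion]
  rcases Int.units_eq_one_or σ with h | h
  · rcases lt_or_gt_of_ne hij with hlt | hgt
    · refine ⟨(i, j), by simp [hij], ?_⟩
      have : sg (i, j) = 1 := by simp [sg, hlt]
      unfold Ev
      rw [this, ← h]
      exact hA
    · refine ⟨(j, i), by simp [hij.symm], ?_⟩
      have : sg (j, i) = 1 := by simp [sg, hgt]
      unfold Ev
      rw [this, ← h]
      simp only
      rw [pairEvent_swap]
      exact hA
  · rcases lt_or_gt_of_ne hij with hlt | hgt
    · refine ⟨(j, i), by simp [hij.symm], ?_⟩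
      have : sg (j, i) = -1 := by simp [sg, not_lt.2 hlt.le]
      unfold Ev
      rw [this, ← h]
      simp only
      rw [pairEvent_swap]
      exact hA
    · refine ⟨(i, j), by simp [hij], ?_⟩
      have : sg (i, j) = -1 := by simp [sg, not_lt.2 hgt.le]
      unfold Ev
      rw [this, ← h]
      exact hA

end general

end Vale.Agent.Lib.P160
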