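import Vale.Agent.Lib.P160.Small

namespace Vale.Agent.Lib.P160

open Finset Matrix

section general

variable {ι : Type*} [Fintype ι] [DecidableEq ι]

/-- `u` is supported on `T` and orthogonal to the rows of `A` indexed by `R`. -/
def IsAnn (T R : Finset ι) (A : Matrix ι ι ℤˣ) (u : ι → ℝ) : Prop :=
  (∀ j, j ∉ T → u j = 0) ∧ ∀ r ∈ R, sdot (A r) u = 0

/-- The event used for sparse null vectors: some vector with support exactly `T` is orthogonal
to the rows in `R`, and every row in `F` is orthogonal to all vectors supported on `T` that are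
orthogonal to the rows in `R`. -/
def EvS (T R F : Finset ι) (A : Matrix ι ι ℤˣ) : Prop :=
  (∃ u, IsAnn T R A u ∧ ∀ j ∈ T, u j ≠ 0) ∧ ∀ i ∈ F, ∀ u, IsAnn T R A u → sdot (A i) u = 0

/-- Peeling off row and column `i`, with the set of allowed rows depending on the rest. -/
theorem peel2 (i : ι) (P : Matrix ι ι ℤˣ → Prop) [DecidablePred P]
    (Q : Matrix {k // k ≠ i} {k // k ≠ i} ℤˣ → Prop) [DecidablePred Q] (N : ℕ)
    (h1 : ∀ A ∈ symSet ι, P A → Q (restr i A))
    (h2 : ∀ A' ∈ symSet {k // k ≠ i}, Q A' → ∃ X : Finset (ι → ℤˣ), X.card ≤ N ∧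
      ∀ A ∈ symSet ι, P A → restr i A = A' → A i ∈ X) :
    ((symSet ι).filter P).card ≤ N * ((symSet {k // k ≠ i}).filter Q).card := by
  refine Finset.card_le_mul_card_image_of_maps_to (f := restr i) ?_ N ?_
  · intro A hA
    rw [mem_filter] at hA ⊢
    exact ⟨restr_mem_symSet hA.1, h1 A hA.1 hA.2⟩
  · intro A' hA'
    rw [mem_filter] at hA'
    obtain ⟨X, hX, hX'⟩ := h2 A' hA'.1 hA'.2
    refine le_trans ?_ hX
    refine Finset.card_le_card_of_injOn (fun A : Matrix ι ι ℤˣ => A i) ?_ ?_
    · intro A hA
      rw [mem_coe, mem_filter, mem_filter] at hA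
      exact hX' A hA.1.1 hA.1.2 hA.2
    · intro A hA B hB h
      rw [mem_coe, mem_filter, mem_filter] at hA hB
      have hs := mem_symSet.1 hA.1.1
      have hs' := mem_symSet.1 hB.1.1
      have hr : restr i A = restr i B := hA.2.trans hB.2.symm
      have hrow : A i = B i := h
      refine Matrix.ext fun k l => ?_
      by_cases hk : k = i
      · subst hk
        exact congrFun hrow l
      · by_cases hl : l = i
        · subst hl
          rw [hs k l, hs' k l]
          exact congrFun hrow k
        · exact congrFun (congrFun hr ⟨k, hk⟩) ⟨l, hl⟩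

/-- Extension by zero at `i`. -/
def extV (i : ι) (u : {k // k ≠ i} → ℝ) : ι → ℝ :=
  fun j => if h : j = i then 0 else u ⟨j, h⟩

omit [DecidableEq ι] in
theorem sdot_restr (i : ι) [DecidableEq ι] (x : ι → ℤˣ) (u : ι → ℝ) (hu : u i = 0) :
    sdot (fun k : {k // k ≠ i} => x k.1) (fun k : {k // k ≠ i} => u k.1) = sdot x u := by
  unfold sdot
  rw [Fintype.sum_eq_add_sum_subtype_ne (fun j => ((x j : ℤ) : ℝ) * u j) i, hu, mul_zero, zero_add]

theorem extV_self (i : ι) (u : {k // k ≠ i} → ℝ) : extV i u i = 0 := by
  simp [extV]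

theorem extV_ne (i : ι) (u : {k // k ≠ i} → ℝ) (k : {k // k ≠ i}) : extV i u k.1 = u k := by
  simp [extV, k.2]

theorem sdot_extV (i : ι) (x : ι → ℤˣ) (u : {k // k ≠ i} → ℝ) :
    sdot x (extV i u) = sdot (fun k : {k // k ≠ i} => x k.1) u := by
  rw [← sdot_restr i x (extV i u) (extV_self i u)]
  congr 1
  funext k
  exact extV_ne i u k

theorem isAnn_restr {T R : Finset ι} {i : ι} (hiT : i ∉ T) {A : Matrix ι ι ℤˣ} {u : ι → ℝ}
    (h : IsAnn T R A u) :
    IsAnn (T.subtype (· ≠ i)) (R.subtype (· ≠ i)) (restr i A) (fun k => u k.1) := by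
  refine ⟨fun k hk => h.1 k.1 (by simpa using hk), fun r hr => ?_⟩
  have h1 := h.2 r.1 (by simpa using hr)
  rw [← sdot_restr i (A r.1) u (h.1 i hiT)] at h1
  exact h1

theorem isAnn_extV {T R : Finset ι} {i : ι} (hiR : i ∉ R) {A : Matrix ι ι ℤˣ}
    {u : {k // k ≠ i} → ℝ}
    (h : IsAnn (T.subtype (· ≠ i)) (R.subtype (· ≠ i)) (restr i A) u) :
    IsAnn T R A (extV i u) := by
  refine ⟨fun j hj => ?_, fun r hr => ?_⟩
  · by_cases hji : j = i
    · subst hji
      exact extV_self _ u
    · have := h.1 ⟨j, hji⟩ (by simpa using hj)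
      rw [← this]
      exact extV_ne i u ⟨j, hji⟩
  · have hri : r ≠ i := fun h' => hiR (h' ▸ hr)
    rw [sdot_extV]
    exact h.2 ⟨r, hri⟩ (by simpa using hr)

end general

open Classical in
theorem evS_count : ∀ (m : ℕ) (ι : Type) [Fintype ι] [DecidableEq ι] (T R F : Finset ι),
    F.card = m → Disjoint F T → Disjoint F R →
    ((symSet ι).filter (EvS T R F)).card * 2 ^ (T.card * m) ≤
      cb T.card ^ m * (symSet ι).card := by
  intro m
  induction m with
  | zero =>
    intro ι _ _ T R F _ _ _
    simpa using Finset.card_filter_le _ _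
  | succ m ih =>
    intro ι _ _ T R F hF hFT hFR
    obtain ⟨i, hiF⟩ : F.Nonempty := by
      rw [← Finset.card_pos]; omega
    have hiT : i ∉ T := fun h => (Finset.disjoint_left.1 hFT) hiF h
    have hiR : i ∉ R := fun h => (Finset.disjoint_left.1 hFR) hiF h
    have hT' : (T.subtype (· ≠ i)).card = T.card := by
      rw [Finset.card_subtype, Finset.filter_true_of_mem]
      intro j hj hji
      exact hiT (hji ▸ hj)
    have hF' : (F.subtype (· ≠ i)).card = m := by
      rw [Finset.card_subtype, Finset.filter_ne' F i, Finset.card_erase_of_mem hiF, hF]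
      rfl
    have hFT' : Disjoint (F.subtype (· ≠ i)) (T.subtype (· ≠ i)) := by
      rw [Finset.disjoint_left]
      intro k hk hk'
      exact (Finset.disjoint_left.1 hFT) (by simpa using hk) (by simpa using hk')
    have hFR' : Disjoint (F.subtype (· ≠ i)) (R.subtype (· ≠ i)) := by
      rw [Finset.disjoint_left]
      intro k hk hk'
      exact (Finset.disjoint_left.1 hFR) (by simpa using hk) (by simpa using hk')
    have key := peel2 i (EvS T R F)
      (EvS (T.subtype (· ≠ i)) (R.subtype (· ≠ i)) (F.subtype (· ≠ i)))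
      (2 ^ (Fintype.card ι - T.card) * cb T.card) ?_ ?_
    · have hIH := ih {k // k ≠ i} (T.subtype (· ≠ i)) (R.subtype (· ≠ i)) (F.subtype (· ≠ i))
        hF' hFT' hFR'
      rw [hT'] at hIH
      have hcardι : 0 < Fintype.card ι := Fintype.card_pos_iff.2 ⟨i⟩
      have hsym : (symSet ι).card = 2 ^ Fintype.card ι * (symSet {k // k ≠ i}).card := by
        rw [card_symSet, card_symSet, card_subtype_ne, Nat.sub_add_cancel hcardι, ← pow_add]
        congr 1
        obtain ⟨n, hn⟩ : ∃ n, Fintype.card ι = n + 1 := ⟨Fintype.card ι - 1, by omega⟩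
        rw [hn, Nat.choose_succ_succ' (n + 1) 1, Nat.choose_one_right]
      have hTle : T.card ≤ Fintype.card ι := Finset.card_le_univ T
      have hpow : 2 ^ (Fintype.card ι - T.card) * 2 ^ T.card = 2 ^ Fintype.card ι := by
        rw [← pow_add, Nat.sub_add_cancel hTle]
      calc ((symSet ι).filter (EvS T R F)).card * 2 ^ (T.card * (m + 1))
          ≤ (2 ^ (Fintype.card ι - T.card) * cb T.card *
              ((symSet {k // k ≠ i}).filter
                (EvS (T.subtype (· ≠ i)) (R.subtype (· ≠ i)) (F.subtype (· ≠ i)))).card) *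
              2 ^ (T.card * (m + 1)) := Nat.mul_le_mul_right _ key
        _ = (2 ^ (Fintype.card ι - T.card) * 2 ^ T.card) * cb T.card *
              (((symSet {k // k ≠ i}).filter
                (EvS (T.subtype (· ≠ i)) (R.subtype (· ≠ i)) (F.subtype (· ≠ i)))).card *
              2 ^ (T.card * m)) := by
            rw [Nat.mul_succ, pow_add]; ring
        _ ≤ (2 ^ (Fintype.card ι - T.card) * 2 ^ T.card) * cb T.card *
              (cb T.card ^ m * (symSet {k // k ≠ i}).card) := Nat.mul_le_mul_left _ hIH
        _ = cb T.card ^ (m + 1) * (symSet ι).card := by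
            rw [hpow, hsym, pow_succ]; ring
    · intro A _ hA
      obtain ⟨⟨u, hu, hfull⟩, hrows⟩ := hA
      refine ⟨⟨fun k => u k.1, isAnn_restr hiT hu, fun k hk => hfull k.1 (by simpa using hk)⟩, ?_⟩
      intro k hk u' hu'
      have h1 := hrows k.1 (by simpa using hk) (extV i u') (isAnn_extV hiR hu')
      rw [sdot_extV] at h1
      exact h1
    · intro A' _ hA'
      obtain ⟨⟨u', hu', hfull'⟩, _⟩ := hA'
      refine ⟨(univ : Finset (ι → ℤˣ)).filter fun x => sdot x (extV i u') = 0, ?_, ?_⟩
      · have hlo := lo_count (extV i u') 0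
        have hsupp : (univ.filter fun j => extV i u' j ≠ 0) = T := by
          ext j
          simp only [mem_filter, mem_univ, true_and]
          constructor
          · intro hj
            by_contra hjT
            apply hj
            by_cases hji : j = i
            · subst hji
              exact extV_self _ u'
            · have := hu'.1 ⟨j, hji⟩ (by simpa using hjT)
              rw [← this]
              exact extV_ne i u' ⟨j, hji⟩
          · intro hjT
            have hji : j ≠ i := fun h => hiT (h ▸ hjT)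
            have := hfull' ⟨j, hji⟩ (by simpa using hjT)
            rw [← extV_ne i u' ⟨j, hji⟩] at this
            exact this
        rw [hsupp] at hlo
        exact hlo
      · intro A _ hA hrestr
        rw [mem_filter]
        refine ⟨mem_univ _, ?_⟩
        subst hrestr
        exact hA.2 i hiF (extV i u') (isAnn_extV hiR hu')

end Vale.Agent.Lib.P160
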