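import Vale.Agent.Lib.P160.Sparse1

namespace Vale.Agent.Lib.P160

open Finset Matrix

section general

variable {ι : Type*} [Fintype ι] [DecidableEq ι]

omit [DecidableEq ι] in
theorem sdot_add (x : ι → ℤˣ) (u w : ι → ℝ) : sdot x (u + w) = sdot x u + sdot x w := by
  unfold sdot
  rw [← Finset.sum_add_distrib]
  exact Finset.sum_congr rfl fun j _ => by simp [mul_add]

omit [DecidableEq ι] in
theorem sdot_smul (x : ι → ℤˣ) (c : ℝ) (u : ι → ℝ) : sdot x (c • u) = c * sdot x u := by
  unfold sdot
  rw [Finset.mul_sum]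
  exact Finset.sum_congr rfl fun j _ => by simp; ring

omit [DecidableEq ι] in
theorem sdot_zero (x : ι → ℤˣ) : sdot x (0 : ι → ℝ) = 0 := by
  unfold sdot
  simp

/-- The subspace of vectors supported on `T` orthogonal to the rows in `R`. -/
def annSub (T R : Finset ι) (A : Matrix ι ι ℤˣ) : Submodule ℝ (ι → ℝ) where
  carrier := {u | IsAnn T R A u}
  add_mem' := by
    intro u w hu hw
    refine ⟨fun j hj => ?_, fun r hr => ?_⟩
    · simp [hu.1 j hj, hw.1 j hj]
    · rw [sdot_add, hu.2 r hr, hw.2 r hr, add_zero]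
  zero_mem' := ⟨fun _ _ => rfl, fun r _ => sdot_zero _⟩
  smul_mem' := by
    intro c u hu
    refine ⟨fun j hj => ?_, fun r hr => ?_⟩
    · simp [hu.1 j hj]
    · rw [sdot_smul, hu.2 r hr, mul_zero]

omit [DecidableEq ι] in
theorem mem_annSub {T R : Finset ι} {A : Matrix ι ι ℤˣ} {u : ι → ℝ} :
    u ∈ annSub T R A ↔ IsAnn T R A u := Iff.rfl

theorem exists_rows (T : Finset ι) (A : Matrix ι ι ℤˣ) : ∀ (d : ℕ) (R : Finset ι),
    Disjoint R T → Module.finrank ℝ (annSub T R A) ≤ d →
    ∃ R', R ⊆ R' ∧ Disjoint R' T ∧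
      R'.card + Module.finrank ℝ (annSub T R' A) ≤ R.card + Module.finrank ℝ (annSub T R A) ∧
      ∀ i, i ∉ T → ∀ u, IsAnn T R' A u → sdot (A i) u = 0 := by
  intro d
  induction d with
  | zero =>
    intro R hR hd
    refine ⟨R, subset_rfl, hR, le_rfl, ?_⟩
    intro i _ u hu
    have hbot : annSub T R A = ⊥ := by
      apply Submodule.finrank_eq_zero.1
      omega
    have hu0 : u = 0 := by
      have : u ∈ annSub T R A := hu
      rw [hbot] at this
      exact (Submodule.mem_bot ℝ).1 this
    rw [hu0, sdot_zero]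
  | succ d ih =>
    intro R hR hd
    by_cases h : ∀ i, i ∉ T → ∀ u, IsAnn T R A u → sdot (A i) u = 0
    · exact ⟨R, subset_rfl, hR, le_rfl, h⟩
    · simp only [not_forall] at h
      obtain ⟨i, hiT, u0, hu0, hne⟩ := h
      have hiR : i ∉ R := fun hi => hne (hu0.2 i hi)
      have hR1 : Disjoint (insert i R) T := by
        rw [Finset.disjoint_insert_left]
        exact ⟨hiT, hR⟩
      have hlt : annSub T (insert i R) A < annSub T R A := by
        refine lt_of_le_of_ne ?_ ?_
        · intro u hu
          exact ⟨hu.1, fun r hr => hu.2 r (Finset.mem_insert_of_mem hr)⟩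
        · intro heq
          have : u0 ∈ annSub T (insert i R) A := by
            rw [heq]; exact hu0
          exact hne (this.2 i (Finset.mem_insert_self i R))
      have hfr := Submodule.finrank_lt_finrank_of_lt hlt
      obtain ⟨R', hsub, hdisj, hcard, hall⟩ := ih (insert i R) hR1 (by omega)
      refine ⟨R', (Finset.subset_insert i R).trans hsub, hdisj, ?_, hall⟩
      rw [Finset.card_insert_of_notMem hiR] at hcard
      omega

theorem finrank_annSub_empty_le (T : Finset ι) (A : Matrix ι ι ℤˣ) :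
    Module.finrank ℝ (annSub T ∅ A) ≤ T.card := by
  have hle : annSub T ∅ A ≤
      Submodule.span ℝ ((T.image fun j => (Pi.single j (1 : ℝ) : ι → ℝ) : Finset (ι → ℝ)) :
        Set (ι → ℝ)) := by
    intro u hu
    have hu' : u = ∑ j ∈ T, u j • (Pi.single j (1 : ℝ) : ι → ℝ) := by
      funext k
      rw [Finset.sum_apply]
      simp only [Pi.smul_apply, Pi.single_apply, smul_eq_mul, mul_ite, mul_one, mul_zero]
      rw [Finset.sum_ite_eq T k]
      by_cases hk : k ∈ T
      · rw [if_pos hk]
      · rw [if_neg hk]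
        exact hu.1 k hk
    rw [hu']
    refine Submodule.sum_mem _ fun j hj => Submodule.smul_mem _ _ (Submodule.subset_span ?_)
    exact Finset.mem_coe.2 (Finset.mem_image_of_mem _ hj)
  refine (Submodule.finrank_mono hle).trans ?_
  refine (finrank_span_finset_le_card _).trans ?_
  exact Finset.card_image_le

/-- From a null vector with support `T`, find a small set `R` of rows outside `T` such that the
event `EvS T R F` holds for every `F` disjoint from `T`. -/
theorem exists_rows_of_null {A : Matrix ι ι ℤˣ} {v : ι → ℝ} (T : Finset ι)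
    (hT : ∀ j, v j ≠ 0 ↔ j ∈ T) (hv : v ≠ 0) (hAv : toR A *ᵥ v = 0) :
    ∃ R, Disjoint R T ∧ R.card + 1 ≤ T.card ∧ EvS T R (univ \ (T ∪ R)) A := by
  obtain ⟨R, -, hdisj, hcard, hall⟩ :=
    exists_rows T A (Module.finrank ℝ (annSub T ∅ A)) ∅ (Finset.disjoint_empty_left T) le_rfl
  have hvmem : IsAnn T R A v := by
    refine ⟨fun j hj => ?_, fun r _ => ?_⟩
    · by_contra hne
      exact hj ((hT j).1 hne)
    · rw [← toR_mulVec, hAv]; rfl
  have hpos : 0 < Module.finrank ℝ (annSub T R A) := by
    rw [Module.finrank_pos_iff_exists_ne_zero]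
    refine ⟨⟨v, hvmem⟩, ?_⟩
    intro h
    exact hv (congrArg Subtype.val h)
  have hle := finrank_annSub_empty_le T A
  refine ⟨R, hdisj, ?_, ⟨v, hvmem, fun j hj => (hT j).2 hj⟩, ?_⟩
  · simp only [Finset.card_empty, zero_add] at hcard
    omega
  · intro i hi u hu
    refine hall i ?_ u hu
    intro hiT
    rw [Finset.mem_sdiff] at hi
    exact hi.2 (Finset.mem_union_left R hiT)

end general

end Vale.Agent.Lib.P160
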