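import Vale.Agent.Lib.P160.Sparse2
import Vale.Agent.Lib.P160.Limit

namespace Vale.Agent.Lib.P160

open Finset Matrix

open Classical in
/-- The symmetric sign matrices having a nonzero null vector with at most `n / 4` nonzero
coordinates. -/
noncomputable def spSet (n : ℕ) : Finset (Matrix (Fin n) (Fin n) ℤˣ) :=
  (symSet (Fin n)).filter fun A => ∃ v : Fin n → ℝ, v ≠ 0 ∧
    4 * (univ.filter fun j => v j ≠ 0).card ≤ n ∧ toR A *ᵥ v = 0

open Classical in
theorem mem_spSet {n : ℕ} {A : Matrix (Fin n) (Fin n) ℤˣ} :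
    A ∈ spSet n ↔ A ∈ symSet (Fin n) ∧ ∃ v : Fin n → ℝ, v ≠ 0 ∧
    4 * (univ.filter fun j => v j ≠ 0).card ≤ n ∧ toR A *ᵥ v = 0 := by
  unfold spSet
  rw [mem_filter]

/-- The index set of pairs `(T, R)` used in the union bound. -/
noncomputable def pairsTR (n : ℕ) : Finset (Finset (Fin n) × Finset (Fin n)) :=
  ((univ : Finset (Fin n)).powerset ×ˢ (univ : Finset (Fin n)).powerset).filter fun p =>
    3 ≤ p.1.card ∧ 4 * p.1.card ≤ n ∧ Disjoint p.2 p.1 ∧ p.2.card + 1 ≤ p.1.card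

open Classical in
/-- The event attached to a pair `(T, R)`. -/
noncomputable def evSet (n : ℕ) (p : Finset (Fin n) × Finset (Fin n)) :
    Finset (Matrix (Fin n) (Fin n) ℤˣ) :=
  (symSet (Fin n)).filter (EvS p.1 p.2 (univ \ (p.1 ∪ p.2)))

open Classical in
theorem mem_evSet {n : ℕ} {p : Finset (Fin n) × Finset (Fin n)} {A : Matrix (Fin n) (Fin n) ℤˣ} :
    A ∈ evSet n p ↔ A ∈ symSet (Fin n) ∧ EvS p.1 p.2 (univ \ (p.1 ∪ p.2)) A := by
  unfold evSet
  rw [mem_filter]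

open Classical in
theorem mem_biUnion_of_supp_two {n : ℕ} {A : Matrix (Fin n) (Fin n) ℤˣ} (hA : A ∈ symSet (Fin n))
    {v : Fin n → ℝ} (hc : (univ.filter fun j => v j ≠ 0).card = 2) (hAv : toR A *ᵥ v = 0) :
    A ∈ (univ : Finset (Fin n)).offDiag.biUnion Ev := by
  rw [Finset.card_eq_two] at hc
  obtain ⟨i, j, hij, hset⟩ := hc
  have hsupp : ∀ k, k ≠ i → k ≠ j → v k = 0 := by
    intro k hki hkj
    by_contra hne
    have : k ∈ univ.filter fun j => v j ≠ 0 := by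
      simp only [mem_filter, mem_univ, true_and]
      exact hne
    rw [hset] at this
    simp only [mem_insert, mem_singleton] at this
    rcases this with h | h
    · exact hki h
    · exact hkj h
  have hj : v j ≠ 0 := by
    have : j ∈ univ.filter fun j => v j ≠ 0 := by
      rw [hset]; simp
    simp only [mem_filter, mem_univ, true_and] at this
    exact this
  exact pairEvent_subset_biUnion hij _ (mem_pairEvent_of_supp_two hA hij hsupp hj hAv)

open Classical in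
theorem spSet_subset (n : ℕ) :
    spSet n ⊆ (univ : Finset (Fin n)).offDiag.biUnion Ev ∪ (pairsTR n).biUnion (evSet n) := by
  intro A hA
  rw [mem_spSet] at hA
  obtain ⟨hA1, v, hv0, hv4, hAv⟩ := hA
  have h2 := two_le_supp hv0 hAv
  rw [mem_union]
  rcases Nat.eq_or_lt_of_le h2 with h2' | h3
  · left
    exact mem_biUnion_of_supp_two hA1 h2'.symm hAv
  · right
    obtain ⟨R, hdisj, hcard, hev⟩ :=
      exists_rows_of_null (A := A) (v := v) (univ.filter fun j => v j ≠ 0)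
        (fun j => by simp) hv0 hAv
    rw [mem_biUnion]
    refine ⟨(univ.filter fun j => v j ≠ 0, R), ?_, ?_⟩
    · unfold pairsTR
      rw [mem_filter, mem_product, mem_powerset, mem_powerset]
      exact ⟨⟨subset_univ _, subset_univ _⟩, h3, hv4, hdisj, hcard⟩
    · rw [mem_evSet]
      exact ⟨hA1, hev⟩

theorem Lr_3236 : Lr 3236 ≤ 9 / 512 := by
  have h := Lr_even_sq 1618
  have h1 : (2 * 1618 : ℕ) = 3236 := by norm_num
  rw [h1] at h
  have h2 : Lr 3236 ^ 2 ≤ (9 / 512 : ℝ) ^ 2 := by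
    have h3 : (0 : ℝ) ≤ Lr 3236 ^ 2 := by positivity
    norm_num at h ⊢
    nlinarith
  exact (pow_le_pow_iff_left₀ (Lr_pos _).le (by norm_num) (by norm_num)).1 h2

theorem sparse_term_bound {n s r f : ℕ} (h3 : 3 ≤ s) (h4 : 4 * s ≤ n) (hr : r + 1 ≤ s)
    (hf : f + s + r = n) :
    Lr s ^ f ≤ (64 / 3 : ℝ) ^ 6472 * (3 / 8) ^ n * ((1 / 8) ^ s * (1 / 8) ^ r) := by
  have hA1 : (1 : ℝ) ≤ (64 / 3 : ℝ) ^ 6472 := one_le_pow₀ (by norm_num)
  rw [← pow_add]
  rcases le_or_gt s 3236 with hs | hs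
  · have hpow : Lr s ^ f ≤ (3 / 8 : ℝ) ^ f :=
      pow_le_pow_left₀ (Lr_pos s).le (Lr_le_of_three_le h3) _
    have hn : (3 / 8 : ℝ) ^ n = (3 / 8) ^ f * (3 / 8) ^ (s + r) := by
      rw [← pow_add]; congr 1; omega
    have hx : (3 / 8 : ℝ) ^ (s + r) * (1 / 8) ^ (s + r) = 1 / (64 / 3) ^ (s + r) := by
      rw [← mul_pow, ← _root_.one_div_pow]
      congr 1
      norm_num
    have hle : (64 / 3 : ℝ) ^ (s + r) ≤ (64 / 3) ^ 6472 :=
      pow_le_pow_right₀ (by norm_num) (by omega)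
    have hpos : (0 : ℝ) < (64 / 3) ^ (s + r) := by positivity
    have h1 : (1 : ℝ) ≤ (64 / 3) ^ 6472 * (1 / (64 / 3) ^ (s + r)) := by
      rw [mul_one_div, le_div_iff₀ hpos, one_mul]
      exact hle
    calc Lr s ^ f ≤ (3 / 8 : ℝ) ^ f := hpow
      _ = (3 / 8 : ℝ) ^ f * 1 := (mul_one _).symm
      _ ≤ (3 / 8 : ℝ) ^ f * ((64 / 3) ^ 6472 * (1 / (64 / 3) ^ (s + r))) :=
          mul_le_mul_of_nonneg_left h1 (by positivity)
      _ = (64 / 3 : ℝ) ^ 6472 * (3 / 8) ^ n * (1 / 8) ^ (s + r) := by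
          rw [hn, ← hx]; ring
  · have hL : Lr s ≤ 9 / 512 := (Lr_antitone hs.le).trans Lr_3236
    have hpow : Lr s ^ f ≤ (9 / 512 : ℝ) ^ f := pow_le_pow_left₀ (Lr_pos s).le hL _
    have h1 : (3 / 8 : ℝ) ^ (2 * f) ≤ (3 / 8) ^ n :=
      pow_le_pow_of_le_one (by norm_num) (by norm_num) (by omega)
    have h2 : (1 / 8 : ℝ) ^ f ≤ (1 / 8) ^ (s + r) :=
      pow_le_pow_of_le_one (by norm_num) (by norm_num) (by omega)
    have h3' : (9 / 512 : ℝ) ^ f = (3 / 8) ^ (2 * f) * (1 / 8) ^ f := by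
      rw [pow_mul, ← mul_pow]; norm_num
    calc Lr s ^ f ≤ (9 / 512 : ℝ) ^ f := hpow
      _ = (3 / 8) ^ (2 * f) * (1 / 8) ^ f := h3'
      _ ≤ (3 / 8) ^ n * (1 / 8) ^ (s + r) := mul_le_mul h1 h2 (by positivity) (by positivity)
      _ = 1 * ((3 / 8) ^ n * (1 / 8) ^ (s + r)) := (one_mul _).symm
      _ ≤ (64 / 3 : ℝ) ^ 6472 * ((3 / 8) ^ n * (1 / 8) ^ (s + r)) :=
          mul_le_mul_of_nonneg_right hA1 (by positivity)
      _ = (64 / 3 : ℝ) ^ 6472 * (3 / 8) ^ n * (1 / 8) ^ (s + r) := by ring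

open Classical in
theorem evSet_card_le {n : ℕ} {p : Finset (Fin n) × Finset (Fin n)} (hp : p ∈ pairsTR n) :
    ((evSet n p).card : ℝ) ≤ 2 ^ (Nat.choose (n + 1) 2) *
      ((64 / 3 : ℝ) ^ 6472 * (3 / 8) ^ n * ((1 / 8) ^ p.1.card * (1 / 8) ^ p.2.card)) := by
  unfold pairsTR at hp
  rw [mem_filter] at hp
  obtain ⟨-, h3, h4, hdisj, hcard⟩ := hp
  have hFT : Disjoint (univ \ (p.1 ∪ p.2)) p.1 := by
    rw [Finset.disjoint_left]
    intro k hk hk'
    rw [Finset.mem_sdiff] at hk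
    exact hk.2 (Finset.mem_union_left _ hk')
  have hFR : Disjoint (univ \ (p.1 ∪ p.2)) p.2 := by
    rw [Finset.disjoint_left]
    intro k hk hk'
    rw [Finset.mem_sdiff] at hk
    exact hk.2 (Finset.mem_union_right _ hk')
  have hcount := evS_count (univ \ (p.1 ∪ p.2)).card (Fin n) p.1 p.2 (univ \ (p.1 ∪ p.2)) rfl
    hFT hFR
  have hf : (univ \ (p.1 ∪ p.2)).card + p.1.card + p.2.card = n := by
    have h1 : (p.1 ∪ p.2).card = p.1.card + p.2.card :=
      Finset.card_union_of_disjoint hdisj.symm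
    have h2 := Finset.card_sdiff_add_card_eq_card (Finset.subset_univ (p.1 ∪ p.2))
    rw [Finset.card_univ, Fintype.card_fin] at h2
    omega
  have hterm := sparse_term_bound h3 h4 hcard hf
  rw [card_symSet, Fintype.card_fin] at hcount
  have hcountR : ((evSet n p).card : ℝ) * 2 ^ (p.1.card * (univ \ (p.1 ∪ p.2)).card) ≤
      (cb p.1.card : ℝ) ^ (univ \ (p.1 ∪ p.2)).card * 2 ^ (Nat.choose (n + 1) 2) := by
    have : (((evSet n p).card * 2 ^ (p.1.card * (univ \ (p.1 ∪ p.2)).card) : ℕ) : ℝ) ≤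
        ((cb p.1.card ^ (univ \ (p.1 ∪ p.2)).card * 2 ^ (Nat.choose (n + 1) 2) : ℕ) : ℝ) := by
      exact_mod_cast hcount
    push_cast at this
    exact this
  have hLr : Lr p.1.card ^ (univ \ (p.1 ∪ p.2)).card =
      (cb p.1.card : ℝ) ^ (univ \ (p.1 ∪ p.2)).card /
        2 ^ (p.1.card * (univ \ (p.1 ∪ p.2)).card) := by
    unfold Lr
    rw [div_pow, ← pow_mul]
  have hN : (0 : ℝ) < 2 ^ (Nat.choose (n + 1) 2) := by positivity
  have h5 : ((evSet n p).card : ℝ) ≤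
      2 ^ (Nat.choose (n + 1) 2) * Lr p.1.card ^ (univ \ (p.1 ∪ p.2)).card := by
    rw [hLr, mul_div_assoc', le_div_iff₀ (by positivity)]
    linarith
  exact h5.trans (mul_le_mul_of_nonneg_left hterm hN.le)

theorem sum_powerset_pow (n : ℕ) (x : ℝ) :
    ∑ T ∈ (univ : Finset (Fin n)).powerset, x ^ T.card = (x + 1) ^ n := by
  have h := Finset.sum_pow_mul_eq_add_pow x 1 (univ : Finset (Fin n))
  simp only [one_pow, mul_one, Finset.card_univ, Fintype.card_fin] at h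
  exact h

open Classical in
theorem spSet_card_le (n : ℕ) :
    ((spSet n).card : ℝ) ≤ ((n * n - n : ℕ) : ℝ) * 2 ^ (Nat.choose n 2) +
      2 ^ (Nat.choose (n + 1) 2) * ((64 / 3 : ℝ) ^ 6472 * (243 / 512) ^ n) := by
  have h1 : (spSet n).card ≤ ((univ : Finset (Fin n)).offDiag.biUnion Ev).card +
      ((pairsTR n).biUnion (evSet n)).card :=
    (Finset.card_le_card (spSet_subset n)).trans (Finset.card_union_le _ _)
  have h2 : ((univ : Finset (Fin n)).offDiag.biUnion Ev).card ≤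
      (n * n - n) * 2 ^ (Nat.choose n 2) := by
    refine Finset.card_biUnion_le.trans ?_
    rw [Finset.sum_congr rfl (fun p hp => Ev_card (mem_offDiag.1 hp).2.2), Finset.sum_const,
      smul_eq_mul, Finset.offDiag_card, Finset.card_univ, Fintype.card_fin]
  have h3 : (((pairsTR n).biUnion (evSet n)).card : ℝ) ≤
      2 ^ (Nat.choose (n + 1) 2) * ((64 / 3 : ℝ) ^ 6472 * (243 / 512) ^ n) := by
    have h4 : (((pairsTR n).biUnion (evSet n)).card : ℝ) ≤
        ∑ p ∈ pairsTR n, ((evSet n p).card : ℝ) := by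
      exact_mod_cast Finset.card_biUnion_le (s := pairsTR n) (t := evSet n)
    refine h4.trans ?_
    refine (Finset.sum_le_sum fun p hp => evSet_card_le hp).trans ?_
    have h5 : ∑ p ∈ pairsTR n, (2 : ℝ) ^ (Nat.choose (n + 1) 2) *
        ((64 / 3 : ℝ) ^ 6472 * (3 / 8) ^ n * ((1 / 8) ^ p.1.card * (1 / 8) ^ p.2.card)) ≤
        ∑ p ∈ (univ : Finset (Fin n)).powerset ×ˢ (univ : Finset (Fin n)).powerset,
          (2 : ℝ) ^ (Nat.choose (n + 1) 2) *
          ((64 / 3 : ℝ) ^ 6472 * (3 / 8) ^ n * ((1 / 8) ^ p.1.card * (1 / 8) ^ p.2.card)) := by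
      refine Finset.sum_le_sum_of_subset_of_nonneg (Finset.filter_subset _ _) ?_
      intro p _ _
      positivity
    refine h5.trans ?_
    rw [← Finset.mul_sum, ← Finset.mul_sum]
    have h9 : ∑ p ∈ (univ : Finset (Fin n)).powerset ×ˢ (univ : Finset (Fin n)).powerset,
        (1 / 8 : ℝ) ^ p.1.card * (1 / 8) ^ p.2.card = (1 / 8 + 1) ^ n * (1 / 8 + 1) ^ n := by
      rw [Finset.sum_product' (univ : Finset (Fin n)).powerset (univ : Finset (Fin n)).powerset
        (fun T R => (1 / 8 : ℝ) ^ T.card * (1 / 8) ^ R.card), ← Finset.sum_mul_sum,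
        sum_powerset_pow]
    have h6 : (243 / 512 : ℝ) ^ n = (3 / 8) ^ n * ((1 / 8 + 1) ^ n * (1 / 8 + 1) ^ n) := by
      rw [← mul_pow, ← mul_pow]; norm_num
    rw [h9, h6]
    exact le_of_eq (by ring)
  have h7 : ((spSet n).card : ℝ) ≤ (((univ : Finset (Fin n)).offDiag.biUnion Ev).card : ℝ) +
      (((pairsTR n).biUnion (evSet n)).card : ℝ) := by
    exact_mod_cast h1
  have h8 : (((univ : Finset (Fin n)).offDiag.biUnion Ev).card : ℝ) ≤
      ((n * n - n : ℕ) : ℝ) * 2 ^ (Nat.choose n 2) := by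
    exact_mod_cast h2
  linarith

end Vale.Agent.Lib.P160
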