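import Vale.Agent.Lib.P160.SparseMain
import Vale.Agent.Lib.P160.Defs3

namespace Vale.Agent.Lib.P160

open Finset Matrix

open Classical in
/-- The symmetric sign matrices having a nonzero null vector whose number `s` of nonzero
coordinates satisfies `2 q s + n ≤ q n`. -/
noncomputable def spSetQ (q n : ℕ) : Finset (Matrix (Fin n) (Fin n) ℤˣ) :=
  (symSet (Fin n)).filter fun A => ∃ v : Fin n → ℝ, v ≠ 0 ∧
    2 * q * (univ.filter fun j => v j ≠ 0).card + n ≤ q * n ∧ toR A *ᵥ v = 0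

open Classical in
theorem mem_spSetQ {q n : ℕ} {A : Matrix (Fin n) (Fin n) ℤˣ} :
    A ∈ spSetQ q n ↔ A ∈ symSet (Fin n) ∧ ∃ v : Fin n → ℝ, v ≠ 0 ∧
    2 * q * (univ.filter fun j => v j ≠ 0).card + n ≤ q * n ∧ toR A *ᵥ v = 0 := by
  unfold spSetQ
  rw [mem_filter]

/-- The index set of pairs `(T, R)` used in the union bound. -/
noncomputable def pairsQ (q n : ℕ) : Finset (Finset (Fin n) × Finset (Fin n)) :=
  ((univ : Finset (Fin n)).powerset ×ˢ (univ : Finset (Fin n)).powerset).filter fun p =>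
    3 ≤ p.1.card ∧ 2 * q * p.1.card + n ≤ q * n ∧ Disjoint p.2 p.1 ∧ p.2.card + 1 ≤ p.1.card

open Classical in
theorem spSetQ_subset (q n : ℕ) :
    spSetQ q n ⊆ (univ : Finset (Fin n)).offDiag.biUnion Ev ∪ (pairsQ q n).biUnion (evSet n) := by
  intro A hA
  rw [mem_spSetQ] at hA
  obtain ⟨hA1, v, hv0, hv4, hAv⟩ := hA
  have h2 := two_le_supp hv0 hAv
  rw [mem_union]
  rcases Nat.eq_or_lt_of_le h2 with h2' | h3
  · left
    exact mem_biUnion_of_supp_two hA1 h2'.symm hAv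
  · right
    obtain ⟨R, hdisj, hcard, hev⟩ :=
      exists_rows_of_null (A := A) (v := v) (univ.filter fun j => v j ≠ 0)
        (fun j => by simp) hv0 hAv
    rw [mem_biUnion]
    refine ⟨(univ.filter fun j => v j ≠ 0, R), ?_, ?_⟩
    · unfold pairsQ
      rw [mem_filter, mem_product, mem_powerset, mem_powerset]
      exact ⟨⟨subset_univ _, subset_univ _⟩, h3, hv4, hdisj, hcard⟩
    · rw [mem_evSet]
      exact ⟨hA1, hev⟩

/-- The threshold support size for parameter `q`. -/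
noncomputable def sOne (q : ℕ) : ℕ := 2 * ⌈((64 / 3 : ℝ) ^ q) ^ 2⌉₊

/-- The constant for parameter `q`. -/
noncomputable def constQ (q : ℕ) : ℝ := (64 / 3 : ℝ) ^ (2 * sOne q)

theorem Lr_sOne (q : ℕ) : Lr (sOne q) ≤ (3 / 64 : ℝ) ^ q := by
  have hD : (0 : ℝ) < (64 / 3 : ℝ) ^ q := by positivity
  have h1 : ((64 / 3 : ℝ) ^ q) ^ 2 ≤ 2 * ((⌈((64 / 3 : ℝ) ^ q) ^ 2⌉₊ : ℕ) : ℝ) + 1 := by
    have := Nat.le_ceil (((64 / 3 : ℝ) ^ q) ^ 2)
    have h0 : (0 : ℝ) ≤ ((⌈((64 / 3 : ℝ) ^ q) ^ 2⌉₊ : ℕ) : ℝ) := Nat.cast_nonneg _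
    linarith
  have h2 := Lr_even_mul_le hD.le h1
  have h3 : (3 / 64 : ℝ) ^ q = 1 / (64 / 3 : ℝ) ^ q := by
    rw [← _root_.one_div_pow]; norm_num
  rw [h3, le_div_iff₀ hD]
  exact h2

theorem sparse_term_boundQ {q n s r f : ℕ} (h3 : 3 ≤ s) (h4 : 2 * q * s + n ≤ q * n)
    (hr : r + 1 ≤ s) (hf : f + s + r = n) :
    Lr s ^ f ≤ constQ q * (3 / 8) ^ n * ((1 / 8) ^ s * (1 / 8) ^ r) := by
  have hA1 : (1 : ℝ) ≤ constQ q := one_le_pow₀ (by norm_num)
  rw [← pow_add]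
  rcases le_or_gt s (sOne q) with hs | hs
  · have hpow : Lr s ^ f ≤ (3 / 8 : ℝ) ^ f :=
      pow_le_pow_left₀ (Lr_pos s).le (Lr_le_of_three_le h3) _
    have hn : (3 / 8 : ℝ) ^ n = (3 / 8) ^ f * (3 / 8) ^ (s + r) := by
      rw [← pow_add]; congr 1; omega
    have hx : (3 / 8 : ℝ) ^ (s + r) * (1 / 8) ^ (s + r) = 1 / (64 / 3) ^ (s + r) := by
      rw [← mul_pow, ← _root_.one_div_pow]
      congr 1
      norm_num
    have hle : (64 / 3 : ℝ) ^ (s + r) ≤ constQ q :=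
      pow_le_pow_right₀ (by norm_num) (by omega)
    have hpos : (0 : ℝ) < (64 / 3) ^ (s + r) := by positivity
    have h1 : (1 : ℝ) ≤ constQ q * (1 / (64 / 3) ^ (s + r)) := by
      rw [mul_one_div, le_div_iff₀ hpos, one_mul]
      exact hle
    calc Lr s ^ f ≤ (3 / 8 : ℝ) ^ f := hpow
      _ = (3 / 8 : ℝ) ^ f * 1 := (mul_one _).symm
      _ ≤ (3 / 8 : ℝ) ^ f * (constQ q * (1 / (64 / 3) ^ (s + r))) :=
          mul_le_mul_of_nonneg_left h1 (by positivity)
      _ = constQ q * (3 / 8) ^ n * (1 / 8) ^ (s + r) := by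
          rw [hn, ← hx]; ring
  · have hL : Lr s ≤ (3 / 64 : ℝ) ^ q := (Lr_antitone hs.le).trans (Lr_sOne q)
    have hpow : Lr s ^ f ≤ ((3 / 64 : ℝ) ^ q) ^ f := pow_le_pow_left₀ (Lr_pos s).le hL _
    have hqf : n ≤ q * f := by
      have e1 : q * f + q * s + q * r = q * n := by rw [← hf]; ring
      have e2 : q * r + q ≤ q * s := by
        have := Nat.mul_le_mul_left q hr
        rw [Nat.mul_add, Nat.mul_one] at this
        exact this
      have e3 : 2 * q * s = 2 * (q * s) := by ring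
      omega
    have h1 : ((3 / 64 : ℝ) ^ q) ^ f ≤ (3 / 64 : ℝ) ^ n := by
      rw [← pow_mul]
      exact pow_le_pow_of_le_one (by norm_num) (by norm_num) hqf
    have h2 : (1 / 8 : ℝ) ^ n ≤ (1 / 8) ^ (s + r) :=
      pow_le_pow_of_le_one (by norm_num) (by norm_num) (by omega)
    have h3' : (3 / 64 : ℝ) ^ n = (3 / 8) ^ n * (1 / 8) ^ n := by
      rw [← mul_pow]; norm_num
    calc Lr s ^ f ≤ ((3 / 64 : ℝ) ^ q) ^ f := hpow
      _ ≤ (3 / 64 : ℝ) ^ n := h1
      _ = (3 / 8) ^ n * (1 / 8) ^ n := h3'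
      _ ≤ (3 / 8) ^ n * (1 / 8) ^ (s + r) := mul_le_mul_of_nonneg_left h2 (by positivity)
      _ = 1 * ((3 / 8) ^ n * (1 / 8) ^ (s + r)) := (one_mul _).symm
      _ ≤ constQ q * ((3 / 8) ^ n * (1 / 8) ^ (s + r)) :=
          mul_le_mul_of_nonneg_right hA1 (by positivity)
      _ = constQ q * (3 / 8) ^ n * (1 / 8) ^ (s + r) := by ring

open Classical in
theorem evSet_card_leQ {q n : ℕ} {p : Finset (Fin n) × Finset (Fin n)} (hp : p ∈ pairsQ q n) :
    ((evSet n p).card : ℝ) ≤ 2 ^ (Nat.choose (n + 1) 2) *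
      (constQ q * (3 / 8) ^ n * ((1 / 8) ^ p.1.card * (1 / 8) ^ p.2.card)) := by
  unfold pairsQ at hp
  rw [mem_filter] at hp
  obtain ⟨-, h3, h4, hdisj, hcard⟩ := hp
  have hFT : Disjoint (univ \ (p.1 ∪ p.2)) p.1 := by
    rw [Finset.disjoint_left]
    intro k hk hk'
    rw [Finset.mem_sdiff] at hk
    exact hk.2 (Finset.mem_union_left _ hk')
  have hFR : Disjoint (univ \ (p.1 ∪ p.2)) p.2 := by
    rw [Finset.disjoint_left]
    intro k hk hk'
    rw [Finset.mem_sdiff] at hk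
    exact hk.2 (Finset.mem_union_right _ hk')
  have hcount := evS_count (univ \ (p.1 ∪ p.2)).card (Fin n) p.1 p.2 (univ \ (p.1 ∪ p.2)) rfl
    hFT hFR
  have hf : (univ \ (p.1 ∪ p.2)).card + p.1.card + p.2.card = n := by
    have h1 : (p.1 ∪ p.2).card = p.1.card + p.2.card :=
      Finset.card_union_of_disjoint hdisj.symm
    have h2 := Finset.card_sdiff_add_card_eq_card (Finset.subset_univ (p.1 ∪ p.2))
    rw [Finset.card_univ, Fintype.card_fin] at h2
    omega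
  have hterm := sparse_term_boundQ h3 h4 hcard hf
  rw [card_symSet, Fintype.card_fin] at hcount
  have hcountR : ((evSet n p).card : ℝ) * 2 ^ (p.1.card * (univ \ (p.1 ∪ p.2)).card) ≤
      (cb p.1.card : ℝ) ^ (univ \ (p.1 ∪ p.2)).card * 2 ^ (Nat.choose (n + 1) 2) := by
    have : (((evSet n p).card * 2 ^ (p.1.card * (univ \ (p.1 ∪ p.2)).card) : ℕ) : ℝ) ≤
        ((cb p.1.card ^ (univ \ (p.1 ∪ p.2)).card * 2 ^ (Nat.choose (n + 1) 2) : ℕ) : ℝ) := by
      exact_mod_cast hcount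
    push_cast at this
    exact this
  have hLr : Lr p.1.card ^ (univ \ (p.1 ∪ p.2)).card =
      (cb p.1.card : ℝ) ^ (univ \ (p.1 ∪ p.2)).card /
        2 ^ (p.1.card * (univ \ (p.1 ∪ p.2)).card) := by
    unfold Lr
    rw [div_pow, ← pow_mul]
  have hN : (0 : ℝ) < 2 ^ (Nat.choose (n + 1) 2) := by positivity
  have h5 : ((evSet n p).card : ℝ) ≤
      2 ^ (Nat.choose (n + 1) 2) * Lr p.1.card ^ (univ \ (p.1 ∪ p.2)).card := by
    rw [hLr, mul_div_assoc', le_div_iff₀ (by positivity)]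
    linarith
  exact h5.trans (mul_le_mul_of_nonneg_left hterm hN.le)

open Classical in
theorem spSetQ_card_le (q n : ℕ) :
    ((spSetQ q n).card : ℝ) ≤ ((n * n - n : ℕ) : ℝ) * 2 ^ (Nat.choose n 2) +
      2 ^ (Nat.choose (n + 1) 2) * (constQ q * (243 / 512) ^ n) := by
  have hC : (0 : ℝ) < constQ q := by unfold constQ; positivity
  have h1 : (spSetQ q n).card ≤ ((univ : Finset (Fin n)).offDiag.biUnion Ev).card +
      ((pairsQ q n).biUnion (evSet n)).card :=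
    (Finset.card_le_card (spSetQ_subset q n)).trans (Finset.card_union_le _ _)
  have h2 : ((univ : Finset (Fin n)).offDiag.biUnion Ev).card ≤
      (n * n - n) * 2 ^ (Nat.choose n 2) := by
    refine Finset.card_biUnion_le.trans ?_
    rw [Finset.sum_congr rfl (fun p hp => Ev_card (mem_offDiag.1 hp).2.2), Finset.sum_const,
      smul_eq_mul, Finset.offDiag_card, Finset.card_univ, Fintype.card_fin]
  have h3 : (((pairsQ q n).biUnion (evSet n)).card : ℝ) ≤
      2 ^ (Nat.choose (n + 1) 2) * (constQ q * (243 / 512) ^ n) := by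
    have h4 : (((pairsQ q n).biUnion (evSet n)).card : ℝ) ≤
        ∑ p ∈ pairsQ q n, ((evSet n p).card : ℝ) := by
      exact_mod_cast Finset.card_biUnion_le (s := pairsQ q n) (t := evSet n)
    refine h4.trans ?_
    refine (Finset.sum_le_sum fun p hp => evSet_card_leQ hp).trans ?_
    have h5 : ∑ p ∈ pairsQ q n, (2 : ℝ) ^ (Nat.choose (n + 1) 2) *
        (constQ q * (3 / 8) ^ n * ((1 / 8) ^ p.1.card * (1 / 8) ^ p.2.card)) ≤
        ∑ p ∈ (univ : Finset (Fin n)).powerset ×ˢ (univ : Finset (Fin n)).powerset,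
          (2 : ℝ) ^ (Nat.choose (n + 1) 2) *
          (constQ q * (3 / 8) ^ n * ((1 / 8) ^ p.1.card * (1 / 8) ^ p.2.card)) := by
      refine Finset.sum_le_sum_of_subset_of_nonneg (Finset.filter_subset _ _) ?_
      intro p _ _
      positivity
    refine h5.trans ?_
    rw [← Finset.mul_sum, ← Finset.mul_sum]
    have h9 : ∑ p ∈ (univ : Finset (Fin n)).powerset ×ˢ (univ : Finset (Fin n)).powerset,
        (1 / 8 : ℝ) ^ p.1.card * (1 / 8) ^ p.2.card = (1 / 8 + 1) ^ n * (1 / 8 + 1) ^ n := by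
      rw [Finset.sum_product' (univ : Finset (Fin n)).powerset (univ : Finset (Fin n)).powerset
        (fun T R => (1 / 8 : ℝ) ^ T.card * (1 / 8) ^ R.card), ← Finset.sum_mul_sum,
        sum_powerset_pow]
    have h6 : (243 / 512 : ℝ) ^ n = (3 / 8) ^ n * ((1 / 8 + 1) ^ n * (1 / 8 + 1) ^ n) := by
      rw [← mul_pow, ← mul_pow]; norm_num
    rw [h9, h6]
    exact le_of_eq (by ring)
  have h7 : ((spSetQ q n).card : ℝ) ≤ (((univ : Finset (Fin n)).offDiag.biUnion Ev).card : ℝ) +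
      (((pairsQ q n).biUnion (evSet n)).card : ℝ) := by
    exact_mod_cast h1
  have h8 : (((univ : Finset (Fin n)).offDiag.biUnion Ev).card : ℝ) ≤
      ((n * n - n : ℕ) : ℝ) * 2 ^ (Nat.choose n 2) := by
    exact_mod_cast h2
  linarith

end Vale.Agent.Lib.P160
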