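import Vale.Agent.Lib.P160.Sparse3

namespace Vale.Agent.Lib.P160

open Finset Matrix

theorem sparseNullProb_eq (n : ℕ) :
    sparseNullProb n = ((spSet n).card : ℝ) / ((symSignMatrices n).card : ℝ) := rfl

open Classical in
theorem biUnion_Ev_subset_spSet {n : ℕ} (hn : 8 ≤ n) :
    ((univ : Finset (Fin n)).offDiag).biUnion Ev ⊆ spSet n := by
  intro A hA
  rw [mem_biUnion] at hA
  obtain ⟨p, hp, hAp⟩ := hA
  have hne : p.1 ≠ p.2 := (mem_offDiag.1 hp).2.2
  unfold Ev at hAp
  rw [mem_spSet]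
  have hnull := pairEvent_null hne hAp
  have hs : A ∈ symSet (Fin n) := mem_symSet.2 (mem_pairEvent.1 hAp).1
  refine ⟨hs, ?_⟩
  refine ⟨fun l => ((((Pi.single p.1 1 - Pi.single p.2 ((sg p : ℤˣ) : ℤ) : Fin n → ℤ) l : ℤ)) : ℝ),
    ?_⟩
  refine ⟨?_, ?_, hnull⟩
  · intro h
    have := congrFun h p.1
    simp [hne] at this
  · have hsub : (univ.filter fun j =>
        ((((Pi.single p.1 1 - Pi.single p.2 ((sg p : ℤˣ) : ℤ) : Fin n → ℤ) j : ℤ)) : ℝ) ≠ 0) ⊆
        {p.1, p.2} := by
      intro j hj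
      rw [mem_filter] at hj
      rw [mem_insert, mem_singleton]
      by_contra hcon
      rw [not_or] at hcon
      apply hj.2
      simp [hcon.1, hcon.2]
    have hc := (Finset.card_le_card hsub).trans Finset.card_le_two
    beta_reduce
    omega

theorem sparseNullProb_ge {n : ℕ} (hn : 8 ≤ n) : lowerB n ≤ sparseNullProb n := by
  rw [sparseNullProb_eq]
  exact prob_ge n _ (biUnion_Ev_subset_spSet hn)

theorem sparseNullProb_le (n : ℕ) :
    sparseNullProb n ≤ ((n : ℝ) * ((n : ℝ) - 1)) / 2 ^ n +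
      (64 / 3 : ℝ) ^ 6472 * (243 / 512) ^ n := by
  rw [sparseNullProb_eq, symSignMatrices_eq, card_symSet, Fintype.card_fin]
  have h3 := spSet_card_le n
  have hc : Nat.choose (n + 1) 2 = n + Nat.choose n 2 := by
    rw [Nat.choose_succ_succ' n 1, Nat.choose_one_right]
  have hnn : ((n * n - n : ℕ) : ℝ) = (n : ℝ) * ((n : ℝ) - 1) := by
    have : n ≤ n * n := Nat.le_mul_self n
    rw [Nat.cast_sub this]
    push_cast
    ring
  rw [hnn, hc] at h3
  push_cast
  rw [hc, div_le_iff₀ (by positivity)]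
  refine h3.trans (le_of_eq ?_)
  rw [pow_add]
  have h2n : (2 : ℝ) ^ n ≠ 0 := by positivity
  have h2c : (2 : ℝ) ^ (Nat.choose n 2) ≠ 0 := by positivity
  generalize (64 / 3 : ℝ) ^ 6472 = C
  field_simp

theorem sparseNullProb_tendsto :
    Filter.Tendsto (fun n : ℕ => sparseNullProb n * 2 ^ n / (n : ℝ) ^ 2) Filter.atTop
      (nhds 1) :=
  tendsto_ratio (C := (64 / 3 : ℝ) ^ 6472) (θ := 243 / 512) (by norm_num) (by norm_num) 8
    (fun _ hn => sparseNullProb_ge hn) (fun n _ => sparseNullProb_le n)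

open Classical in
theorem symProb_le_singProb (n : ℕ) (P : Matrix (Fin n) (Fin n) ℝ → Prop)
    (hP : ∀ M, P M → M.det = 0) : symProb n P ≤ singProb n := by
  unfold symProb singProb
  refine div_le_div_of_nonneg_right ?_ (Nat.cast_nonneg _)
  have : ((symSignMatrices n).filter fun A => P (A.map fun u : ℤˣ => ((u : ℤ) : ℝ))).card ≤
      ((symSignMatrices n).filter fun A =>
        (A.map fun u : ℤˣ => ((u : ℤ) : ℝ)).det = 0).card := by
    refine Finset.card_le_card ?_
    intro A hA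
    rw [mem_filter] at hA ⊢
    exact ⟨hA.1, hP _ hA.2⟩
  exact_mod_cast this

theorem sparseNullProb_le_singProb (n : ℕ) : sparseNullProb n ≤ singProb n := by
  refine symProb_le_singProb n _ ?_
  rintro M ⟨v, hv, -, hMv⟩
  exact Matrix.exists_mulVec_eq_zero_iff.1 ⟨v, hv, hMv⟩

theorem smallNullProb_le_singProb (K n : ℕ) : smallNullProb K n ≤ singProb n := by
  refine symProb_le_singProb n _ ?_
  rintro M ⟨v, hv, -, hMv⟩
  refine Matrix.exists_mulVec_eq_zero_iff.1 ⟨fun j => ((v j : ℤ) : ℝ), ?_, hMv⟩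
  intro h
  apply hv
  funext j
  have := congrFun h j
  simpa using this

end Vale.Agent.Lib.P160
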