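import Vale.Agent.Lib.P160.Small
import Vale.Agent.Lib.P160.Defs2

namespace Vale.Agent.Lib.P160

open Finset Matrix

section general

variable {ι : Type*} [Fintype ι] [DecidableEq ι] [LinearOrder ι]

theorem union_count :
    2 * ((univ : Finset ι).offDiag.card * 2 ^ (Nat.choose (Fintype.card ι) 2)) ≤
      2 * (((univ : Finset ι).offDiag).biUnion (Ev (ι := ι))).card +
        (univ : Finset ι).offDiag.card * (((univ : Finset ι).offDiag.card - 2) *
          2 ^ (Nat.choose (Fintype.card ι - 1) 2)) := by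
  have hB := bonferroni ((univ : Finset ι).offDiag) (Ev (ι := ι))
  have h1 : ∑ p ∈ (univ : Finset ι).offDiag, (Ev p).card =
      (univ : Finset ι).offDiag.card * 2 ^ (Nat.choose (Fintype.card ι) 2) := by
    rw [Finset.sum_congr rfl (fun p hp => Ev_card (mem_offDiag.1 hp).2.2), Finset.sum_const,
      smul_eq_mul]
  have h2 : ∑ p ∈ (univ : Finset ι).offDiag, ∑ q ∈ (univ : Finset ι).offDiag,
      (Ev p ∩ Ev q).card ≤ (univ : Finset ι).offDiag.card *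
        (2 ^ (Nat.choose (Fintype.card ι) 2) +
        ((univ : Finset ι).offDiag.card - 2) * 2 ^ (Nat.choose (Fintype.card ι - 1) 2)) := by
    rw [← smul_eq_mul]
    exact Finset.sum_le_card_nsmul _ _ _ fun p hp => inner_sum_le hp
  rw [h1] at hB
  rw [mul_add] at h2
  omega

omit [LinearOrder ι] in
/-- The real null vector `e_i - σ e_j` of a matrix in `pairEvent i j σ`. -/
theorem pairEvent_null {i j : ι} (hij : i ≠ j) {σ : ℤˣ} {A : Matrix ι ι ℤˣ}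
    (hA : A ∈ pairEvent i j σ) :
    toR A *ᵥ (fun l => ((((Pi.single i 1 - Pi.single j (σ : ℤ) : ι → ℤ) l : ℤ)) : ℝ)) = 0 := by
  rw [mem_pairEvent] at hA
  funext k
  rw [toR_mulVec]
  unfold sdot
  have h1 : ∀ l, ((A k l : ℤ) : ℝ) *
      (((Pi.single i 1 - Pi.single j (σ : ℤ) : ι → ℤ) l : ℤ) : ℝ) =
      (if l = i then ((A k i : ℤ) : ℝ) else 0) -
        (if l = j then ((A k j : ℤ) : ℝ) * ((σ : ℤ) : ℝ) else 0) := by
    intro l
    simp only [Pi.sub_apply, Pi.single_apply]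
    by_cases hli : l = i
    · subst hli
      simp [hij]
    · by_cases hlj : l = j
      · subst hlj
        simp [hli]
      · simp [hli, hlj]
  rw [Finset.sum_congr rfl (fun l _ => h1 l), Finset.sum_sub_distrib, Finset.sum_ite_eq',
    Finset.sum_ite_eq']
  simp only [mem_univ, if_true, Pi.zero_apply]
  rw [hA.1 k i, hA.1 k j, hA.2 k]
  push_cast
  ring

end general

/-- The explicit lower bound. -/
noncomputable def lowerB (n : ℕ) : ℝ :=
  ((n : ℝ) * ((n : ℝ) - 1)) / 2 ^ n -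
    ((n : ℝ) * ((n : ℝ) - 1) * ((n : ℝ) * ((n : ℝ) - 1) - 2)) / 4 ^ n

theorem prob_ge_aux (k : ℕ) (Z : Finset (Matrix (Fin (k + 2)) (Fin (k + 2)) ℤˣ))
    (hZ : ((univ : Finset (Fin (k + 2))).offDiag).biUnion Ev ⊆ Z) :
    lowerB (k + 2) ≤ (Z.card : ℝ) / ((symSignMatrices (k + 2)).card : ℝ) := by
  unfold lowerB
  have hmain := union_count (ι := Fin (k + 2))
  have hZc := Finset.card_le_card hZ
  rw [Finset.offDiag_card, Finset.card_univ, Fintype.card_fin] at hmain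
  have hm : (k + 2) * (k + 2) - (k + 2) = (k + 2) * (k + 1) := by
    have : (k + 2) * (k + 2) = (k + 2) * (k + 1) + (k + 2) := by ring
    omega
  rw [hm] at hmain
  have hm2 : (k + 2) * (k + 1) - 2 + 2 = (k + 2) * (k + 1) := by
    have : 2 ≤ (k + 2) * (k + 1) := by nlinarith
    omega
  have hc1 : Nat.choose (k + 2) 2 = Nat.choose (k + 1) 2 + (k + 1) := by
    rw [Nat.choose_succ_succ' (k + 1) 1, Nat.choose_one_right, add_comm]
  have hc0 : Nat.choose (k + 3) 2 = Nat.choose (k + 1) 2 + (k + 1) + (k + 2) := by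
    rw [Nat.choose_succ_succ' (k + 2) 1, Nat.choose_one_right, hc1, add_comm]
  have hS : ((symSignMatrices (k + 2)).card : ℝ) =
      2 ^ (Nat.choose (k + 1) 2) * 2 ^ (k + 1) * 2 ^ (k + 2) := by
    rw [symSignMatrices_eq, card_symSet, Fintype.card_fin, hc0, pow_add, pow_add]
    push_cast
    ring
  have hk21 : k + 2 - 1 = k + 1 := rfl
  rw [hk21, hc1, pow_add] at hmain
  have hmain' : 2 * ((k + 2) * (k + 1) * (2 ^ (Nat.choose (k + 1) 2) * 2 ^ (k + 1))) ≤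
      2 * Z.card + (k + 2) * (k + 1) * (((k + 2) * (k + 1) - 2) * 2 ^ (Nat.choose (k + 1) 2)) := by
    omega
  have hmainR : (2 : ℝ) * (((k + 2 : ℕ) : ℝ) * ((k + 1 : ℕ) : ℝ) *
      (2 ^ (Nat.choose (k + 1) 2) * 2 ^ (k + 1))) ≤
      2 * (Z.card : ℝ) +
      ((k + 2 : ℕ) : ℝ) * ((k + 1 : ℕ) : ℝ) * ((((k + 2) * (k + 1) - 2 : ℕ) : ℝ) *
        2 ^ (Nat.choose (k + 1) 2)) := by
    exact_mod_cast hmain'
  have hm2R : ((((k + 2) * (k + 1) - 2 : ℕ) : ℝ)) =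
      ((k + 2 : ℕ) : ℝ) * ((k + 1 : ℕ) : ℝ) - 2 := by
    have := congrArg (fun x : ℕ => (x : ℝ)) hm2
    push_cast at this ⊢
    linarith
  rw [hm2R] at hmainR
  rw [hS]
  have hc2 : (0 : ℝ) < 2 ^ (Nat.choose (k + 1) 2) := by positivity
  have hX : (0 : ℝ) < 2 ^ (k + 1) := by positivity
  have h4 : (4 : ℝ) ^ (k + 2) = 2 ^ (k + 2) * 2 ^ (k + 2) := by
    rw [← mul_pow]; norm_num
  have h2 : (2 : ℝ) ^ (k + 2) = 2 * 2 ^ (k + 1) := by
    rw [pow_succ]; ring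
  rw [le_div_iff₀ (by positivity), h4, h2]
  have hk1 : ((k + 1 : ℕ) : ℝ) = ((k + 2 : ℕ) : ℝ) - 1 := by push_cast; ring
  rw [hk1] at hmainR
  have e : (((k + 2 : ℕ) : ℝ) * (((k + 2 : ℕ) : ℝ) - 1) / (2 * 2 ^ (k + 1)) -
      ((k + 2 : ℕ) : ℝ) * (((k + 2 : ℕ) : ℝ) - 1) *
        (((k + 2 : ℕ) : ℝ) * (((k + 2 : ℕ) : ℝ) - 1) - 2) /
        (2 * 2 ^ (k + 1) * (2 * 2 ^ (k + 1)))) *
      (2 ^ (Nat.choose (k + 1) 2) * 2 ^ (k + 1) * (2 * 2 ^ (k + 1))) =
      ((k + 2 : ℕ) : ℝ) * (((k + 2 : ℕ) : ℝ) - 1) * (2 ^ (Nat.choose (k + 1) 2) * 2 ^ (k + 1)) -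
      ((k + 2 : ℕ) : ℝ) * (((k + 2 : ℕ) : ℝ) - 1) *
        (((k + 2 : ℕ) : ℝ) * (((k + 2 : ℕ) : ℝ) - 1) - 2) * 2 ^ (Nat.choose (k + 1) 2) / 2 := by
    field_simp
  rw [e]
  linarith

theorem prob_ge (n : ℕ) (Z : Finset (Matrix (Fin n) (Fin n) ℤˣ))
    (hZ : ((univ : Finset (Fin n)).offDiag).biUnion Ev ⊆ Z) :
    lowerB n ≤ (Z.card : ℝ) / ((symSignMatrices n).card : ℝ) := by
  rcases n with _ | _ | k
  · have : lowerB 0 = 0 := by simp [lowerB]
    rw [this]; positivity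
  · have : lowerB (0 + 1) = 0 := by simp [lowerB]
    rw [this]; positivity
  · exact prob_ge_aux k Z hZ

end Vale.Agent.Lib.P160
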