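import Vale.Agent.Lib.P160.Dense1
import Vale.Agent.Lib.P160.Closed
import Vale.Agent.Lib.P160.helper23.BlockVec

namespace Vale.Agent.Lib.P160

open Finset Matrix

section general

variable {ι : Type} [Fintype ι] [DecidableEq ι]

/-- Greedy choice of rows: starting from `I`, add rows until every row of `A` annihilates the
vectors of `V` that are annihilated by the chosen rows. -/
theorem exists_rows_sub (V : Submodule ℝ (ι → ℝ)) (A : Matrix ι ι ℤˣ) : ∀ (d : ℕ) (I : Finset ι),
    Module.finrank ℝ ↥(V ⊓ annSub univ I A) ≤ d →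
    ∃ I', I ⊆ I' ∧ I'.card + Module.finrank ℝ ↥(V ⊓ annSub univ I' A) ≤
        I.card + Module.finrank ℝ ↥(V ⊓ annSub univ I A) ∧
      ∀ i, ∀ u ∈ V ⊓ annSub univ I' A, sdot (A i) u = 0 := by
  intro d
  induction d with
  | zero =>
    intro I hd
    refine ⟨I, subset_rfl, le_rfl, ?_⟩
    intro i u hu
    have hbot : V ⊓ annSub univ I A = ⊥ := Submodule.finrank_eq_zero.1 (by omega)
    rw [hbot] at hu
    rw [(Submodule.mem_bot ℝ).1 hu, sdot_zero]
  | succ d ih =>
    intro I hd
    by_cases h : ∀ i, ∀ u ∈ V ⊓ annSub univ I A, sdot (A i) u = 0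
    · exact ⟨I, subset_rfl, le_rfl, h⟩
    · simp only [not_forall] at h
      obtain ⟨i, u0, hu0, hne⟩ := h
      have hiI : i ∉ I := fun hi => hne ((mem_annSub.1 (Submodule.mem_inf.1 hu0).2).2 i hi)
      have hlt : V ⊓ annSub univ (insert i I) A < V ⊓ annSub univ I A := by
        refine lt_of_le_of_ne ?_ ?_
        · intro u hu
          rw [Submodule.mem_inf] at hu ⊢
          refine ⟨hu.1, ?_⟩
          have h2 := mem_annSub.1 hu.2
          exact mem_annSub.2 ⟨h2.1, fun r hr => h2.2 r (Finset.mem_insert_of_mem hr)⟩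
        · intro heq
          have : u0 ∈ V ⊓ annSub univ (insert i I) A := by
            rw [heq]; exact hu0
          exact hne ((mem_annSub.1 (Submodule.mem_inf.1 this).2).2 i
            (Finset.mem_insert_self i I))
      have hfr := Submodule.finrank_lt_finrank_of_lt hlt
      obtain ⟨I', hsub, hcard, hall⟩ := ih (insert i I) (by omega)
      refine ⟨I', (Finset.subset_insert i I).trans hsub, ?_, hall⟩
      rw [Finset.card_insert_of_notMem hiI] at hcard
      omega

/-- The vectors that are constant on the fibres of the pattern `p`. -/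
def patSub {m : ℕ} (p : ι → Fin m) : Submodule ℝ (ι → ℝ) :=
  LinearMap.range (LinearMap.funLeft ℝ ℝ p)

omit [DecidableEq ι] in
theorem finrank_patSub_le {m : ℕ} (p : ι → Fin m) : Module.finrank ℝ ↥(patSub p) ≤ m := by
  have h := LinearMap.finrank_range_le (LinearMap.funLeft ℝ ℝ p)
  rw [Module.finrank_fin_fun] at h
  exact h

/-- The event used for null vectors with few values: the vectors of pattern `p` annihilated by
the rows in `I` contain one with at least `s` nonzero coordinates, and all of them are
annihilated by every row. -/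
def FVEv {m : ℕ} (p : ι → Fin m) (I : Finset ι) (s : ℕ) (A : Matrix ι ι ℤˣ) : Prop :=
  (∃ u ∈ patSub p ⊓ annSub univ I A, s ≤ (univ.filter fun j => u j ≠ 0).card) ∧
    ∀ i, ∀ u ∈ patSub p ⊓ annSub univ I A, sdot (A i) u = 0

open Classical in
/-- A canonical vector of `K` with at least `s` nonzero coordinates, if there is one. -/
noncomputable def canonVec (K : Submodule ℝ (ι → ℝ)) (s : ℕ) : ι → ℝ :=
  if h : ∃ u ∈ K, s ≤ (univ.filter fun j => u j ≠ 0).card then Classical.choose h else 0

omit [DecidableEq ι] in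
theorem canonVec_spec {K : Submodule ℝ (ι → ℝ)} {s : ℕ}
    (h : ∃ u ∈ K, s ≤ (univ.filter fun j => u j ≠ 0).card) :
    canonVec K s ∈ K ∧ s ≤ (univ.filter fun j => canonVec K s j ≠ 0).card := by
  unfold canonVec
  rw [dif_pos h]
  exact Classical.choose_spec h

open Classical in
theorem fv_count {m : ℕ} (p : ι → Fin m) (I : Finset ι) (s : ℕ) :
    ((symSet ι).filter fun A => FVEv p I s A).card *
      2 ^ (Nat.choose ((univ \ I).card + 1) 2) ≤
      G (univ \ I).card (s - I.card) * (symSet ι).card := by
  have h := block_count_vec (univ \ I) (s - I.card) (fun A => FVEv p I s A)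
    (fun A => canonVec (patSub p ⊓ annSub univ I A) s)
    (fun A i => - ∑ j ∈ I, ((A i j : ℤ) : ℝ) * canonVec (patSub p ⊓ annSub univ I A) s j)
    (by
      intro A _ B _ _ _ hAB
      have hrow : ∀ r ∈ I, A r = B r := by
        intro r hr
        funext j
        exact hAB r j (fun h => (mem_sdiff.1 h.1).2 hr)
      have hK : annSub univ I A = annSub univ I B := by
        ext u
        rw [mem_annSub, mem_annSub]
        constructor
        · rintro ⟨h1, h2⟩
          exact ⟨h1, fun r hr => by rw [← hrow r hr]; exact h2 r hr⟩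
        · rintro ⟨h1, h2⟩
          exact ⟨h1, fun r hr => by rw [hrow r hr]; exact h2 r hr⟩
      refine ⟨?_, ?_⟩
      · show canonVec (patSub p ⊓ annSub univ I A) s = canonVec (patSub p ⊓ annSub univ I B) s
        rw [hK]
      · funext i
        show - ∑ j ∈ I, ((A i j : ℤ) : ℝ) * canonVec (patSub p ⊓ annSub univ I A) s j =
          - ∑ j ∈ I, ((B i j : ℤ) : ℝ) * canonVec (patSub p ⊓ annSub univ I B) s j
        rw [hK]
        congr 1
        refine Finset.sum_congr rfl fun j hj => ?_
        rw [hAB i j (fun h => (mem_sdiff.1 h.2).2 hj)])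
    (by
      intro A _ hFV
      obtain ⟨hex, hall⟩ := hFV
      obtain ⟨hmem, hnz⟩ := canonVec_spec hex
      refine ⟨fun i _ => ?_, ?_⟩
      · have h0 := hall i _ hmem
        unfold sdot at h0
        rw [← Finset.sum_sdiff (Finset.subset_univ I)] at h0
        linarith
      · have hsub : (univ.filter fun j => canonVec (patSub p ⊓ annSub univ I A) s j ≠ 0) ⊆
            ((univ \ I).filter fun j => canonVec (patSub p ⊓ annSub univ I A) s j ≠ 0) ∪ I := by
          intro j hj
          rw [mem_filter] at hj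
          by_cases hjI : j ∈ I
          · exact mem_union_right _ hjI
          · exact mem_union_left _ (mem_filter.2 ⟨mem_sdiff.2 ⟨mem_univ j, hjI⟩, hj.2⟩)
        have := (Finset.card_le_card hsub).trans (Finset.card_union_le _ _)
        omega)
  convert h using 3

theorem Qr_antitone {a b : ℕ} (h : a ≤ b) : Qr b ≤ Qr a := by
  induction h with
  | refl => exact le_rfl
  | step _ ih =>
    rw [Qr_succ]
    calc Qr _ * Lr _ ≤ Qr _ * 1 :=
          mul_le_mul_of_nonneg_left (Lr_le_one _) (Qr_pos _).le
      _ = Qr _ := mul_one _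
      _ ≤ Qr a := ih

open Classical in
theorem fv_card_le {m : ℕ} (p : ι → Fin m) (I : Finset ι) (s : ℕ)
    (hs : s ≤ Fintype.card ι) (hI : I.card ≤ m) :
    (((symSet ι).filter fun A => FVEv p I s A).card : ℝ) ≤
      Qr (s - m) * ((symSet ι).card : ℝ) := by
  have h1 := fv_count p I s
  have ht : (univ \ I).card = Fintype.card ι - I.card := Finset.card_univ_sdiff I
  have hle : s - I.card ≤ (univ \ I).card := by
    rw [ht]; omega
  have hG := G_eq' hle
  have h3 : (((symSet ι).filter fun A => FVEv p I s A).card : ℝ) *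
      2 ^ (Nat.choose ((univ \ I).card + 1) 2) ≤
      (G (univ \ I).card (s - I.card) : ℝ) * ((symSet ι).card : ℝ) := by
    exact_mod_cast h1
  rw [hG] at h3
  have hp : (0 : ℝ) < 2 ^ (Nat.choose ((univ \ I).card + 1) 2) := by positivity
  have hN : (0 : ℝ) ≤ ((symSet ι).card : ℝ) := Nat.cast_nonneg _
  have hL : Lr (s - I.card) ^ ((univ \ I).card - (s - I.card)) ≤ 1 :=
    pow_le_one₀ (Lr_pos _).le (Lr_le_one _)
  have hQ : Qr (s - I.card) ≤ Qr (s - m) := Qr_antitone (by omega)
  have h4 : 2 ^ (Nat.choose ((univ \ I).card + 1) 2) *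
      Lr (s - I.card) ^ ((univ \ I).card - (s - I.card)) * Qr (s - I.card) *
      ((symSet ι).card : ℝ) ≤
      (Qr (s - m) * ((symSet ι).card : ℝ)) * 2 ^ (Nat.choose ((univ \ I).card + 1) 2) := by
    have h5 : Lr (s - I.card) ^ ((univ \ I).card - (s - I.card)) * Qr (s - I.card) ≤
        Qr (s - m) := by
      calc _ ≤ 1 * Qr (s - I.card) := mul_le_mul_of_nonneg_right hL (Qr_pos _).le
        _ = Qr (s - I.card) := one_mul _
        _ ≤ Qr (s - m) := hQ
    have h6 := mul_le_mul_of_nonneg_right h5 hN
    have h7 := mul_le_mul_of_nonneg_left h6 hp.le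
    calc _ = 2 ^ (Nat.choose ((univ \ I).card + 1) 2) *
          (Lr (s - I.card) ^ ((univ \ I).card - (s - I.card)) * Qr (s - I.card) *
            ((symSet ι).card : ℝ)) := by ring
      _ ≤ 2 ^ (Nat.choose ((univ \ I).card + 1) 2) * (Qr (s - m) * ((symSet ι).card : ℝ)) := h7
      _ = _ := by ring
  exact le_of_mul_le_mul_right (h3.trans h4) hp

end general

end Vale.Agent.Lib.P160
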